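import Vale.Agent.P113.Field

/-!
# P113: basic lemmas on the one-dimensional building blocks
-/

namespace Vale.Agent.P113

open Set MeasureTheory Filter
open scoped ContDiff Topology

theorem bump_contDiff : ContDiff ℝ ∞ bump := by
  unfold bump
  exact (expNegInvGlue.contDiff).mul (expNegInvGlue.contDiff.comp (contDiff_const.sub contDiff_id))

theorem bump_nonneg (x : ℝ) : 0 ≤ bump x :=
  mul_nonneg (expNegInvGlue.nonneg _) (expNegInvGlue.nonneg _)

theorem bump_pos {x : ℝ} (h0 : 0 < x) (h1 : x < 1) : 0 < bump x :=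
  mul_pos (expNegInvGlue.pos_of_pos h0) (expNegInvGlue.pos_of_pos (by linarith))

theorem bump_eq_zero {x : ℝ} (h : x ≤ 0 ∨ 1 ≤ x) : bump x = 0 := by
  unfold bump
  rcases h with h | h
  · rw [expNegInvGlue.zero_of_nonpos h, zero_mul]
  · rw [expNegInvGlue.zero_of_nonpos (by linarith : 1 - x ≤ 0), mul_zero]

theorem bump_continuous : Continuous bump := bump_contDiff.continuous

theorem bumpI_pos : 0 < bumpI := by
  unfold bumpI
  rw [intervalIntegral.integral_pos_iff_support_of_nonneg_ae]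
  · refine ⟨zero_lt_one, ?_⟩
    have : Ioo (0:ℝ) 1 ⊆ Function.support bump ∩ Ioc 0 1 := by
      intro x hx
      exact ⟨(bump_pos hx.1 hx.2).ne', hx.1, hx.2.le⟩
    refine lt_of_lt_of_le ?_ (measure_mono this)
    simp
  · exact Filter.Eventually.of_forall bump_nonneg
  · exact bump_continuous.intervalIntegrable _ _

theorem pulse_contDiff : ContDiff ℝ ∞ pulse := by
  unfold pulse
  exact bump_contDiff.div_const _

theorem pulse_continuous : Continuous pulse := pulse_contDiff.continuous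

theorem pulse_eq_zero {x : ℝ} (h : x ≤ 0 ∨ 1 ≤ x) : pulse x = 0 := by
  unfold pulse; rw [bump_eq_zero h, zero_div]

theorem pulse_nonneg (x : ℝ) : 0 ≤ pulse x := div_nonneg (bump_nonneg x) bumpI_pos.le

theorem step_hasDerivAt (x : ℝ) : HasDerivAt step (pulse x) x := by
  unfold step
  exact intervalIntegral.integral_hasDerivAt_right (pulse_continuous.intervalIntegrable _ _)
    (pulse_continuous.stronglyMeasurableAtFilter _ _) pulse_continuous.continuousAt

theorem step_deriv : deriv step = pulse := funext fun x => (step_hasDerivAt x).deriv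

theorem step_contDiff : ContDiff ℝ ∞ step := by
  rw [contDiff_infty_iff_deriv]
  exact ⟨fun x => (step_hasDerivAt x).differentiableAt, by rw [step_deriv]; exact pulse_contDiff⟩

theorem step_of_nonpos {x : ℝ} (h : x ≤ 0) : step x = 0 := by
  unfold step
  rw [intervalIntegral.integral_symm]
  have : ∫ y in x..0, pulse y = ∫ y in x..0, (0:ℝ) := by
    apply intervalIntegral.integral_congr
    intro y hy
    rw [uIcc_of_le h] at hy
    exact pulse_eq_zero (Or.inl hy.2)
  rw [this]; simp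

theorem step_one : step 1 = 1 := by
  unfold step pulse
  rw [intervalIntegral.integral_div]
  exact div_self bumpI_pos.ne'

theorem step_of_one_le {x : ℝ} (h : 1 ≤ x) : step x = 1 := by
  have h1 : step x = step 1 + ∫ y in (1:ℝ)..x, pulse y := by
    unfold step
    rw [intervalIntegral.integral_add_adjacent_intervals] <;>
      exact pulse_continuous.intervalIntegrable _ _
  have : ∫ y in (1:ℝ)..x, pulse y = ∫ y in (1:ℝ)..x, (0:ℝ) := by
    apply intervalIntegral.integral_congr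
    intro y hy
    rw [uIcc_of_le h] at hy
    exact pulse_eq_zero (Or.inr hy.1)
  rw [h1, this, step_one]; simp

theorem plat_contDiff : ContDiff ℝ ∞ plat := by
  unfold plat
  exact (step_contDiff.comp (by fun_prop)).sub (step_contDiff.comp (by fun_prop))

theorem plat_eq_one {r : ℝ} (h0 : 0 ≤ r) (h1 : r ≤ 1 / 2) : plat r = 1 := by
  unfold plat
  rw [step_of_one_le (by linarith), step_of_nonpos (by linarith)]; simp

theorem plat_eq_zero {r : ℝ} (h : r ≤ -1 / 4 ∨ 3 / 4 ≤ r) : plat r = 0 := by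
  unfold plat
  rcases h with h | h
  · rw [step_of_nonpos (by linarith), step_of_nonpos (by linarith)]; simp
  · rw [step_of_one_le (by linarith), step_of_one_le (by linarith)]; simp

theorem win_contDiff : ContDiff ℝ ∞ win := by
  unfold win
  exact (step_contDiff.comp (by fun_prop)).sub (step_contDiff.comp (by fun_prop))

theorem win_eq_one {x : ℝ} (h0 : 3 / 16 ≤ x) (h1 : x ≤ 3 / 4) : win x = 1 := by
  unfold win
  rw [step_of_one_le (by linarith), step_of_nonpos (by linarith)]; simp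

theorem win_eq_zero {x : ℝ} (h : x ≤ 1 / 8 ∨ 7 / 8 ≤ x) : win x = 0 := by
  unfold win
  rcases h with h | h
  · rw [step_of_nonpos (by linarith), step_of_nonpos (by linarith)]; simp
  · rw [step_of_one_le (by linarith), step_of_one_le (by linarith)]; simp


/-- Local description of a periodisation. -/
theorem per_eq_of_mem {g : ℝ → ℝ} {δ : ℝ} (hδ : 0 < δ)
    (hg : ∀ x, x ≤ δ ∨ 1 - δ ≤ x → g x = 0) (k : ℤ) {x : ℝ} (h0 : (k:ℝ) - δ < x)
    (h1 : x < k + 1 + δ) : per g x = g (x - k) := by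
  unfold per
  rcases lt_or_ge x k with hlt | hge
  · -- fract x = x - k + 1
    have hfl : ⌊x⌋ = k - 1 ∨ ⌊x⌋ < k - 1 := by
      have : ⌊x⌋ < k := Int.floor_lt.2 hlt
      omega
    have hx0 : g (x - k) = 0 := hg _ (Or.inl (by linarith))
    rw [hx0]
    by_cases hd : δ ≤ 1
    · have hfl : ⌊x⌋ = k - 1 := by
        rw [Int.floor_eq_iff]; push_cast; constructor <;> linarith
      apply hg; right
      rw [Int.fract, hfl]; push_cast; linarith
    · apply hg; left
      have := Int.fract_lt_one x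
      linarith
  · rcases lt_or_ge x (k+1) with hlt | hge'
    · have hfl : ⌊x⌋ = k := by
        rw [Int.floor_eq_iff]; constructor <;> linarith
      rw [Int.fract, hfl]
    · have hx0 : g (x - k) = 0 := hg _ (Or.inr (by linarith))
      rw [hx0]
      by_cases hd : δ ≤ 1
      · have hfl : ⌊x⌋ = k + 1 := by
          rw [Int.floor_eq_iff]; push_cast; constructor <;> linarith
        apply hg; left
        rw [Int.fract, hfl]; push_cast; linarith
      · apply hg; left
        have := Int.fract_lt_one x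
        linarith

theorem per_eventuallyEq {g : ℝ → ℝ} {δ : ℝ} (hδ : 0 < δ)
    (hg : ∀ x, x ≤ δ ∨ 1 - δ ≤ x → g x = 0) (x₀ : ℝ) :
    per g =ᶠ[𝓝 x₀] fun x => g (x - ⌊x₀⌋) := by
  have h0 : ((⌊x₀⌋ : ℤ) : ℝ) - δ < x₀ := by have := Int.floor_le x₀; linarith
  have h1 : x₀ < (⌊x₀⌋ : ℤ) + 1 + δ := by have := Int.lt_floor_add_one x₀; linarith
  filter_upwards [Ioo_mem_nhds h0 h1] with x hx
  exact per_eq_of_mem hδ hg _ hx.1 hx.2

theorem per_contDiff {g : ℝ → ℝ} {δ : ℝ} (hδ : 0 < δ)
    (hg : ∀ x, x ≤ δ ∨ 1 - δ ≤ x → g x = 0) (hs : ContDiff ℝ ∞ g) : ContDiff ℝ ∞ (per g) := by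
  rw [contDiff_iff_contDiffAt]
  intro x₀
  have : ContDiffAt ℝ ∞ (fun x => g (x - ⌊x₀⌋)) x₀ :=
    (hs.comp (contDiff_id.sub contDiff_const)).contDiffAt
  exact this.congr_of_eventuallyEq (per_eventuallyEq hδ hg x₀)

theorem per_add_one (g : ℝ → ℝ) (x : ℝ) : per g (x + 1) = per g x := by
  unfold per; rw [Int.fract_add_one]

theorem per_iteratedDeriv {g : ℝ → ℝ} {δ : ℝ} (hδ : 0 < δ)
    (hg : ∀ x, x ≤ δ ∨ 1 - δ ≤ x → g x = 0) (n : ℕ) :
    iteratedDeriv n (per g) = per (iteratedDeriv n g) := by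
  funext x₀
  have h := (per_eventuallyEq hδ hg x₀).iteratedDeriv_eq n
  rw [h]
  have h2 : iteratedDeriv n (fun x => g (x - ⌊x₀⌋)) x₀ = iteratedDeriv n g (x₀ - ⌊x₀⌋) := by
    have := iteratedDeriv_comp_sub_const n g ((⌊x₀⌋ : ℤ) : ℝ)
    exact congrFun this x₀
  rw [h2]; rfl

theorem per_deriv {g : ℝ → ℝ} {δ : ℝ} (hδ : 0 < δ)
    (hg : ∀ x, x ≤ δ ∨ 1 - δ ≤ x → g x = 0) : deriv (per g) = per (deriv g) := by
  have := per_iteratedDeriv hδ hg 1
  simpa [iteratedDeriv_one] using this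

/-- derivatives of a function vanishing near the ends vanish near the ends -/
theorem deriv_eq_zero_of_support {g : ℝ → ℝ} {δ : ℝ}
    (hg : ∀ x, x ≤ δ ∨ 1 - δ ≤ x → g x = 0) {δ' : ℝ} (h : δ' < δ) :
    ∀ x, x ≤ δ' ∨ 1 - δ' ≤ x → deriv g x = 0 := by
  intro x hx
  have : g =ᶠ[𝓝 x] fun _ => (0:ℝ) := by
    rcases hx with hx | hx
    · filter_upwards [Iio_mem_nhds (lt_of_le_of_lt hx h)] with y hy
      exact hg y (Or.inl (le_of_lt hy))
    · filter_upwards [Ioi_mem_nhds (show 1 - δ < x by linarith)] with y hy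
      exact hg y (Or.inr (le_of_lt hy))
  rw [this.deriv_eq]; simp



theorem tabfun_contDiff (K : ℕ) (v : ℕ → ℝ) : ContDiff ℝ ∞ (tabfun K v) := by
  unfold tabfun
  apply ContDiff.sum
  intro N _
  exact contDiff_const.mul (plat_contDiff.comp (by fun_prop))

theorem tabfun_eq_zero {K : ℕ} (hK : 1 ≤ K) (v : ℕ → ℝ) {y : ℝ} (h : y ≤ 1 / 8 ∨ 7 / 8 ≤ y) :
    tabfun K v y = 0 := by
  unfold tabfun
  apply Finset.sum_eq_zero
  intro N hN
  have hN' : (N:ℝ) + 1 ≤ (K:ℝ)^2 := by
    have := Finset.mem_range.1 hN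
    exact_mod_cast this
  have hK' : (1:ℝ) ≤ (K:ℝ)^2 := by
    have : (1:ℝ) ≤ K := by exact_mod_cast hK
    nlinarith
  have hN0 : (0:ℝ) ≤ N := Nat.cast_nonneg N
  rw [plat_eq_zero, mul_zero]
  rcases h with h | h
  · left
    have : (K:ℝ)^2 * (2 * y - 1/2) ≤ (K:ℝ)^2 * (-1/4) := by
      apply mul_le_mul_of_nonneg_left (by linarith) (by positivity)
    nlinarith
  · right
    have : (K:ℝ)^2 * (5/4) ≤ (K:ℝ)^2 * (2 * y - 1/2) := by
      apply mul_le_mul_of_nonneg_left (by linarith) (by positivity)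
    nlinarith

/-- exact table look-up -/
theorem tabfun_eq {K : ℕ} (v : ℕ → ℝ) {y : ℝ} {N : ℕ} (hN : N < K ^ 2)
    (h0 : (N : ℝ) ≤ (K : ℝ) ^ 2 * (2 * y - 1 / 2))
    (h1 : (K : ℝ) ^ 2 * (2 * y - 1 / 2) ≤ N + 1 / 2) : tabfun K v y = v N := by
  unfold tabfun
  rw [Finset.sum_eq_single N]
  · rw [plat_eq_one (by linarith) (by linarith), mul_one]
  · intro N' _ hne
    rw [plat_eq_zero, mul_zero]
    rcases lt_or_gt_of_ne hne with hlt | hgt
    · right
      have : (N':ℝ) + 1 ≤ N := by exact_mod_cast hlt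
      linarith
    · left
      have : (N:ℝ) + 1 ≤ N' := by exact_mod_cast hgt
      linarith
  · intro h; exact absurd (Finset.mem_range.2 hN) h

end Vale.Agent.P113
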