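import Mathlib

/-!
# P113-E: pure analysis lemmas behind the effective evaluation of `exp`, `log 2`
-/

namespace Vale.Agent.P113

open Real

/-- `(1 - s/N)^N` approximates `exp (-s)` with error at most `s^2 / N`. -/
theorem abs_exp_neg_sub_pow_le {s : ℝ} (hs : 0 ≤ s) {N : ℕ} (hN : 0 < N) (hsN : s ≤ N) :
    |Real.exp (-s) - (1 - s / N) ^ N| ≤ s ^ 2 / N := by
  have hN' : (0 : ℝ) < N := by exact_mod_cast hN
  have hlow : (1 - s / N) ^ N ≤ Real.exp (-s) := Real.one_sub_div_pow_le_exp_neg hsN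
  have hq0 : 0 ≤ s / N := div_nonneg hs hN'.le
  have hq1 : s / N ≤ 1 := (div_le_one hN').2 hsN
  set A : ℝ := (1 + s / N) ^ N with hA
  set B : ℝ := (1 - s / N) ^ N with hB
  have hA1 : 1 ≤ A := one_le_pow₀ (by linarith)
  have hB0 : 0 ≤ B := pow_nonneg (by linarith) _
  have hAexp : A ≤ Real.exp s := by
    have h1 : 1 + s / N ≤ Real.exp (s / N) := by
      have := Real.add_one_le_exp (s / N); linarith
    calc A ≤ (Real.exp (s / N)) ^ N := pow_le_pow_left₀ (by linarith) h1 N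
      _ = Real.exp s := by
        rw [← Real.exp_nat_mul]; congr 1; field_simp
  have hAB : 1 - s ^ 2 / N ≤ A * B := by
    have h2 : A * B = (1 + (-(s / N) ^ 2)) ^ N := by
      rw [hA, hB, ← mul_pow]; congr 1; ring
    rw [h2]
    have h3 : (-2 : ℝ) ≤ -(s / N) ^ 2 := by nlinarith
    have := one_add_mul_le_pow h3 N
    calc 1 - s ^ 2 / N = 1 + (N : ℝ) * (-(s / N) ^ 2) := by field_simp; ring
      _ ≤ _ := this
  have hexp : Real.exp (-s) * A ≤ 1 := by
    calc Real.exp (-s) * A ≤ Real.exp (-s) * Real.exp s :=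
          mul_le_mul_of_nonneg_left hAexp (Real.exp_pos _).le
      _ = 1 := by rw [← Real.exp_add]; simp
  have hs2 : 0 ≤ s ^ 2 / N := by positivity
  have hup : Real.exp (-s) - B ≤ s ^ 2 / N := by
    have h4 : (Real.exp (-s) - B) * A ≤ s ^ 2 / N := by nlinarith
    have h5 : 0 ≤ Real.exp (-s) - B := by linarith
    nlinarith
  rw [abs_of_nonneg (by linarith)]
  exact hup

/-- The series of `log 2`. -/
theorem abs_log_two_sub_sum_le (n : ℕ) :
    |Real.log 2 - ∑ i ∈ Finset.range n, (1 / 2 : ℝ) ^ (i + 1) / ((i : ℝ) + 1)| ≤ 1 / ((n : ℝ) + 1) := by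
  have h := Real.abs_log_sub_add_sum_range_le (x := (1 / 2 : ℝ)) (by rw [abs_of_pos] <;> norm_num) n
  have h1 : Real.log (1 - 1 / 2) = - Real.log 2 := by
    rw [show (1 - 1 / 2 : ℝ) = 2⁻¹ by norm_num, Real.log_inv]
  rw [h1, abs_of_pos (by norm_num : (0 : ℝ) < 1 / 2)] at h
  have h2 : (1 / 2 : ℝ) ^ (n + 1) / (1 - 1 / 2) = (1 / 2 : ℝ) ^ n := by
    rw [pow_succ]; norm_num
  rw [h2] at h
  have h3 : (1 / 2 : ℝ) ^ n ≤ 1 / ((n : ℝ) + 1) := by
    rw [one_div_pow]
    apply one_div_le_one_div_of_le (by positivity)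
    have : n + 1 ≤ 2 ^ n := Nat.lt_two_pow_self
    exact_mod_cast this
  rw [abs_sub_comm]
  calc _ = |∑ i ∈ Finset.range n, (1 / 2 : ℝ) ^ (i + 1) / ((i : ℝ) + 1) + -Real.log 2| := by
        rw [sub_eq_add_neg]
    _ ≤ _ := h.trans h3

end Vale.Agent.P113
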