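import Mathlib

/-!
# P113-E: all derivatives of `expNegInvGlue` through a two-term recurrence
-/

namespace Vale.Agent.P113

open Real

theorem glue_hasDerivAt_iter (k : ℕ) (x : ℝ) :
    HasDerivAt (iteratedDeriv k expNegInvGlue) (iteratedDeriv (k + 1) expNegInvGlue x) x := by
  have h : Differentiable ℝ (iteratedDeriv k expNegInvGlue) :=
    (expNegInvGlue.contDiff (n := (k + 1 : ℕ))).differentiable_iteratedDeriv' k
  rw [iteratedDeriv_succ]
  exact (h x).hasDerivAt

theorem glue_deriv (x : ℝ) : deriv expNegInvGlue x = (x⁻¹) ^ 2 * expNegInvGlue x := by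
  have h := expNegInvGlue.hasDerivAt_polynomial_eval_inv_mul 1 x
  simp only [Polynomial.eval_one, one_mul, Polynomial.derivative_one, sub_zero, mul_one,
    Polynomial.eval_pow, Polynomial.eval_X] at h
  exact h.deriv

theorem glue_base (x : ℝ) : x ^ 2 * iteratedDeriv 1 expNegInvGlue x = expNegInvGlue x := by
  rw [iteratedDeriv_one, glue_deriv]
  rcases eq_or_ne x 0 with rfl | hx
  · simp
  · field_simp

/-- The differential recurrence, valid at every real point. -/
theorem glue_rec_succ (n : ℕ) (x : ℝ) :
    x ^ 2 * iteratedDeriv (n + 2) expNegInvGlue x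
      + 2 * ((n : ℝ) + 1) * x * iteratedDeriv (n + 1) expNegInvGlue x
      + (n : ℝ) * ((n : ℝ) + 1) * iteratedDeriv n expNegInvGlue x
      = iteratedDeriv (n + 1) expNegInvGlue x := by
  induction n generalizing x with
  | zero =>
    have h1 : HasDerivAt (fun y : ℝ => y ^ 2 * iteratedDeriv 1 expNegInvGlue y)
        (2 * x * iteratedDeriv 1 expNegInvGlue x + x ^ 2 * iteratedDeriv 2 expNegInvGlue x) x := by
      have := (hasDerivAt_pow 2 x).fun_mul (glue_hasDerivAt_iter 1 x)
      refine this.congr_deriv ?_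
      simp
    have h2 : (fun y : ℝ => y ^ 2 * iteratedDeriv 1 expNegInvGlue y) = iteratedDeriv 0 expNegInvGlue := by
      funext y; rw [glue_base, iteratedDeriv_zero]
    rw [h2] at h1
    have := h1.unique (glue_hasDerivAt_iter 0 x)
    simp only [Nat.cast_zero, zero_add, mul_one, zero_mul, add_zero]
    linarith
  | succ n ih =>
    have h1 : HasDerivAt (fun y : ℝ => y ^ 2 * iteratedDeriv (n + 2) expNegInvGlue y
        + 2 * ((n : ℝ) + 1) * y * iteratedDeriv (n + 1) expNegInvGlue y
        + (n : ℝ) * ((n : ℝ) + 1) * iteratedDeriv n expNegInvGlue y)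
        ((2 * x * iteratedDeriv (n + 2) expNegInvGlue x
            + x ^ 2 * iteratedDeriv (n + 3) expNegInvGlue x)
          + (2 * ((n : ℝ) + 1) * iteratedDeriv (n + 1) expNegInvGlue x
            + 2 * ((n : ℝ) + 1) * x * iteratedDeriv (n + 2) expNegInvGlue x)
          + (n : ℝ) * ((n : ℝ) + 1) * iteratedDeriv (n + 1) expNegInvGlue x) x := by
      have a1 := (hasDerivAt_pow 2 x).fun_mul (glue_hasDerivAt_iter (n + 2) x)
      have a2 := ((hasDerivAt_id' x).const_mul (2 * ((n : ℝ) + 1))).fun_mul
        (glue_hasDerivAt_iter (n + 1) x)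
      have a3 := (glue_hasDerivAt_iter n x).const_mul ((n : ℝ) * ((n : ℝ) + 1))
      have := (a1.fun_add a2).fun_add a3
      refine this.congr_deriv ?_
      simp
    have h2 : (fun y : ℝ => y ^ 2 * iteratedDeriv (n + 2) expNegInvGlue y
        + 2 * ((n : ℝ) + 1) * y * iteratedDeriv (n + 1) expNegInvGlue y
        + (n : ℝ) * ((n : ℝ) + 1) * iteratedDeriv n expNegInvGlue y)
        = iteratedDeriv (n + 1) expNegInvGlue := by
      funext y; exact ih y
    rw [h2] at h1
    have := h1.unique (glue_hasDerivAt_iter (n + 1) x)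
    push_cast
    have e : n + 1 + 2 = n + 3 := rfl
    have e' : n + 1 + 1 = n + 2 := rfl
    rw [e, e'] 
    rw [e'] at this
    linarith

/-- The rational coefficients: `iteratedDeriv n expNegInvGlue x = glueA x n * expNegInvGlue x`. -/
noncomputable def glueA (x : ℝ) : ℕ → ℝ
  | 0 => 1
  | 1 => 1 / x ^ 2
  | (n + 2) => ((1 - 2 * ((n : ℝ) + 1) * x) * glueA x (n + 1)
      - (n : ℝ) * ((n : ℝ) + 1) * glueA x n) / x ^ 2

theorem iteratedDeriv_glue (n : ℕ) (x : ℝ) :
    iteratedDeriv n expNegInvGlue x = glueA x n * expNegInvGlue x := by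
  induction n using Nat.strong_induction_on with
  | _ n ih =>
    match n with
    | 0 => simp [glueA]
    | 1 =>
      rw [iteratedDeriv_one, glue_deriv]; simp [glueA]
    | (n + 2) =>
      have h := glue_rec_succ n x
      rw [ih (n + 1) (by omega), ih n (by omega)] at h
      rcases eq_or_ne x 0 with rfl | hx
      · -- at `0` everything vanishes
        have h' := glue_rec_succ (n + 1) 0
        rw [ih (n + 1) (by omega)] at h'
        simp only [expNegInvGlue.zero, mul_zero] at h' ⊢
        simp only [ne_eq, OfNat.ofNat_ne_zero, not_false_eq_true, zero_pow, zero_mul, add_zero] at h'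
        exact h'.symm
      · have hx2 : x ^ 2 ≠ 0 := pow_ne_zero 2 hx
        have : iteratedDeriv (n + 2) expNegInvGlue x
            = ((1 - 2 * ((n : ℝ) + 1) * x) * glueA x (n + 1)
              - (n : ℝ) * ((n : ℝ) + 1) * glueA x n) / x ^ 2 * expNegInvGlue x := by
          field_simp
          linarith
        rw [this, glueA]

end Vale.Agent.P113
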