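import Mathlib

/-!
# P113-E: Riemann sums of a Lipschitz function, with explicit error
-/

namespace Vale.Agent.P113

open MeasureTheory intervalIntegral Finset

theorem abs_integral_sub_riemann_le {g : ℝ → ℝ} {L : ℝ} (hc : Continuous g)
    (hL : ∀ x y, |g x - g y| ≤ L * |x - y|) (q : ℝ) {N : ℕ} (hN : 0 < N) :
    |(∫ x in (0 : ℝ)..q, g x) - ∑ i ∈ range N, q / N * g (q * i / N)| ≤ L * q ^ 2 / N := by
  have hN' : (0 : ℝ) < N := by exact_mod_cast hN
  have hL0 : 0 ≤ L := by
    have := hL 0 1
    have h2 : 0 ≤ L * |(0 : ℝ) - 1| := (abs_nonneg _).trans this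
    simpa using h2
  set a : ℕ → ℝ := fun i => q * i / N with ha
  have hsplit : ∑ i ∈ range N, ∫ x in a i..a (i + 1), g x = ∫ x in a 0..a N, g x :=
    sum_integral_adjacent_intervals (fun k _ => hc.intervalIntegrable _ _)
  have ha0 : a 0 = 0 := by simp [ha]
  have haN : a N = q := by simp only [ha]; field_simp
  rw [ha0, haN] at hsplit
  have hstep : ∀ i, a (i + 1) - a i = q / N := by
    intro i; simp only [ha]; push_cast; ring
  have hconst : ∀ i, q / N * g (a i) = ∫ _x in a i..a (i + 1), g (a i) := by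
    intro i; rw [intervalIntegral.integral_const, hstep, smul_eq_mul]
  rw [← hsplit, ← sum_sub_distrib]
  have hterm : ∀ i ∈ range N,
      |(∫ x in a i..a (i + 1), g x) - q / N * g (q * i / N)| ≤ L * (|q| / N) * (|q| / N) := by
    intro i _
    have e : q / N * g (q * i / N) = ∫ _x in a i..a (i + 1), g (a i) := hconst i
    rw [e, ← intervalIntegral.integral_sub (hc.intervalIntegrable _ _)
      (continuous_const.intervalIntegrable _ _)]
    have hb : ∀ x ∈ Set.uIoc (a i) (a (i + 1)), ‖g x - g (a i)‖ ≤ L * (|q| / N) := by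
      intro x hx
      rw [Real.norm_eq_abs]
      refine (hL x (a i)).trans (mul_le_mul_of_nonneg_left ?_ hL0)
      have hx' : x ∈ Set.uIcc (a i) (a (i + 1)) := Set.uIoc_subset_uIcc hx
      have := Set.abs_sub_left_of_mem_uIcc hx'
      calc |x - a i| ≤ |a (i + 1) - a i| := this
        _ = |q| / N := by
          rw [hstep, abs_div, abs_of_pos hN']
    have := intervalIntegral.norm_integral_le_of_norm_le_const hb
    rw [Real.norm_eq_abs, hstep, abs_div, abs_of_pos hN'] at this
    exact this
  calc |∑ i ∈ range N, ((∫ x in a i..a (i + 1), g x) - q / N * g (q * i / N))|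
      ≤ ∑ i ∈ range N, |(∫ x in a i..a (i + 1), g x) - q / N * g (q * i / N)| :=
        abs_sum_le_sum_abs _ _
    _ ≤ ∑ _i ∈ range N, L * (|q| / N) * (|q| / N) := sum_le_sum hterm
    _ = L * q ^ 2 / N := by
      rw [sum_const, card_range, nsmul_eq_mul, ← sq_abs q]
      field_simp

end Vale.Agent.P113
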