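import Mathlib

/-!
# P113-E: `fun_prop` set-up for `Primrec` and `PrimrecPred`

All lemmas are in composed form so that `fun_prop` proves primitive recursiveness of explicit
index maps automatically.
-/

namespace Vale.Agent.P113

attribute [fun_prop] Primrec PrimrecPred

section
variable {α β γ δ σ : Type*} [Primcodable α] [Primcodable β] [Primcodable γ] [Primcodable δ]
  [Primcodable σ]

@[fun_prop] theorem pr_id : Primrec (fun x : α => x) := Primrec.id
@[fun_prop] theorem pr_const (c : β) : Primrec (fun _ : α => c) := Primrec.const c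
@[fun_prop] theorem pr_comp {f : β → γ} {g : α → β} (hf : Primrec f) (hg : Primrec g) :
    Primrec (fun x => f (g x)) := hf.comp hg
@[fun_prop] theorem pr_pair {f : α → β} {g : α → γ} (hf : Primrec f) (hg : Primrec g) :
    Primrec (fun x => (f x, g x)) := hf.pair hg
@[fun_prop] theorem pr_fst {f : α → β × γ} (hf : Primrec f) : Primrec (fun x => (f x).1) :=
  Primrec.fst.comp hf
@[fun_prop] theorem pr_snd {f : α → β × γ} (hf : Primrec f) : Primrec (fun x => (f x).2) :=
  Primrec.snd.comp hf

/-! ### natural numbers -/
@[fun_prop] theorem pr_succ {f : α → ℕ} (hf : Primrec f) : Primrec (fun x => Nat.succ (f x)) :=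
  Primrec.succ.comp hf
@[fun_prop] theorem pr_add {f g : α → ℕ} (hf : Primrec f) (hg : Primrec g) :
    Primrec (fun x => f x + g x) := Primrec.nat_add.comp hf hg
@[fun_prop] theorem pr_mul {f g : α → ℕ} (hf : Primrec f) (hg : Primrec g) :
    Primrec (fun x => f x * g x) := Primrec.nat_mul.comp hf hg
@[fun_prop] theorem pr_sub {f g : α → ℕ} (hf : Primrec f) (hg : Primrec g) :
    Primrec (fun x => f x - g x) := Primrec.nat_sub.comp hf hg
@[fun_prop] theorem pr_div {f g : α → ℕ} (hf : Primrec f) (hg : Primrec g) :
    Primrec (fun x => f x / g x) := Primrec.nat_div.comp hf hg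
@[fun_prop] theorem pr_mod {f g : α → ℕ} (hf : Primrec f) (hg : Primrec g) :
    Primrec (fun x => f x % g x) := Primrec.nat_mod.comp hf hg
@[fun_prop] theorem pr_min {f g : α → ℕ} (hf : Primrec f) (hg : Primrec g) :
    Primrec (fun x => min (f x) (g x)) := Primrec.nat_min.comp hf hg
@[fun_prop] theorem pr_max {f g : α → ℕ} (hf : Primrec f) (hg : Primrec g) :
    Primrec (fun x => max (f x) (g x)) := Primrec.nat_max.comp hf hg
@[fun_prop] theorem pr_pow {f g : α → ℕ} (hf : Primrec f) (hg : Primrec g) :
    Primrec (fun x => f x ^ g x) :=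
  (Primrec₂.unpaired'.1 Nat.Primrec.pow).comp hf hg

/-! ### predicates -/
@[fun_prop] theorem prp_le {f g : α → ℕ} (hf : Primrec f) (hg : Primrec g) :
    PrimrecPred (fun x => f x ≤ g x) := Primrec.nat_le.comp hf hg
@[fun_prop] theorem prp_lt {f g : α → ℕ} (hf : Primrec f) (hg : Primrec g) :
    PrimrecPred (fun x => f x < g x) := Primrec.nat_lt.comp hf hg
@[fun_prop] theorem prp_eq {f g : α → β} (hf : Primrec f) (hg : Primrec g) :
    PrimrecPred (fun x => f x = g x) := Primrec.eq.comp hf hg
@[fun_prop] theorem prp_and {p q : α → Prop} (hp : PrimrecPred p) (hq : PrimrecPred q) :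
    PrimrecPred (fun x => p x ∧ q x) := hp.and hq
@[fun_prop] theorem prp_or {p q : α → Prop} (hp : PrimrecPred p) (hq : PrimrecPred q) :
    PrimrecPred (fun x => p x ∨ q x) := hp.or hq
@[fun_prop] theorem prp_not {p : α → Prop} (hp : PrimrecPred p) :
    PrimrecPred (fun x => ¬ p x) := hp.not
@[fun_prop] theorem pr_ite {c : α → Prop} [DecidablePred c] {f g : α → σ} (hc : PrimrecPred c)
    (hf : Primrec f) (hg : Primrec g) : Primrec (fun x => if c x then f x else g x) :=
  Primrec.ite hc hf hg

/-! ### lists -/
@[fun_prop] theorem pr_cons {f : α → β} {g : α → List β} (hf : Primrec f) (hg : Primrec g) :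
    Primrec (fun x => f x :: g x) := Primrec.list_cons.comp hf hg
@[fun_prop] theorem pr_append {f g : α → List β} (hf : Primrec f) (hg : Primrec g) :
    Primrec (fun x => f x ++ g x) := Primrec.list_append.comp hf hg
@[fun_prop] theorem pr_length {f : α → List β} (hf : Primrec f) :
    Primrec (fun x => (f x).length) := Primrec.list_length.comp hf
@[fun_prop] theorem pr_tail {f : α → List β} (hf : Primrec f) :
    Primrec (fun x => (f x).tail) := Primrec.list_tail.comp hf
@[fun_prop] theorem pr_getD {f : α → List β} {g : α → ℕ} {d : α → β} (hf : Primrec f)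
    (hg : Primrec g) (hd : Primrec d) : Primrec (fun x => (f x).getD (g x) (d x)) := by
  have : Primrec (fun x => ((f x)[g x]?).getD (d x)) :=
    Primrec.option_getD.comp (Primrec.list_getElem?.comp hf hg) hd
  exact this.of_eq fun x => by simp [List.getD_eq_getElem?_getD]
@[fun_prop] theorem pr_range {f : α → ℕ} (hf : Primrec f) :
    Primrec (fun x => List.range (f x)) := Primrec.list_range.comp hf

end

end Vale.Agent.P113
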