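import Vale.Agent.P113.Effective

/-!
# P113-E: arithmetic of rational codes
-/

namespace Vale.Agent.P113

namespace QC

/-- code of a natural number -/
def ofNat (n : ℕ) : QC := (n, 0, 0)

def add (r s : QC) : QC :=
  (r.1 * (s.2.2 + 1) + s.1 * (r.2.2 + 1), r.2.1 * (s.2.2 + 1) + s.2.1 * (r.2.2 + 1),
    (r.2.2 + 1) * (s.2.2 + 1) - 1)

def neg (r : QC) : QC := (r.2.1, r.1, r.2.2)

def sub (r s : QC) : QC := add r (neg s)

def mul (r s : QC) : QC :=
  (r.1 * s.1 + r.2.1 * s.2.1, r.1 * s.2.1 + r.2.1 * s.1, (r.2.2 + 1) * (s.2.2 + 1) - 1)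

/-- inverse (the inverse of zero is zero) -/
def inv (r : QC) : QC :=
  if r.2.1 < r.1 then (r.2.2 + 1, 0, r.1 - r.2.1 - 1)
  else if r.1 < r.2.1 then (0, r.2.2 + 1, r.2.1 - r.1 - 1) else (0, 0, 0)

/-- fractional part -/
def fract (r : QC) : QC := ((r.1 + r.2.1 * r.2.2) % (r.2.2 + 1), 0, r.2.2)

/-- a natural bound of the absolute value -/
def bd (r : QC) : ℕ := r.1 + r.2.1

def pow (r : QC) : ℕ → QC
  | 0 => ofNat 1
  | n + 1 => mul (pow r n) r

theorem val_mk (a b c : ℕ) : QC.val (a, b, c) = ((a : ℝ) - (b : ℝ)) / ((c : ℝ) + 1) := rfl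

theorem val_ofNat (n : ℕ) : (ofNat n).val = n := by
  simp [ofNat, val_mk]

theorem cast_den (c d : ℕ) : (((c + 1) * (d + 1) - 1 : ℕ) : ℝ) + 1 = ((c : ℝ) + 1) * ((d : ℝ) + 1) := by
  have h : 1 ≤ (c + 1) * (d + 1) := Nat.succ_le_of_lt (Nat.mul_pos (Nat.succ_pos _) (Nat.succ_pos _))
  rw [Nat.cast_sub h]
  push_cast
  ring

theorem val_add (r s : QC) : (add r s).val = r.val + s.val := by
  obtain ⟨a, b, c⟩ := r
  obtain ⟨a', b', c'⟩ := s
  simp only [add, val_mk, cast_den]
  have h1 : ((c : ℝ) + 1) ≠ 0 := by positivity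
  have h2 : ((c' : ℝ) + 1) ≠ 0 := by positivity
  push_cast
  field_simp
  ring

theorem val_neg (r : QC) : (neg r).val = - r.val := by
  obtain ⟨a, b, c⟩ := r
  simp only [neg, val_mk]
  ring

theorem val_sub (r s : QC) : (sub r s).val = r.val - s.val := by
  rw [sub, val_add, val_neg]
  ring

theorem val_mul (r s : QC) : (mul r s).val = r.val * s.val := by
  obtain ⟨a, b, c⟩ := r
  obtain ⟨a', b', c'⟩ := s
  simp only [mul, val_mk, cast_den]
  have h1 : ((c : ℝ) + 1) ≠ 0 := by positivity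
  have h2 : ((c' : ℝ) + 1) ≠ 0 := by positivity
  push_cast
  field_simp
  ring

theorem val_inv (r : QC) : (inv r).val = (r.val)⁻¹ := by
  obtain ⟨a, b, c⟩ := r
  simp only [inv]
  have h1 : ((c : ℝ) + 1) ≠ 0 := by positivity
  split_ifs with h h'
  · simp only [val_mk]
    have e : ((a - b - 1 : ℕ) : ℝ) + 1 = (a : ℝ) - b := by
      have : a - b - 1 + 1 = a - b := by omega
      rw [← Nat.cast_sub h.le, ← this]
      push_cast
      ring
    rw [e, inv_div]
    push_cast
    ring
  · simp only [val_mk]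
    have e : ((b - a - 1 : ℕ) : ℝ) + 1 = (b : ℝ) - a := by
      have : b - a - 1 + 1 = b - a := by omega
      rw [← Nat.cast_sub h'.le, ← this]
      push_cast
      ring
    have hne : (b : ℝ) - a ≠ 0 := by
      have : (a : ℝ) < b := by exact_mod_cast h'
      linarith
    have hne' : (a : ℝ) - b ≠ 0 := by
      have : (a : ℝ) < b := by exact_mod_cast h'
      linarith
    rw [e, inv_div]
    push_cast
    field_simp
    ring
  · have : a = b := by
      omega
    subst this
    simp [val_mk]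

theorem val_fract (r : QC) : (fract r).val = Int.fract r.val := by
  obtain ⟨a, b, c⟩ := r
  simp only [fract, val_mk]
  have h1 : ((c : ℝ) + 1) ≠ 0 := by positivity
  have e : ((a : ℝ) - b) / ((c : ℝ) + 1) = (((a + b * c : ℕ) : ℝ) / ((c + 1 : ℕ) : ℝ)) - (b : ℕ) := by
    push_cast
    field_simp
    ring
  rw [e, Int.fract_sub_natCast, Int.fract_div_natCast_eq_div_natCast_mod]
  push_cast
  ring

theorem val_pow (r : QC) (n : ℕ) : (pow r n).val = r.val ^ n := by
  induction n with
  | zero => simp [pow, val_ofNat]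
  | succ n ih => rw [pow, val_mul, ih, pow_succ]

theorem abs_val_le_bd (r : QC) : |r.val| ≤ (bd r : ℝ) := by
  obtain ⟨a, b, c⟩ := r
  simp only [bd, val_mk]
  have h1 : (1 : ℝ) ≤ (c : ℝ) + 1 := by
    have : (0 : ℝ) ≤ c := Nat.cast_nonneg c
    linarith
  have ha : (0 : ℝ) ≤ a := Nat.cast_nonneg a
  have hb : (0 : ℝ) ≤ b := Nat.cast_nonneg b
  rw [abs_div, abs_of_pos (by linarith : (0 : ℝ) < (c : ℝ) + 1)]
  push_cast
  calc |(a : ℝ) - b| / ((c : ℝ) + 1) ≤ |(a : ℝ) - b| := div_le_self (abs_nonneg _) h1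
    _ ≤ (a : ℝ) + b := by
      rw [abs_le]
      constructor <;> linarith

theorem val_pos_iff (r : QC) : 0 < r.val ↔ r.2.1 < r.1 := by
  obtain ⟨a, b, c⟩ := r
  simp only [val_mk]
  have h1 : (0 : ℝ) < (c : ℝ) + 1 := by positivity
  rw [div_pos_iff_of_pos_right h1, sub_pos]
  exact Nat.cast_lt

theorem val_nonpos_iff (r : QC) : r.val ≤ 0 ↔ r.1 ≤ r.2.1 := by
  rw [← not_lt, val_pos_iff, not_lt]

theorem primrec_ofNat : Primrec ofNat :=
  Primrec.pair Primrec.id (Primrec.const (0, 0))

section aux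
variable {α : Type} [Primcodable α]

theorem pr_add {f g : α → ℕ} (hf : Primrec f) (hg : Primrec g) : Primrec fun a => f a + g a :=
  Primrec.nat_add.comp hf hg

theorem pr_mul {f g : α → ℕ} (hf : Primrec f) (hg : Primrec g) : Primrec fun a => f a * g a :=
  Primrec.nat_mul.comp hf hg

theorem pr_sub {f g : α → ℕ} (hf : Primrec f) (hg : Primrec g) : Primrec fun a => f a - g a :=
  Primrec.nat_sub.comp hf hg

theorem pr_mod {f g : α → ℕ} (hf : Primrec f) (hg : Primrec g) : Primrec fun a => f a % g a :=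
  Primrec.nat_mod.comp hf hg

theorem pr_num {f : α → QC} (hf : Primrec f) : Primrec fun a => (f a).1 := Primrec.fst.comp hf

theorem pr_mid {f : α → QC} (hf : Primrec f) : Primrec fun a => (f a).2.1 :=
  Primrec.fst.comp (Primrec.snd.comp hf)

theorem pr_den {f : α → QC} (hf : Primrec f) : Primrec fun a => (f a).2.2 :=
  Primrec.snd.comp (Primrec.snd.comp hf)

theorem pr_den1 {f : α → QC} (hf : Primrec f) : Primrec fun a => (f a).2.2 + 1 :=
  pr_add (pr_den hf) (Primrec.const 1)

end aux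

theorem primrec_add : Primrec₂ add := by
  have h1 : Primrec (fun p : QC × QC => p.1) := Primrec.fst
  have h2 : Primrec (fun p : QC × QC => p.2) := Primrec.snd
  exact Primrec.pair
    (pr_add (pr_mul (pr_num h1) (pr_den1 h2)) (pr_mul (pr_num h2) (pr_den1 h1)))
    (Primrec.pair
      (pr_add (pr_mul (pr_mid h1) (pr_den1 h2)) (pr_mul (pr_mid h2) (pr_den1 h1)))
      (pr_sub (pr_mul (pr_den1 h1) (pr_den1 h2)) (Primrec.const 1)))

theorem primrec_neg : Primrec neg :=
  Primrec.pair (pr_mid Primrec.id) (Primrec.pair (pr_num Primrec.id) (pr_den Primrec.id))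

theorem primrec_sub : Primrec₂ sub :=
  primrec_add.comp Primrec.fst (primrec_neg.comp Primrec.snd)

theorem primrec_mul : Primrec₂ mul := by
  have h1 : Primrec (fun p : QC × QC => p.1) := Primrec.fst
  have h2 : Primrec (fun p : QC × QC => p.2) := Primrec.snd
  exact Primrec.pair
    (pr_add (pr_mul (pr_num h1) (pr_num h2)) (pr_mul (pr_mid h1) (pr_mid h2)))
    (Primrec.pair
      (pr_add (pr_mul (pr_num h1) (pr_mid h2)) (pr_mul (pr_mid h1) (pr_num h2)))
      (pr_sub (pr_mul (pr_den1 h1) (pr_den1 h2)) (Primrec.const 1)))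

theorem primrec_inv : Primrec inv := by
  have h : Primrec (fun r : QC => r) := Primrec.id
  refine Primrec.ite (Primrec.nat_lt.comp (pr_mid h) (pr_num h)) ?_
    (Primrec.ite (Primrec.nat_lt.comp (pr_num h) (pr_mid h)) ?_ (Primrec.const (0, 0, 0)))
  · exact Primrec.pair (pr_den1 h) (Primrec.pair (Primrec.const 0)
      (pr_sub (pr_sub (pr_num h) (pr_mid h)) (Primrec.const 1)))
  · exact Primrec.pair (Primrec.const 0) (Primrec.pair (pr_den1 h)
      (pr_sub (pr_sub (pr_mid h) (pr_num h)) (Primrec.const 1)))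

theorem primrec_fract : Primrec fract := by
  have h : Primrec (fun r : QC => r) := Primrec.id
  exact Primrec.pair (pr_mod (pr_add (pr_num h) (pr_mul (pr_mid h) (pr_den h))) (pr_den1 h))
    (Primrec.pair (Primrec.const 0) (pr_den h))

theorem primrec_bd : Primrec bd := pr_add (pr_num Primrec.id) (pr_mid Primrec.id)

theorem primrec_pow : Primrec₂ pow := by
  have h : Primrec₂ (fun (r : QC) (n : ℕ) =>
      Nat.rec (motive := fun _ => QC) (ofNat 1) (fun _ acc => mul acc r) n) := by
    refine Primrec.nat_rec' (f := fun p : QC × ℕ => p.2) (g := fun _ => ofNat 1)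
      (h := fun p q => mul q.2 p.1) Primrec.snd (Primrec.const _) ?_
    exact primrec_mul.comp (Primrec.snd.comp Primrec.snd) (Primrec.fst.comp Primrec.fst)
  refine h.of_eq fun r n => ?_
  induction n with
  | zero => rfl
  | succ n ih =>
    simp only [pow]
    rw [← ih]

end QC

theorem primrec_nat_pow : Primrec₂ (fun a b : ℕ => a ^ b) :=
  Primrec₂.unpaired'.1 Nat.Primrec.pow

theorem primrec_factorial : Primrec Nat.factorial := by
  have h : Primrec (fun n : ℕ => Nat.rec (motive := fun _ => ℕ) 1 (fun k acc => (k + 1) * acc) n) := by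
    refine Primrec.nat_rec₁ 1 ?_
    exact Primrec.nat_mul.comp (Primrec.succ.comp Primrec.fst) Primrec.snd
  refine h.of_eq fun n => ?_
  induction n with
  | zero => rfl
  | succ n ih =>
    rw [Nat.factorial_succ, ← ih]

end Vale.Agent.P113
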