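import Vale.Agent.P113.CompAuto
import Vale.Agent.P113.CompQC

/-!
# P113-E: `fun_prop` lemmas for the arithmetic of rational codes
-/

namespace Vale.Agent.P113

section
variable {α : Type} [Primcodable α]

@[fun_prop] theorem pr_qc_ofNat {f : α → ℕ} (hf : Primrec f) :
    Primrec (fun x => QC.ofNat (f x)) := QC.primrec_ofNat.comp hf
@[fun_prop] theorem pr_qc_add {f g : α → QC} (hf : Primrec f) (hg : Primrec g) :
    Primrec (fun x => QC.add (f x) (g x)) := QC.primrec_add.comp hf hg
@[fun_prop] theorem pr_qc_sub {f g : α → QC} (hf : Primrec f) (hg : Primrec g) :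
    Primrec (fun x => QC.sub (f x) (g x)) := QC.primrec_sub.comp hf hg
@[fun_prop] theorem pr_qc_mul {f g : α → QC} (hf : Primrec f) (hg : Primrec g) :
    Primrec (fun x => QC.mul (f x) (g x)) := QC.primrec_mul.comp hf hg
@[fun_prop] theorem pr_qc_neg {f : α → QC} (hf : Primrec f) :
    Primrec (fun x => QC.neg (f x)) := QC.primrec_neg.comp hf
@[fun_prop] theorem pr_qc_inv {f : α → QC} (hf : Primrec f) :
    Primrec (fun x => QC.inv (f x)) := QC.primrec_inv.comp hf
@[fun_prop] theorem pr_qc_fract {f : α → QC} (hf : Primrec f) :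
    Primrec (fun x => QC.fract (f x)) := QC.primrec_fract.comp hf
@[fun_prop] theorem pr_qc_bd {f : α → QC} (hf : Primrec f) :
    Primrec (fun x => QC.bd (f x)) := QC.primrec_bd.comp hf
@[fun_prop] theorem pr_qc_pow {f : α → QC} {g : α → ℕ} (hf : Primrec f) (hg : Primrec g) :
    Primrec (fun x => QC.pow (f x) (g x)) := QC.primrec_pow.comp hf hg
@[fun_prop] theorem pr_factorial {f : α → ℕ} (hf : Primrec f) :
    Primrec (fun x => Nat.factorial (f x)) := primrec_factorial.comp hf

end

end Vale.Agent.P113
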