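import Vale.Agent.P113.Basic

/-!
# P113: smoothness of the velocity field
-/

namespace Vale.Agent.P113

open Set MeasureTheory Filter
open scoped ContDiff Topology

/-! ### supports -/

theorem lin_contDiff : ContDiff ℝ ∞ lin := by
  unfold lin; exact contDiff_id.mul win_contDiff

theorem phi_contDiff : ContDiff ℝ ∞ phi := by
  unfold phi; exact (contDiff_id.sub contDiff_const).mul win_contDiff

theorem win_supp : ∀ x, x ≤ 1 / 8 ∨ 1 - 1 / 8 ≤ x → win x = 0 := by
  intro x h; apply win_eq_zero; rcases h with h | h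
  · left; exact h
  · right; linarith

theorem lin_supp : ∀ x, x ≤ 1 / 8 ∨ 1 - 1 / 8 ≤ x → lin x = 0 := by
  intro x h; unfold lin; rw [win_supp x h, mul_zero]

theorem phi_supp : ∀ x, x ≤ 1 / 8 ∨ 1 - 1 / 8 ≤ x → phi x = 0 := by
  intro x h; unfold phi; rw [win_supp x h, mul_zero]

theorem tabfun_supp {K : ℕ} (hK : 1 ≤ K) (v : ℕ → ℝ) :
    ∀ x, x ≤ 1 / 8 ∨ 1 - 1 / 8 ≤ x → tabfun K v x = 0 := by
  intro x h; apply tabfun_eq_zero hK; rcases h with h | h
  · left; exact h
  · right; linarith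

theorem contDiff_deriv_of {g : ℝ → ℝ} (h : ContDiff ℝ ∞ g) : ContDiff ℝ ∞ (deriv g) :=
  ((contDiff_infty_iff_deriv).1 h).2

theorem per_win_contDiff : ContDiff ℝ ∞ (per win) :=
  per_contDiff (by norm_num) win_supp win_contDiff
theorem per_lin_contDiff : ContDiff ℝ ∞ (per lin) :=
  per_contDiff (by norm_num) lin_supp lin_contDiff
theorem per_phi_contDiff : ContDiff ℝ ∞ (per phi) :=
  per_contDiff (by norm_num) phi_supp phi_contDiff
theorem per_dwin_contDiff : ContDiff ℝ ∞ (per (deriv win)) := by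
  rw [← per_deriv (by norm_num) win_supp]; exact contDiff_deriv_of per_win_contDiff
theorem per_dlin_contDiff : ContDiff ℝ ∞ (per (deriv lin)) := by
  rw [← per_deriv (by norm_num) lin_supp]; exact contDiff_deriv_of per_lin_contDiff
theorem per_dphi_contDiff : ContDiff ℝ ∞ (per (deriv phi)) := by
  rw [← per_deriv (by norm_num) phi_supp]; exact contDiff_deriv_of per_phi_contDiff
theorem per_tabfun_contDiff {K : ℕ} (hK : 1 ≤ K) (v : ℕ → ℝ) : ContDiff ℝ ∞ (per (tabfun K v)) :=
  per_contDiff (by norm_num) (tabfun_supp hK v) (tabfun_contDiff K v)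

theorem theta_supp (j : ℕ) (hj : j < 10) :
    ∀ s : ℝ, s ≤ 1 / 12 ∨ 1 - 1 / 12 ≤ s → pulse (12 * s - ((j : ℝ) + 1)) = 0 := by
  intro s h
  have hj' : (j:ℝ) ≤ 9 := by
    have : j ≤ 9 := by omega
    exact_mod_cast this
  have hj0 : (0:ℝ) ≤ j := Nat.cast_nonneg j
  apply pulse_eq_zero
  rcases h with h | h
  · left; linarith
  · right; linarith

theorem theta_contDiff (j : ℕ) (hj : j < 10) : ContDiff ℝ ∞ (theta j) := by
  unfold theta
  have h1 : ContDiff ℝ ∞ (per (fun s => pulse (12 * s - ((j : ℝ) + 1)))) :=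
    per_contDiff (by norm_num) (theta_supp j hj) (pulse_contDiff.comp (by fun_prop))
  exact h1.comp (by fun_prop)

theorem theta_add_period (j : ℕ) (t : ℝ) : theta j (t + 12) = theta j t := by
  unfold theta
  have : (t + 12) / 12 = t / 12 + 1 := by ring
  rw [this, per_add_one]

/-! ### smoothness of the field -/

theorem Afun_contDiff {K : ℕ} (hK : 1 ≤ K) (v0 v1 : ℕ → ℝ) {a b : R3 → ℝ}
    (ha : ContDiff ℝ ∞ a) (hb : ContDiff ℝ ∞ b) :
    ContDiff ℝ ∞ (fun x => Afun K v0 v1 (a x) (b x)) := by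
  unfold Afun
  exact ((per_win_contDiff.comp ha).mul ((per_tabfun_contDiff hK v1).comp hb)).sub
    ((per_lin_contDiff.comp ha).mul ((per_tabfun_contDiff hK v0).comp hb))

theorem AfunD_contDiff {K : ℕ} (hK : 1 ≤ K) (v0 v1 : ℕ → ℝ) {a b : R3 → ℝ}
    (ha : ContDiff ℝ ∞ a) (hb : ContDiff ℝ ∞ b) :
    ContDiff ℝ ∞ (fun x => AfunD K v0 v1 (a x) (b x)) := by
  unfold AfunD
  exact ((per_dwin_contDiff.comp ha).mul ((per_tabfun_contDiff hK v1).comp hb)).sub
    ((per_dlin_contDiff.comp ha).mul ((per_tabfun_contDiff hK v0).comp hb))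

theorem coordR3_contDiff (i : Fin 3) : ContDiff ℝ ∞ (fun x : R3 => x i) := contDiff_apply ℝ ℝ i

theorem phaseField_contDiff {K : ℕ} (hK : 1 ≤ K) (first : Prop) [Decidable first]
    (v0 v1 : ℕ → ℝ) : ContDiff ℝ ∞ (phaseField K first v0 v1) := by
  unfold phaseField
  by_cases h : first
  · simp only [h, if_true]
    rw [contDiff_pi]
    intro i
    fin_cases i
    · exact (per_dphi_contDiff.comp (coordR3_contDiff 2)).mul
        (Afun_contDiff hK v0 v1 (coordR3_contDiff 0) (coordR3_contDiff 1))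
    · exact contDiff_const
    · exact ((per_phi_contDiff.comp (coordR3_contDiff 2)).mul
        (AfunD_contDiff hK v0 v1 (coordR3_contDiff 0) (coordR3_contDiff 1))).neg
  · simp only [h, if_false]
    rw [contDiff_pi]
    intro i
    fin_cases i
    · exact contDiff_const
    · exact (per_dphi_contDiff.comp (coordR3_contDiff 2)).mul
        (Afun_contDiff hK v0 v1 (coordR3_contDiff 1) (coordR3_contDiff 0))
    · exact ((per_phi_contDiff.comp (coordR3_contDiff 2)).mul
        (AfunD_contDiff hK v0 v1 (coordR3_contDiff 1) (coordR3_contDiff 0))).neg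

theorem vel_contDiff (k : ℕ) (tab : ℕ → ℕ → ℕ × ℕ) (τ : ℝ) :
    ContDiff ℝ ∞ (fun q : ℝ × R3 => vel k tab τ q.1 q.2) := by
  unfold vel
  apply ContDiff.add
  · exact (pulse_contDiff.comp contDiff_fst).smul contDiff_const
  · apply ContDiff.sum
    intro j hj
    exact ((theta_contDiff j (Finset.mem_range.1 hj)).comp contDiff_fst).smul
      ((phaseField_contDiff Nat.one_le_two_pow _ _ _).comp contDiff_snd)

end Vale.Agent.P113
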