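import Vale.Agent.P113.CompBump
import Vale.Agent.P113.FieldSmooth

/-!
# P113-E: the one-dimensional building blocks
-/

namespace Vale.Agent.P113

open Finset MeasureTheory
open scoped ContDiff

theorem jetFam_plat : JetFam (fun _ : Unit => plat) := by
  have h1 := jetFam_step.comp_affine (c := fun _ => ((4, 0, 0) : QC)) (d := fun _ => ((1, 0, 0) : QC))
    (Computable.const _) (Computable.const _)
  have h2 := jetFam_step.comp_affine (c := fun _ => ((4, 0, 0) : QC)) (d := fun _ => ((0, 2, 0) : QC))
    (Computable.const _) (Computable.const _)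
  refine (h1.sub h2).congr (fun _ => ?_)
  funext x
  unfold plat
  norm_num [QC.val]
  ring_nf

theorem jetFam_win : JetFam (fun _ : Unit => win) := by
  have h1 := jetFam_step.comp_affine (c := fun _ => ((16, 0, 0) : QC))
    (d := fun _ => ((0, 2, 0) : QC)) (Computable.const _) (Computable.const _)
  have h2 := jetFam_step.comp_affine (c := fun _ => ((8, 0, 0) : QC)) (d := fun _ => ((0, 6, 0) : QC))
    (Computable.const _) (Computable.const _)
  refine (h1.sub h2).congr (fun _ => ?_)
  funext x
  unfold win
  norm_num [QC.val]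
  ring_nf

theorem jetFam_lin : JetFam (fun _ : Unit => lin) := by
  have h1 : JetFam (fun (_ : Unit) (x : ℝ) => QC.val (1, 0, 0) * x + QC.val (0, 0, 0)) :=
    JetFam.affine (Computable.const _) (Computable.const _)
  refine (h1.mul jetFam_win).congr (fun _ => ?_)
  funext x
  unfold lin
  norm_num [QC.val]

theorem jetFam_phi : JetFam (fun _ : Unit => phi) := by
  have h1 : JetFam (fun (_ : Unit) (x : ℝ) => QC.val (1, 0, 0) * x + QC.val (0, 1, 1)) :=
    JetFam.affine (Computable.const _) (Computable.const _)
  refine (h1.mul jetFam_win).congr (fun _ => ?_)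
  funext x
  unfold phi
  have e : QC.val (1, 0, 0) * x + QC.val (0, 1, 1) = x - 1 / 2 := by
    norm_num [QC.val]
    ring
  rw [e]

theorem jetFam_per_win : JetFam (fun _ : Unit => per win) :=
  jetFam_win.per (δ := 1 / 8) (by norm_num) (fun _ => win_supp)

theorem jetFam_per_lin : JetFam (fun _ : Unit => per lin) :=
  jetFam_lin.per (δ := 1 / 8) (by norm_num) (fun _ => lin_supp)

theorem jetFam_per_phi : JetFam (fun _ : Unit => per phi) :=
  jetFam_phi.per (δ := 1 / 8) (by norm_num) (fun _ => phi_supp)

theorem jetFam_per_deriv_win : JetFam (fun _ : Unit => per (deriv win)) :=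
  jetFam_win.deriv.per (δ := 1 / 16) (by norm_num)
    (fun _ => deriv_eq_zero_of_support win_supp (by norm_num))

theorem jetFam_per_deriv_lin : JetFam (fun _ : Unit => per (deriv lin)) :=
  jetFam_lin.deriv.per (δ := 1 / 16) (by norm_num)
    (fun _ => deriv_eq_zero_of_support lin_supp (by norm_num))

theorem jetFam_per_deriv_phi : JetFam (fun _ : Unit => per (deriv phi)) :=
  jetFam_phi.deriv.per (δ := 1 / 16) (by norm_num)
    (fun _ => deriv_eq_zero_of_support phi_supp (by norm_num))

theorem jetFam_theta : JetFam (fun j : ℕ => theta (j % 10)) := by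
  have h0 : JetFam (fun _ : ℕ => pulse) :=
    jetFam_pulse.comp (h := fun _ : ℕ => ()) (Computable.const _)
  have hd : Computable (fun j : ℕ => ((0, j % 10 + 1, 0) : QC)) := by
    have : Primrec (fun j : ℕ => ((0, j % 10 + 1, 0) : QC)) :=
      Primrec.pair (Primrec.const 0) (Primrec.pair
        (Primrec.succ.comp (Primrec.nat_mod.comp Primrec.id (Primrec.const 10))) (Primrec.const 0))
    exact this.to_comp
  have h1 := h0.comp_affine (c := fun _ => ((12, 0, 0) : QC))
    (d := fun j : ℕ => ((0, j % 10 + 1, 0) : QC)) (Computable.const _) hd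
  have h2 : JetFam (fun (j : ℕ) (s : ℝ) => pulse (12 * s - (((j % 10 : ℕ) : ℝ) + 1))) := by
    refine h1.congr (fun j => ?_)
    funext s
    norm_num [QC.val]
    ring_nf
  have h3 := h2.per (δ := 1 / 12) (by norm_num)
    (fun j => theta_supp (j % 10) (Nat.mod_lt _ (by norm_num)))
  have h4 := h3.comp_affine (c := fun _ => ((1, 0, 11) : QC)) (d := fun _ => ((0, 0, 0) : QC))
    (Computable.const _) (Computable.const _)
  refine h4.congr (fun j => ?_)
  funext t
  unfold theta
  have e : QC.val (1, 0, 11) * t + QC.val (0, 0, 0) = t / 12 := by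
    norm_num [QC.val]
    ring
  rw [e]

end Vale.Agent.P113
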