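import Vale.Agent.P113.CompFam

/-!
# P113-E: sums of computable families of reals
-/

namespace Vale.Agent.P113

open Finset
open scoped ContDiff

namespace CompFam

variable {α β : Type} [Primcodable α] [Primcodable β]

/-- sums of variable length -/
theorem sum {F : α × ℕ → ℝ} (hF : CompFam F) {m : α → ℕ} (hm : Computable m) :
    CompFam (fun a => ∑ i ∈ range (m a), F (a, i)) := by
  obtain ⟨gF, hgF, hF⟩ := hF
  let K : α × ℕ → ℕ := fun p => (p.2 + 1) * m p.1
  have hK : Computable K :=
    Primrec.nat_mul.to_comp.comp (Primrec.succ.to_comp.comp Computable.snd)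
      (hm.comp Computable.fst)
  let step : α × ℕ → ℕ × QC → QC := fun p q => QC.add q.2 (gF (p.1, q.1) (K p))
  have hstep : Computable₂ step := by
    have h1 : Computable (fun r : (α × ℕ) × (ℕ × QC) => gF (r.1.1, r.2.1) (K r.1)) :=
      hgF.comp ((Computable.fst.comp Computable.fst).pair (Computable.fst.comp Computable.snd))
        (hK.comp Computable.fst)
    exact QC.primrec_add.to_comp.comp (Computable.snd.comp Computable.snd) h1
  let S : α × ℕ → ℕ → QC := fun p k =>
    Nat.rec (motive := fun _ => QC) (QC.ofNat 0) (fun y IH => step p (y, IH)) k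
  refine ⟨fun a n => S (a, n) (m a), ?_, ?_⟩
  · exact Computable.nat_rec (hm.comp Computable.fst) (Computable.const (QC.ofNat 0)) hstep
  · intro a n
    have key : ∀ k : ℕ, |∑ i ∈ range k, F (a, i) - (S (a, n) k).val|
        ≤ (k : ℝ) * (1 / ((K (a, n) : ℝ) + 1)) := by
      intro k
      induction k with
      | zero => simp [S, QC.val_ofNat]
      | succ k ih =>
        have hS : S (a, n) (k + 1) = QC.add (S (a, n) k) (gF (a, k) (K (a, n))) := rfl
        rw [hS, QC.val_add, sum_range_succ]
        have h1 := hF (a, k) (K (a, n))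
        calc |∑ i ∈ range k, F (a, i) + F (a, k)
              - ((S (a, n) k).val + (gF (a, k) (K (a, n))).val)|
            = |(∑ i ∈ range k, F (a, i) - (S (a, n) k).val)
              + (F (a, k) - (gF (a, k) (K (a, n))).val)| := by ring_nf
          _ ≤ |∑ i ∈ range k, F (a, i) - (S (a, n) k).val|
              + |F (a, k) - (gF (a, k) (K (a, n))).val| := abs_add_le _ _
          _ ≤ (k : ℝ) * (1 / ((K (a, n) : ℝ) + 1)) + 1 / ((K (a, n) : ℝ) + 1) := by linarith
          _ = ((k + 1 : ℕ) : ℝ) * (1 / ((K (a, n) : ℝ) + 1)) := by push_cast; ring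
    refine (key (m a)).trans ?_
    have hKc : (K (a, n) : ℝ) = ((n : ℝ) + 1) * (m a : ℝ) := by
      simp only [K]
      push_cast
      ring
    rw [hKc, mul_one_div, div_le_div_iff₀ (by positivity) (by positivity)]
    nlinarith [Nat.cast_nonneg (α := ℝ) (m a), Nat.cast_nonneg (α := ℝ) n]

omit [Primcodable β] in
theorem list_map_sum_eq_sum_range [Inhabited β] (f : β → ℝ) (l : List β) :
    (l.map f).sum = ∑ i ∈ range l.length, f (l.getD i default) := by
  induction l with
  | nil => simp
  | cons b l ih =>
    rw [List.map_cons, List.sum_cons, List.length_cons, sum_range_succ', ih]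
    simp [add_comm]

/-- sums over computable lists -/
theorem listSum [Inhabited β] {F : α × β → ℝ} (hF : CompFam F) {L : α → List β}
    (hL : Computable L) : CompFam (fun a => ((L a).map (fun b => F (a, b))).sum) := by
  have h1 : Computable (fun p : α × ℕ => (p.1, (L p.1).getD p.2 default)) :=
    Computable.fst.pair ((Primrec.list_getD (default : β)).to_comp.comp
      (hL.comp Computable.fst) Computable.snd)
  have h2 : CompFam (fun p : α × ℕ => F (p.1, (L p.1).getD p.2 default)) := hF.comp h1
  have h3 := h2.sum (Computable.list_length.comp hL)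
  exact h3.congr (fun a => (list_map_sum_eq_sum_range (fun b => F (a, b)) (L a)).symm)

end CompFam

end Vale.Agent.P113
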