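import Vale.Agent.P113.CompFamMul
import Vale.Agent.P113.CompFamSum
import Vale.Agent.P113.CompAnaExp
import Vale.Agent.P113.CompAuto

/-!
# P113-E: the exponential function at rational points
-/

namespace Vale.Agent.P113

open Finset

theorem compFam_exp_neg :
    CompFam (fun p : ℕ × ℕ => Real.exp (-((p.1 : ℝ) / ((p.2 : ℝ) + 1)))) := by
  refine ⟨fun p n => QC.pow (QC.sub (QC.ofNat 1)
      (p.1, 0, (p.2 + 1) * ((n + 1) * (p.1 * p.1 + 1)) - 1)) ((n + 1) * (p.1 * p.1 + 1)), ?_, ?_⟩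
  · have hN : Primrec (fun q : (ℕ × ℕ) × ℕ => (q.2 + 1) * (q.1.1 * q.1.1 + 1)) := by fun_prop
    have h1 : Primrec (fun q : (ℕ × ℕ) × ℕ =>
        ((q.1.1, 0, (q.1.2 + 1) * ((q.2 + 1) * (q.1.1 * q.1.1 + 1)) - 1) : QC)) := by fun_prop
    exact (QC.primrec_pow.comp (QC.primrec_sub.comp (Primrec.const _) h1) hN).to_comp
  · rintro ⟨a, c⟩ n
    simp only
    set N : ℕ := (n + 1) * (a * a + 1) with hN
    have hNpos : 0 < N := by positivity
    have hc : (0 : ℝ) < (c : ℝ) + 1 := by positivity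
    have hNR : (0 : ℝ) < (N : ℝ) := by exact_mod_cast hNpos
    have ha : (0 : ℝ) ≤ (a : ℝ) := Nat.cast_nonneg a
    set s : ℝ := (a : ℝ) / ((c : ℝ) + 1) with hs
    have hs0 : 0 ≤ s := by positivity
    have hsa : s ≤ a := div_le_self ha (by linarith [Nat.cast_nonneg (α := ℝ) c])
    have hNc : (N : ℝ) = ((n : ℝ) + 1) * ((a : ℝ) * a + 1) := by
      rw [hN]; push_cast; ring
    have hn : (0 : ℝ) ≤ (n : ℝ) := Nat.cast_nonneg n
    have haN : (a : ℝ) ≤ N := by
      rw [hNc]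
      nlinarith [sq_nonneg ((a : ℝ) - 1), mul_nonneg hn (by positivity : (0 : ℝ) ≤ (a : ℝ) * a + 1)]
    have hval : (QC.val (a, 0, (c + 1) * N - 1)) = s / N := by
      rw [QC.val_mk]
      have h1 : 1 ≤ (c + 1) * N := Nat.succ_le_of_lt (Nat.mul_pos (Nat.succ_pos _) hNpos)
      rw [Nat.cast_sub h1, hs]
      push_cast
      field_simp
      ring
    rw [QC.val_pow, QC.val_sub, QC.val_ofNat, hval, Nat.cast_one]
    refine (abs_exp_neg_sub_pow_le hs0 hNpos (hsa.trans haN)).trans ?_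
    rw [div_le_div_iff₀ hNR (by positivity), hNc]
    have h2 : s ^ 2 ≤ (a : ℝ) * a := by nlinarith
    nlinarith [mul_nonneg hn (by positivity : (0 : ℝ) ≤ (a : ℝ) * a + 1)]

theorem compFam_glue : CompFam (fun q : QC => expNegInvGlue q.val) := by
  have hd : Computable (fun q : QC => decide (q.1 ≤ q.2.1)) := by
    have : PrimrecPred (fun q : QC => q.1 ≤ q.2.1) := by fun_prop
    exact this.decide.to_comp
  have hidx : Computable (fun q : QC => ((q.2.2 + 1, q.1 - q.2.1 - 1) : ℕ × ℕ)) := by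
    have : Primrec (fun q : QC => ((q.2.2 + 1, q.1 - q.2.1 - 1) : ℕ × ℕ)) := by fun_prop
    exact this.to_comp
  refine (CompFam.ite hd CompFam.zero (compFam_exp_neg.comp hidx)).congr ?_
  rintro ⟨a, b, c⟩
  simp only
  unfold expNegInvGlue
  by_cases h : a ≤ b
  · have h' : QC.val (a, b, c) ≤ 0 := (QC.val_nonpos_iff _).2 h
    rw [if_pos h, if_pos h']
  · have h' : ¬ QC.val (a, b, c) ≤ 0 := fun hh => h ((QC.val_nonpos_iff _).1 hh)
    rw [if_neg h, if_neg h']
    congr 2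
    rw [QC.val_mk, inv_div]
    have e : ((a - b - 1 : ℕ) : ℝ) + 1 = (a : ℝ) - b := by
      have h1 : a - b - 1 + 1 = a - b := by omega
      have h2 : b ≤ a := by omega
      rw [← Nat.cast_sub h2, ← h1]
      push_cast
      ring
    rw [e]
    push_cast
    ring

end Vale.Agent.P113
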