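import Vale.Agent.P113.CompJet
import Vale.Agent.P113.CompExp
import Vale.Agent.P113.CompAnaGlue
import Vale.Agent.P113.CompAuto

/-!
# P113-E: all derivatives of `expNegInvGlue` at rational points are computable
-/

namespace Vale.Agent.P113

open scoped ContDiff

/-- one step of the two-term recursion on rational codes -/
def glueStep (q : QC) (n : ℕ) (p : QC × QC) : QC × QC :=
  (p.2, QC.mul (QC.sub (QC.mul (QC.sub (QC.ofNat 1) (QC.mul (QC.ofNat (2 * (n + 1))) q)) p.2)
    (QC.mul (QC.ofNat (n * (n + 1))) p.1)) (QC.inv (QC.mul q q)))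

/-- codes of the pair `(glueA q n, glueA q (n+1))` -/
def glueRho (q : QC) (n : ℕ) : QC × QC :=
  Nat.rec (QC.ofNat 1, QC.inv (QC.mul q q)) (fun n IH => glueStep q n IH) n

theorem glueRho_val (q : QC) (n : ℕ) :
    (glueRho q n).1.val = glueA q.val n ∧ (glueRho q n).2.val = glueA q.val (n + 1) := by
  induction n with
  | zero =>
    constructor
    · simp [glueRho, glueA, QC.val_ofNat]
    · simp [glueRho, glueA, QC.val_inv, QC.val_mul, pow_two]
  | succ n ih =>
    have e : glueRho q (n + 1) = glueStep q n (glueRho q n) := rfl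
    rw [e]
    refine ⟨ih.2, ?_⟩
    simp only [glueStep, QC.val_mul, QC.val_sub, QC.val_ofNat, QC.val_inv, ih.1, ih.2]
    rw [glueA]
    push_cast
    rw [div_eq_mul_inv, pow_two]

theorem primrec_glueStep : Primrec₂ (fun (q : QC) (p : ℕ × QC × QC) => glueStep q p.1 p.2) := by
  unfold glueStep
  have hq : Primrec (fun x : QC × ℕ × QC × QC => x.1) := Primrec.fst
  have hn : Primrec (fun x : QC × ℕ × QC × QC => x.2.1) := Primrec.fst.comp Primrec.snd
  have h1 : Primrec (fun x : QC × ℕ × QC × QC => x.2.2.1) :=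
    Primrec.fst.comp (Primrec.snd.comp Primrec.snd)
  have h2 : Primrec (fun x : QC × ℕ × QC × QC => x.2.2.2) :=
    Primrec.snd.comp (Primrec.snd.comp Primrec.snd)
  refine Primrec.pair h2 ?_
  refine QC.primrec_mul.comp (QC.primrec_sub.comp (QC.primrec_mul.comp (QC.primrec_sub.comp
    (Primrec.const _) (QC.primrec_mul.comp (QC.primrec_ofNat.comp ?_) hq)) h2)
    (QC.primrec_mul.comp (QC.primrec_ofNat.comp ?_) h1))
    (QC.primrec_inv.comp (QC.primrec_mul.comp hq hq))
  · exact Primrec.nat_mul.comp (Primrec.const 2) (Primrec.succ.comp hn)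
  · exact Primrec.nat_mul.comp hn (Primrec.succ.comp hn)

theorem primrec_glueRho : Primrec₂ glueRho := by
  unfold glueRho
  exact Primrec.nat_rec (f := fun q : QC => (QC.ofNat 1, QC.inv (QC.mul q q)))
    (g := fun (q : QC) (p : ℕ × QC × QC) => glueStep q p.1 p.2)
    (Primrec.pair (Primrec.const _) (QC.primrec_inv.comp (QC.primrec_mul.comp Primrec.id Primrec.id)))
    primrec_glueStep

theorem jetFam_glue : JetFam (fun _ : Unit => expNegInvGlue) := by
  refine ⟨fun _ => expNegInvGlue.contDiff, ?_⟩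
  have h1 : CompFam (fun p : Unit × ℕ × QC => (glueRho p.2.2 p.2.1).1.val) :=
    CompFam.of_val (Primrec.fst.comp (primrec_glueRho.comp (Primrec.snd.comp Primrec.snd)
      (Primrec.fst.comp Primrec.snd))).to_comp
  have h2 : CompFam (fun p : Unit × ℕ × QC => expNegInvGlue p.2.2.val) :=
    compFam_glue.comp (Computable.snd.comp Computable.snd)
  refine (h1.mul h2).congr (fun p => ?_)
  rw [iteratedDeriv_glue, (glueRho_val p.2.2 p.2.1).1]

end Vale.Agent.P113
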