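import Vale.Agent.P113.CompFamMul
import Vale.Agent.P113.CompFamSum
import Vale.Agent.P113.CompAnaInt
import Vale.Agent.P113.CompAuto

/-!
# P113-E: integrals of computable Lipschitz functions
-/

namespace Vale.Agent.P113

open Finset MeasureTheory

theorem CompFam.integral {f : ℝ → ℝ} {L : ℕ} (hL : ∀ x y, |f x - f y| ≤ L * |x - y|)
    (hf : CompFam (fun q : QC => f q.val)) :
    CompFam (fun q : QC => ∫ x in (0 : ℝ)..q.val, f x) := by
  have hcont : Continuous f := by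
    have hlip : LipschitzWith (L : NNReal) f := by
      refine LipschitzWith.of_dist_le_mul ?_
      intro x y
      rw [Real.dist_eq, Real.dist_eq]
      simpa using hL x y
    exact hlip.continuous
  let Nf : QC × ℕ → ℕ := fun p => (p.2 + 1) * (L * (QC.bd p.1) ^ 2 + 1)
  have hNf : Primrec Nf := by
    have hbd : Primrec (fun p : QC × ℕ => QC.bd p.1) := QC.primrec_bd.comp Primrec.fst
    have h2 : Primrec (fun p : QC × ℕ => (QC.bd p.1) ^ 2) :=
      Primrec₂.comp primrec_nat_pow hbd (Primrec.const 2)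
    have h3 : Primrec (fun p : QC × ℕ => L * (QC.bd p.1) ^ 2 + 1) :=
      Primrec.succ.comp (Primrec.nat_mul.comp (Primrec.const L) h2)
    exact Primrec.nat_mul.comp (Primrec.succ.comp Primrec.snd) h3
  have hNpos : ∀ p, 0 < Nf p := fun p => by positivity
  let G : QC × ℕ → ℝ := fun p =>
    ∑ i ∈ range (Nf p), p.1.val / (Nf p : ℝ) * f (p.1.val * (i : ℝ) / (Nf p : ℝ))
  have hG : CompFam G := by
    let c1 : (QC × ℕ) × ℕ → QC := fun r => QC.mul r.1.1 (QC.inv (QC.ofNat (Nf r.1)))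
    let c2 : (QC × ℕ) × ℕ → QC := fun r =>
      QC.mul (QC.mul r.1.1 (QC.ofNat r.2)) (QC.inv (QC.ofNat (Nf r.1)))
    have hinv : Primrec (fun r : (QC × ℕ) × ℕ => QC.inv (QC.ofNat (Nf r.1))) :=
      QC.primrec_inv.comp (QC.primrec_ofNat.comp (hNf.comp Primrec.fst))
    have hq : Primrec (fun r : (QC × ℕ) × ℕ => r.1.1) := Primrec.fst.comp Primrec.fst
    have hc1 : Primrec c1 := QC.primrec_mul.comp hq hinv
    have hc2 : Primrec c2 :=
      QC.primrec_mul.comp (QC.primrec_mul.comp hq (QC.primrec_ofNat.comp Primrec.snd)) hinv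
    have hF' : CompFam (fun r : (QC × ℕ) × ℕ =>
        r.1.1.val / (Nf r.1 : ℝ) * f (r.1.1.val * (r.2 : ℝ) / (Nf r.1 : ℝ))) := by
      refine ((CompFam.of_val hc1.to_comp).mul (hf.comp hc2.to_comp)).congr ?_
      intro r
      simp only [c1, c2, QC.val_mul, QC.val_inv, QC.val_ofNat, div_eq_mul_inv]
    exact CompFam.sum hF' hNf.to_comp
  refine CompFam.lim hG ?_
  intro q n
  have h1 := abs_integral_sub_riemann_le hcont hL q.val (hNpos (q, n))
  refine h1.trans ?_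
  have hB := QC.abs_val_le_bd q
  have hq2 : q.val ^ 2 ≤ (QC.bd q : ℝ) ^ 2 := by
    rw [← sq_abs]
    exact pow_le_pow_left₀ (abs_nonneg _) hB 2
  have hNcast : ((Nf (q, n) : ℕ) : ℝ) = ((n : ℝ) + 1) * ((L : ℝ) * (QC.bd q : ℝ) ^ 2 + 1) := by
    simp only [Nf]
    push_cast
    ring
  rw [hNcast]
  have hn : (0 : ℝ) < (n : ℝ) + 1 := by positivity
  have hK : (0 : ℝ) < (L : ℝ) * (QC.bd q : ℝ) ^ 2 + 1 := by positivity
  rw [div_le_div_iff₀ (mul_pos hn hK) hn]
  have hLq : (L : ℝ) * q.val ^ 2 ≤ (L : ℝ) * (QC.bd q : ℝ) ^ 2 + 1 := by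
    have : (L : ℝ) * q.val ^ 2 ≤ (L : ℝ) * (QC.bd q : ℝ) ^ 2 :=
      mul_le_mul_of_nonneg_left hq2 (Nat.cast_nonneg _)
    linarith
  nlinarith [mul_le_mul_of_nonneg_right hLq hn.le]

end Vale.Agent.P113
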