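import Vale.Agent.P113.CompJet

/-!
# P113-E: affine substitution, derivative, primitive and periodisation of computable families
-/

namespace Vale.Agent.P113

open Finset
open scoped ContDiff

namespace JetFam

variable {α β : Type} [Primcodable α] [Primcodable β]

theorem iteratedDeriv_affine {g : ℝ → ℝ} (hg : ContDiff ℝ ∞ g) (c d : ℝ) (n : ℕ) (x : ℝ) :
    iteratedDeriv n (fun x => g (c * x + d)) x = c ^ n * iteratedDeriv n g (c * x + d) := by
  have h1 : ContDiff ℝ n (fun y => g (y + d)) :=
    (hg.comp (contDiff_id.add contDiff_const)).of_le (by exact_mod_cast le_top)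
  have h2 := congrFun (iteratedDeriv_comp_const_mul h1 c) x
  rw [h2, iteratedDeriv_comp_add_const]

theorem comp_affine {f : α → ℝ → ℝ} (hf : JetFam f) {c d : α → QC} (hc : Computable c)
    (hd : Computable d) : JetFam (fun a x => f a ((c a).val * x + (d a).val)) := by
  refine ⟨fun a => (hf.1 a).comp (by fun_prop), ?_⟩
  have c1 : Computable fun p : α × ℕ × QC => QC.pow (c p.1) p.2.1 :=
    QC.primrec_pow.to_comp.comp (hc.comp Computable.fst) (Computable.fst.comp Computable.snd)
  have c2 : Computable fun p : α × ℕ × QC =>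
      ((p.1, p.2.1, QC.add (QC.mul (c p.1) p.2.2) (d p.1)) : α × ℕ × QC) :=
    Computable.pair Computable.fst (Computable.pair (Computable.fst.comp Computable.snd)
      (QC.primrec_add.to_comp.comp
        (QC.primrec_mul.to_comp.comp (hc.comp Computable.fst)
          (Computable.snd.comp Computable.snd)) (hd.comp Computable.fst)))
  refine ((CompFam.of_val c1).mul (hf.2.comp c2)).congr fun p => ?_
  rw [iteratedDeriv_affine (hf.1 p.1), QC.val_pow, QC.val_add, QC.val_mul]

theorem deriv {f : α → ℝ → ℝ} (hf : JetFam f) : JetFam (fun a => deriv (f a)) := by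
  refine ⟨fun a => (contDiff_infty_iff_deriv.1 (hf.1 a)).2, ?_⟩
  have c2 : Computable fun p : α × ℕ × QC => ((p.1, p.2.1 + 1, p.2.2) : α × ℕ × QC) :=
    Computable.pair Computable.fst (Computable.pair
      (Computable.succ.comp (Computable.fst.comp Computable.snd))
      (Computable.snd.comp Computable.snd))
  refine (hf.2.comp c2).congr fun p => ?_
  rw [iteratedDeriv_succ']

theorem of_deriv {F f : α → ℝ → ℝ} (hf : JetFam f) (h : ∀ a x, HasDerivAt (F a) (f a x) x)
    (h0 : CompFam (fun p : α × QC => F p.1 p.2.val)) : JetFam F := by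
  have hd : ∀ a, _root_.deriv (F a) = f a := fun a => funext fun x => (h a x).deriv
  refine ⟨fun a => contDiff_infty_iff_deriv.2
    ⟨fun x => (h a x).differentiableAt, by rw [hd a]; exact hf.1 a⟩, ?_⟩
  have c0 : Computable fun p : α × ℕ × QC => decide (p.2.1 = 0) :=
    (Primrec.eq.comp (Primrec.fst.comp Primrec.snd) (Primrec.const 0)).decide.to_comp
  have c1 : Computable fun p : α × ℕ × QC => ((p.1, p.2.2) : α × QC) :=
    Computable.pair Computable.fst (Computable.snd.comp Computable.snd)
  have c2 : Computable fun p : α × ℕ × QC => ((p.1, p.2.1 - 1, p.2.2) : α × ℕ × QC) :=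
    Computable.pair Computable.fst (Computable.pair
      (Primrec.nat_sub.comp (Primrec.fst.comp Primrec.snd) (Primrec.const 1)).to_comp
      (Computable.snd.comp Computable.snd))
  refine (CompFam.ite (p := fun p : α × ℕ × QC => p.2.1 = 0) c0 (h0.comp c1)
    (hf.2.comp c2)).congr fun p => ?_
  obtain ⟨a, n, q⟩ := p
  cases n with
  | zero => simp
  | succ n =>
    simp only [Nat.succ_ne_zero, if_false, Nat.add_sub_cancel]
    rw [iteratedDeriv_succ', hd a]

theorem per {f : α → ℝ → ℝ} (hf : JetFam f) {δ : ℝ} (hδ : 0 < δ)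
    (h : ∀ a x, x ≤ δ ∨ 1 - δ ≤ x → f a x = 0) : JetFam (fun a => per (f a)) := by
  refine ⟨fun a => per_contDiff hδ (h a) (hf.1 a), ?_⟩
  have c2 : Computable fun p : α × ℕ × QC => ((p.1, p.2.1, QC.fract p.2.2) : α × ℕ × QC) :=
    Computable.pair Computable.fst (Computable.pair (Computable.fst.comp Computable.snd)
      (QC.primrec_fract.to_comp.comp (Computable.snd.comp Computable.snd)))
  refine (hf.2.comp c2).congr fun p => ?_
  rw [per_iteratedDeriv hδ (h p.1), QC.val_fract]
  rfl

end JetFam

end Vale.Agent.P113
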