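import Vale.Agent.P113.CompJetMul
import Vale.Agent.P113.CompJetSubst
import Vale.Agent.P113.CompGlue
import Vale.Agent.P113.CompInt

/-!
# P113-E: bump, pulse and step
-/

namespace Vale.Agent.P113

open Finset MeasureTheory
open scoped ContDiff

theorem jetFam_bump : JetFam (fun _ : Unit => bump) := by
  have h := JetFam.mul jetFam_glue (jetFam_glue.comp_affine (c := fun _ => ((0, 1, 0) : QC))
    (d := fun _ => ((1, 0, 0) : QC)) (Computable.const _) (Computable.const _))
  refine h.congr fun _ => ?_
  funext x
  unfold bump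
  have e : QC.val (0, 1, 0) * x + QC.val (1, 0, 0) = 1 - x := by
    simp only [QC.val]
    norm_num
    ring
  rw [e]

theorem bump_lipschitz : ∃ L : ℕ, ∀ x y, |bump x - bump y| ≤ L * |x - y| := by
  have hc : HasCompactSupport bump := by
    refine HasCompactSupport.intro (isCompact_Icc : IsCompact (Set.Icc (0 : ℝ) 1)) fun x hx => ?_
    apply bump_eq_zero
    by_contra hcon
    push Not at hcon
    exact hx ⟨hcon.1.le, hcon.2.le⟩
  obtain ⟨C, hC⟩ := bump_contDiff.lipschitzWith_of_hasCompactSupport hc (by simp)
  obtain ⟨L, hL⟩ := exists_nat_ge (C : ℝ)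
  refine ⟨L, fun x y => ?_⟩
  have h := hC.dist_le_mul x y
  rw [Real.dist_eq, Real.dist_eq] at h
  exact h.trans (mul_le_mul_of_nonneg_right hL (abs_nonneg _))

theorem compFam_bump_val : CompFam (fun q : QC => bump q.val) :=
  jetFam_bump.value.comp (h := fun q : QC => (((), q) : Unit × QC))
    (Computable.pair (Computable.const ()) Computable.id)

theorem compFam_int_bump : CompFam (fun q : QC => ∫ x in (0 : ℝ)..q.val, bump x) := by
  obtain ⟨L, hL⟩ := bump_lipschitz
  exact CompFam.integral hL compFam_bump_val

theorem compFam_inv_bumpI : CompFam (fun _ : Unit => bumpI⁻¹) := by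
  have h1 : CompFam (fun _ : Unit => bumpI) := by
    refine (compFam_int_bump.comp (h := fun _ : Unit => ((1, 0, 0) : QC))
      (Computable.const _)).congr fun _ => ?_
    unfold bumpI
    have e : QC.val (1, 0, 0) = 1 := by simp [QC.val]
    rw [e]
  obtain ⟨m, hm⟩ := exists_nat_one_div_lt bumpI_pos
  exact CompFam.inv h1 (m := fun _ => m) (Computable.const m) (fun _ => hm.le)

theorem jetFam_pulse : JetFam (fun _ : Unit => pulse) := by
  refine (JetFam.smul compFam_inv_bumpI jetFam_bump).congr fun _ => ?_
  funext x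
  unfold pulse
  rw [div_eq_inv_mul]

theorem jetFam_step : JetFam (fun _ : Unit => step) := by
  refine JetFam.of_deriv jetFam_pulse (fun _ x => step_hasDerivAt x) ?_
  have h1 : CompFam (fun _ : Unit × QC => bumpI⁻¹) :=
    compFam_inv_bumpI.comp (h := fun _ : Unit × QC => ()) (Computable.const ())
  have h2 : CompFam (fun p : Unit × QC => ∫ x in (0 : ℝ)..p.2.val, bump x) :=
    compFam_int_bump.comp (h := fun p : Unit × QC => p.2) Computable.snd
  refine (h1.mul h2).congr fun p => ?_
  unfold step pulse
  rw [intervalIntegral.integral_div, div_eq_inv_mul]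

end Vale.Agent.P113
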