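import Vale.Agent.P113.CompQC

/-!
# P113-E: computable families of real numbers
-/

namespace Vale.Agent.P113

open Finset

/-- `F : α → ℝ` is a computable family of reals: rational approximations with error `1/(n+1)`
are computable from the index and `n`. -/
def CompFam {α : Type} [Primcodable α] (F : α → ℝ) : Prop :=
  ∃ g : α → ℕ → QC, Computable₂ g ∧ ∀ (a : α) (n : ℕ), |F a - (g a n).val| ≤ 1 / ((n : ℝ) + 1)

namespace CompFam

variable {α β : Type} [Primcodable α] [Primcodable β]

theorem congr {F G : α → ℝ} (hF : CompFam F) (h : ∀ a, F a = G a) : CompFam G := by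
  have : F = G := funext h
  rwa [← this]

theorem of_val {r : α → QC} (hr : Computable r) : CompFam (fun a => (r a).val) := by
  refine ⟨fun a _ => r a, hr.comp Computable.fst, fun a n => ?_⟩
  simp only [sub_self, abs_zero]
  positivity

theorem natCast {m : α → ℕ} (hm : Computable m) : CompFam (fun a => (m a : ℝ)) :=
  (of_val (QC.primrec_ofNat.to_comp.comp hm)).congr fun a => QC.val_ofNat (m a)

/-- a rational constant -/
theorem const_val (r : QC) : CompFam (fun _ : α => r.val) :=
  of_val (Computable.const r)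

theorem const {x : ℝ} (hx : ComputableReal x) : CompFam (fun _ : α => x) := by
  obtain ⟨g, hg, h⟩ := hx
  exact ⟨fun _ n => g n, hg.comp Computable.snd, fun _ n => h n⟩

theorem zero : CompFam (fun _ : α => (0 : ℝ)) :=
  (const_val (QC.ofNat 0)).congr fun _ => by simp [QC.val_ofNat]

theorem comp {F : α → ℝ} (hF : CompFam F) {h : β → α} (hh : Computable h) :
    CompFam (fun b => F (h b)) := by
  obtain ⟨g, hg, hb⟩ := hF
  exact ⟨fun b n => g (h b) n, hg.comp (hh.comp Computable.fst) Computable.snd,
    fun b n => hb (h b) n⟩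

theorem comp_double : Computable (fun n : ℕ => 2 * n + 1) :=
  (Primrec.nat_add.comp (Primrec.nat_mul.comp (Primrec.const 2) Primrec.id)
    (Primrec.const 1)).to_comp

theorem half_bound (n : ℕ) : 1 / (((2 * n + 1 : ℕ) : ℝ) + 1) + 1 / (((2 * n + 1 : ℕ) : ℝ) + 1)
    = 1 / ((n : ℝ) + 1) := by
  have h1 : ((n : ℝ) + 1) ≠ 0 := by positivity
  push_cast
  field_simp
  ring

theorem add {F G : α → ℝ} (hF : CompFam F) (hG : CompFam G) : CompFam (fun a => F a + G a) := by
  obtain ⟨gF, hgF, hbF⟩ := hF
  obtain ⟨gG, hgG, hbG⟩ := hG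
  refine ⟨fun a n => QC.add (gF a (2 * n + 1)) (gG a (2 * n + 1)), ?_, fun a n => ?_⟩
  · exact QC.primrec_add.to_comp.comp
      (hgF.comp Computable.fst (comp_double.comp Computable.snd))
      (hgG.comp Computable.fst (comp_double.comp Computable.snd))
  · rw [QC.val_add, ← half_bound]
    have e : F a + G a - ((gF a (2 * n + 1)).val + (gG a (2 * n + 1)).val)
        = (F a - (gF a (2 * n + 1)).val) + (G a - (gG a (2 * n + 1)).val) := by ring
    rw [e]
    exact (abs_add_le _ _).trans (add_le_add (hbF a _) (hbG a _))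

theorem neg {F : α → ℝ} (hF : CompFam F) : CompFam (fun a => - F a) := by
  obtain ⟨gF, hgF, hbF⟩ := hF
  refine ⟨fun a n => QC.neg (gF a n), QC.primrec_neg.to_comp.comp hgF, fun a n => ?_⟩
  rw [QC.val_neg]
  have e : - F a - - (gF a n).val = - (F a - (gF a n).val) := by ring
  rw [e, abs_neg]
  exact hbF a n

theorem sub {F G : α → ℝ} (hF : CompFam F) (hG : CompFam G) : CompFam (fun a => F a - G a) :=
  (hF.add hG.neg).congr fun a => by ring

theorem ite {p : α → Prop} [DecidablePred p] (hp : Computable (fun a => decide (p a)))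
    {F G : α → ℝ} (hF : CompFam F) (hG : CompFam G) :
    CompFam (fun a => if p a then F a else G a) := by
  obtain ⟨gF, hgF, hbF⟩ := hF
  obtain ⟨gG, hgG, hbG⟩ := hG
  refine ⟨fun a n => cond (decide (p a)) (gF a n) (gG a n), ?_, fun a n => ?_⟩
  · exact Computable.cond (hp.comp Computable.fst) hgF hgG
  · by_cases h : p a
    · simp only [h, if_true, decide_true, cond_true]
      exact hbF a n
    · simp only [h, if_false, decide_false, cond_false]
      exact hbG a n

/-- effective limits -/
theorem lim {F : α → ℝ} {G : α × ℕ → ℝ} (hG : CompFam G)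
    (h : ∀ (a : α) (n : ℕ), |F a - G (a, n)| ≤ 1 / ((n : ℝ) + 1)) : CompFam F := by
  obtain ⟨g, hg, hb⟩ := hG
  refine ⟨fun a n => g (a, 2 * n + 1) (2 * n + 1), ?_, fun a n => ?_⟩
  · exact hg.comp (Computable.pair Computable.fst (comp_double.comp Computable.snd))
      (comp_double.comp Computable.snd)
  · rw [← half_bound]
    have e : F a - (g (a, 2 * n + 1) (2 * n + 1)).val
        = (F a - G (a, 2 * n + 1)) + (G (a, 2 * n + 1) - (g (a, 2 * n + 1) (2 * n + 1)).val) := by
      ring
    rw [e]
    exact (abs_add_le _ _).trans (add_le_add (h a _) (hb _ _))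

/-- three families glued along an index in `Fin 3` -/
theorem fin3 {F : α → Fin 3 → ℝ} (h : ∀ i, CompFam (fun a => F a i)) :
    CompFam (fun p : α × Fin 3 => F p.1 p.2) := by
  have h0 : CompFam (fun p : α × Fin 3 => F p.1 0) := (h 0).comp Computable.fst
  have h1 : CompFam (fun p : α × Fin 3 => F p.1 1) := (h 1).comp Computable.fst
  have h2 : CompFam (fun p : α × Fin 3 => F p.1 2) := (h 2).comp Computable.fst
  have d0 : Computable (fun p : α × Fin 3 => decide (p.2 = 0)) :=
    (Primrec.eq.comp Primrec.snd (Primrec.const 0)).decide.to_comp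
  have d1 : Computable (fun p : α × Fin 3 => decide (p.2 = 1)) :=
    (Primrec.eq.comp Primrec.snd (Primrec.const 1)).decide.to_comp
  refine (ite d0 h0 (ite d1 h1 h2)).congr ?_
  rintro ⟨a, i⟩
  fin_cases i <;> simp

end CompFam

end Vale.Agent.P113
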