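import Vale.Agent.P113.CompFam

/-!
# P113-E: products and inverses of computable families of reals
-/

namespace Vale.Agent.P113

open Finset
open scoped ContDiff

namespace CompFam

variable {α β : Type} [Primcodable α] [Primcodable β]

theorem mul {F G : α → ℝ} (hF : CompFam F) (hG : CompFam G) : CompFam (fun a => F a * G a) := by
  obtain ⟨gF, hgF, hF⟩ := hF
  obtain ⟨gG, hgG, hG⟩ := hG
  let B : α → ℕ := fun a => QC.bd (gF a 0) + QC.bd (gG a 0) + 3
  have hB : Computable B := by
    have h1 : Computable (fun a => QC.bd (gF a 0)) :=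
      QC.primrec_bd.to_comp.comp (hgF.comp Computable.id (Computable.const 0))
    have h2 : Computable (fun a => QC.bd (gG a 0)) :=
      QC.primrec_bd.to_comp.comp (hgG.comp Computable.id (Computable.const 0))
    exact Primrec.nat_add.to_comp.comp (Primrec.nat_add.to_comp.comp h1 h2) (Computable.const 3)
  let N : α × ℕ → ℕ := fun p => (p.2 + 1) * B p.1
  have hN : Computable N :=
    Primrec.nat_mul.to_comp.comp (Primrec.succ.to_comp.comp Computable.snd)
      (hB.comp Computable.fst)
  refine ⟨fun a n => QC.mul (gF a (N (a, n))) (gG a (N (a, n))), ?_, ?_⟩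
  · exact QC.primrec_mul.to_comp.comp (hgF.comp Computable.fst hN) (hgG.comp Computable.fst hN)
  · intro a n
    rw [QC.val_mul]
    set x' := (gF a (N (a, n))).val
    set y' := (gG a (N (a, n))).val
    set δ : ℝ := 1 / ((N (a, n) : ℝ) + 1) with hδ
    have hx : |F a - x'| ≤ δ := hF a _
    have hy : |G a - y'| ≤ δ := hG a _
    have hδ0 : 0 ≤ δ := by positivity
    have hδ1 : δ ≤ 1 := by
      rw [hδ, div_le_one (by positivity)]
      have : (0 : ℝ) ≤ (N (a, n) : ℝ) := Nat.cast_nonneg _
      linarith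
    have hF0 : |F a| ≤ (QC.bd (gF a 0) : ℝ) + 1 := by
      have h1 := hF a 0
      have h2 := QC.abs_val_le_bd (gF a 0)
      simp only [Nat.cast_zero, zero_add, div_one] at h1
      calc |F a| = |(F a - (gF a 0).val) + (gF a 0).val| := by ring_nf
        _ ≤ |F a - (gF a 0).val| + |(gF a 0).val| := abs_add_le _ _
        _ ≤ (QC.bd (gF a 0) : ℝ) + 1 := by linarith
    have hG0 : |G a| ≤ (QC.bd (gG a 0) : ℝ) + 1 := by
      have h1 := hG a 0
      have h2 := QC.abs_val_le_bd (gG a 0)
      simp only [Nat.cast_zero, zero_add, div_one] at h1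
      calc |G a| = |(G a - (gG a 0).val) + (gG a 0).val| := by ring_nf
        _ ≤ |G a - (gG a 0).val| + |(gG a 0).val| := abs_add_le _ _
        _ ≤ (QC.bd (gG a 0) : ℝ) + 1 := by linarith
    have hy' : |y'| ≤ (QC.bd (gG a 0) : ℝ) + 2 := by
      calc |y'| = |G a - (G a - y')| := by ring_nf
        _ ≤ |G a| + |G a - y'| := abs_sub _ _
        _ ≤ (QC.bd (gG a 0) : ℝ) + 2 := by linarith
    have hBc : (B a : ℝ) = (QC.bd (gF a 0) : ℝ) + (QC.bd (gG a 0) : ℝ) + 3 := by
      simp only [B]
      push_cast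
      ring
    have key : |F a * G a - x' * y'| ≤ (B a : ℝ) * δ := by
      calc |F a * G a - x' * y'| = |F a * (G a - y') + y' * (F a - x')| := by ring_nf
        _ ≤ |F a * (G a - y')| + |y' * (F a - x')| := abs_add_le _ _
        _ = |F a| * |G a - y'| + |y'| * |F a - x'| := by rw [abs_mul, abs_mul]
        _ ≤ ((QC.bd (gF a 0) : ℝ) + 1) * δ + ((QC.bd (gG a 0) : ℝ) + 2) * δ := by
            gcongr
        _ = (B a : ℝ) * δ := by rw [hBc]; ring
    refine key.trans ?_
    have hNc : (N (a, n) : ℝ) = ((n : ℝ) + 1) * (B a : ℝ) := by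
      simp only [N]
      push_cast
      ring
    rw [hδ, hNc, mul_one_div, div_le_div_iff₀ (by positivity) (by positivity)]
    nlinarith [Nat.cast_nonneg (α := ℝ) (B a), Nat.cast_nonneg (α := ℝ) n]

/-- inverse of a family which is bounded below by computable positive rationals -/
theorem inv {F : α → ℝ} (hF : CompFam F) {m : α → ℕ} (hm : Computable m)
    (h : ∀ a, 1 / ((m a : ℝ) + 1) ≤ F a) : CompFam (fun a => (F a)⁻¹) := by
  obtain ⟨gF, hgF, hF⟩ := hF
  let N : α × ℕ → ℕ := fun p => 2 * (p.2 + 1) * ((m p.1 + 1) * (m p.1 + 1))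
  have hN : Computable N := by
    have h1 : Computable (fun p : α × ℕ => m p.1 + 1) :=
      Primrec.succ.to_comp.comp (hm.comp Computable.fst)
    have h2 : Computable (fun p : α × ℕ => 2 * (p.2 + 1)) :=
      Primrec.nat_mul.to_comp.comp (Computable.const 2) (Primrec.succ.to_comp.comp Computable.snd)
    exact Primrec.nat_mul.to_comp.comp h2 (Primrec.nat_mul.to_comp.comp h1 h1)
  refine ⟨fun a n => QC.inv (gF a (N (a, n))), ?_, ?_⟩
  · exact QC.primrec_inv.to_comp.comp (hgF.comp Computable.fst hN)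
  · intro a n
    rw [QC.val_inv]
    set y := (gF a (N (a, n))).val
    set M : ℝ := (m a : ℝ) + 1 with hM
    have hM1 : 1 ≤ M := by
      have : (0 : ℝ) ≤ (m a : ℝ) := Nat.cast_nonneg _
      linarith
    have hM0 : 0 < M := by linarith
    have hn0 : (0 : ℝ) < (n : ℝ) + 1 := by positivity
    have hNc : (N (a, n) : ℝ) = 2 * ((n : ℝ) + 1) * (M * M) := by
      simp only [N, hM]
      push_cast
      ring
    have hx : 1 / M ≤ F a := h a
    have hxy : |F a - y| ≤ 1 / ((N (a, n) : ℝ) + 1) := hF a _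
    have hδ : 1 / ((N (a, n) : ℝ) + 1) ≤ 1 / (2 * ((n : ℝ) + 1) * (M * M)) := by
      rw [hNc]
      apply one_div_le_one_div_of_le (by positivity)
      linarith
    have hδ2 : 1 / (2 * ((n : ℝ) + 1) * (M * M)) ≤ 1 / (2 * M) := by
      apply one_div_le_one_div_of_le (by positivity)
      have : 1 * M ≤ ((n : ℝ) + 1) * M * M := by
        have h1 : (1 : ℝ) ≤ ((n : ℝ) + 1) * M := by
          have : (0 : ℝ) ≤ (n : ℝ) := Nat.cast_nonneg _
          nlinarith
        nlinarith
      nlinarith
    have hy : 1 / (2 * M) ≤ y := by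
      have h1 := (abs_le.1 (hxy.trans (hδ.trans hδ2))).2
      have h2 : 1 / M = 1 / (2 * M) + 1 / (2 * M) := by field_simp; ring
      linarith
    have hx0 : 0 < F a := lt_of_lt_of_le (by positivity) hx
    have hy0 : 0 < y := lt_of_lt_of_le (by positivity) hy
    have e1 : (F a)⁻¹ - y⁻¹ = (y - F a) / (F a * y) := by
      field_simp
    rw [e1, abs_div, abs_sub_comm, abs_of_pos (mul_pos hx0 hy0)]
    have hprod : 1 / (2 * (M * M)) ≤ F a * y := by
      calc 1 / (2 * (M * M)) = (1 / M) * (1 / (2 * M)) := by field_simp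
        _ ≤ F a * y := by gcongr
    calc |F a - y| / (F a * y) ≤ (1 / (2 * ((n : ℝ) + 1) * (M * M))) / (1 / (2 * (M * M))) := by
          gcongr
          exact hxy.trans hδ
      _ = 1 / ((n : ℝ) + 1) := by field_simp

end CompFam

end Vale.Agent.P113
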