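import Vale.Agent.P113.CompJet4Mul

/-!
# P113-E: the force of a computable velocity field is computable
-/

namespace Vale.Agent.P113

open Finset
open scoped ContDiff

theorem jet4_forceOf {α : Type} [Primcodable α] {ν : ℝ} (hν : ComputableReal ν)
    {u : α → ℝ → R3 → R3} (hu : ∀ i, Jet4 (fun a t x => u a t x i)) :
    Jet4 (fun p : α × Fin 3 => fun t x => forceOf ν (u p.1) t x p.2) := by
  refine Jet4.fin3 (f := fun a i t x => forceOf ν (u a) t x i) fun i => ?_
  have hT := (hu i).dirDeriv none
  have hA : ∀ j : Fin 3, Jet4 (fun (a : α) t x =>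
      u a t x j * dirDeriv (some j) (fun s y => u a s y i) t x) :=
    fun j => (hu j).mul ((hu i).dirDeriv (some j))
  have hL : ∀ j : Fin 3, Jet4 (fun (a : α) =>
      dirDeriv (some j) (dirDeriv (some j) (fun s y => u a s y i))) :=
    fun j => ((hu i).dirDeriv (some j)).dirDeriv (some j)
  have hc : CompFam (fun _ : α => ν) := CompFam.const hν
  have h := (hT.add (((hA 0).add (hA 1)).add (hA 2))).sub
    (Jet4.smul hc (((hL 0).add (hL 1)).add (hL 2)))
  refine h.congr fun a => ?_
  funext t x
  simp only [forceOf, Fin.sum_univ_three]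
  rfl

end Vale.Agent.P113
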