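import Vale.Agent.P113.CompAnaGlue

/-!
# P113-E: a three term recursion for the derivatives of `expNegInvGlue` (no computability here)
-/

namespace Vale.Agent.P113

open scoped ContDiff

theorem glue_iteratedDeriv_of_nonpos (n : ℕ) {x : ℝ} (hx : x ≤ 0) :
    iteratedDeriv n expNegInvGlue x = 0 := by
  rw [iteratedDeriv_glue, expNegInvGlue.zero_of_nonpos hx, mul_zero]

/-- obtained by differentiating `x ^ 2 * E' x = E x` -/
theorem glue_rec (n : ℕ) (x : ℝ) :
    x ^ 2 * iteratedDeriv (n + 1) expNegInvGlue x
      = (1 - 2 * (n : ℝ) * x) * iteratedDeriv n expNegInvGlue x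
        - (n : ℝ) * ((n : ℝ) - 1) * iteratedDeriv (n - 1) expNegInvGlue x := by
  cases n with
  | zero =>
    have := glue_base x
    simp only [zero_add, Nat.cast_zero, mul_zero, zero_mul, sub_zero, one_mul, iteratedDeriv_zero]
    exact this
  | succ n =>
    have := glue_rec_succ n x
    simp only [Nat.add_sub_cancel]
    push_cast
    linarith

end Vale.Agent.P113
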