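import Vale.Agent.P113.CompFamMul
import Vale.Agent.P113.CompFamSum
import Vale.Agent.P113.Basic

/-!
# P113-E: computable families of smooth functions of one variable (all derivatives at rational
points are computable)
-/

namespace Vale.Agent.P113

open Finset
open scoped ContDiff

/-- a family of smooth functions all of whose derivatives at rational points are uniformly
computable -/
def JetFam {α : Type} [Primcodable α] (f : α → ℝ → ℝ) : Prop :=
  (∀ a, ContDiff ℝ ∞ (f a)) ∧
    CompFam (fun p : α × ℕ × QC => iteratedDeriv p.2.1 (f p.1) p.2.2.val)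

namespace JetFam

variable {α β : Type} [Primcodable α] [Primcodable β]

theorem congr {f g : α → ℝ → ℝ} (hf : JetFam f) (h : ∀ a, f a = g a) : JetFam g := by
  have : f = g := funext h
  rw [← this]; exact hf

theorem comp {f : α → ℝ → ℝ} (hf : JetFam f) {h : β → α} (hh : Computable h) :
    JetFam (fun b => f (h b)) := by
  refine ⟨fun b => hf.1 (h b), ?_⟩
  exact hf.2.comp (h := fun p : β × ℕ × QC => (h p.1, p.2))
    ((hh.comp Computable.fst).pair Computable.snd)

/-- the values are computable -/
theorem value {f : α → ℝ → ℝ} (hf : JetFam f) : CompFam (fun p : α × QC => f p.1 p.2.val) := by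
  have := hf.2.comp (h := fun p : α × QC => (p.1, 0, p.2))
    (Computable.fst.pair ((Computable.const 0).pair Computable.snd))
  simpa using this

theorem contDiffAt_nat {f : ℝ → ℝ} (hf : ContDiff ℝ ∞ f) (n : ℕ) (x : ℝ) :
    ContDiffAt ℝ n f x :=
  (hf.of_le (by exact_mod_cast le_top)).contDiffAt

theorem computable_isZero : Computable (fun p : α × ℕ × QC => decide (p.2.1 = 0)) :=
  (Primrec.eq.comp (Primrec.fst.comp Primrec.snd) (Primrec.const 0)).decide.to_comp

theorem computable_isOne : Computable (fun p : α × ℕ × QC => decide (p.2.1 = 1)) :=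
  (Primrec.eq.comp (Primrec.fst.comp Primrec.snd) (Primrec.const 1)).decide.to_comp

theorem const {c : α → ℝ} (hc : CompFam c) : JetFam (fun a _ => c a) := by
  refine ⟨fun a => contDiff_const, ?_⟩
  have h1 : CompFam (fun p : α × ℕ × QC => if p.2.1 = 0 then c p.1 else 0) :=
    CompFam.ite computable_isZero (hc.comp Computable.fst) CompFam.zero
  refine h1.congr (fun p => ?_)
  rw [iteratedDeriv_const]

theorem add {f g : α → ℝ → ℝ} (hf : JetFam f) (hg : JetFam g) :
    JetFam (fun a x => f a x + g a x) := by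
  refine ⟨fun a => (hf.1 a).add (hg.1 a), ?_⟩
  refine (hf.2.add hg.2).congr (fun p => ?_)
  exact (iteratedDeriv_fun_add (contDiffAt_nat (hf.1 p.1) _ _) (contDiffAt_nat (hg.1 p.1) _ _)).symm

theorem neg {f : α → ℝ → ℝ} (hf : JetFam f) : JetFam (fun a x => - f a x) := by
  refine ⟨fun a => (hf.1 a).neg, ?_⟩
  refine (hf.2.neg).congr (fun p => ?_)
  exact (iteratedDeriv_fun_neg _ _ _).symm

theorem sub {f g : α → ℝ → ℝ} (hf : JetFam f) (hg : JetFam g) :
    JetFam (fun a x => f a x - g a x) := by
  refine ⟨fun a => (hf.1 a).sub (hg.1 a), ?_⟩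
  refine (hf.2.sub hg.2).congr (fun p => ?_)
  exact (iteratedDeriv_fun_sub (contDiffAt_nat (hf.1 p.1) _ _) (contDiffAt_nat (hg.1 p.1) _ _)).symm

theorem smul {c : α → ℝ} (hc : CompFam c) {f : α → ℝ → ℝ} (hf : JetFam f) :
    JetFam (fun a x => c a * f a x) := by
  refine ⟨fun a => contDiff_const.mul (hf.1 a), ?_⟩
  refine ((hc.comp Computable.fst).mul hf.2).congr (fun p => ?_)
  exact (iteratedDeriv_const_mul_field _ _).symm

theorem ident : JetFam (fun (_ : α) (x : ℝ) => x) := by
  refine ⟨fun a => contDiff_id, ?_⟩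
  have h1 : CompFam (fun p : α × ℕ × QC =>
      if p.2.1 = 0 then p.2.2.val else if p.2.1 = 1 then (QC.ofNat 1).val else 0) :=
    CompFam.ite computable_isZero (CompFam.of_val (Computable.snd.comp Computable.snd))
      (CompFam.ite computable_isOne (CompFam.const_val _) CompFam.zero)
  refine h1.congr (fun p => ?_)
  rw [iteratedDeriv_fun_id, QC.val_ofNat]
  simp

theorem affine {c d : α → QC} (hc : Computable c) (hd : Computable d) :
    JetFam (fun a x => (c a).val * x + (d a).val) :=
  (smul (CompFam.of_val hc) ident).add (const (CompFam.of_val hd))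

theorem sum {f : α × ℕ → ℝ → ℝ} (hf : JetFam f) {m : α → ℕ} (hm : Computable m) :
    JetFam (fun a x => ∑ i ∈ range (m a), f (a, i) x) := by
  refine ⟨fun a => ContDiff.sum (fun i _ => hf.1 (a, i)), ?_⟩
  have h1 : CompFam (fun q : (α × ℕ × QC) × ℕ =>
      iteratedDeriv q.1.2.1 (f (q.1.1, q.2)) q.1.2.2.val) :=
    hf.2.comp (h := fun q : (α × ℕ × QC) × ℕ => ((q.1.1, q.2), q.1.2))
      (((Computable.fst.comp Computable.fst).pair Computable.snd).pair
        (Computable.snd.comp Computable.fst))
  have h2 := CompFam.sum h1 (m := fun p : α × ℕ × QC => m p.1) (hm.comp Computable.fst)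
  refine h2.congr (fun p => ?_)
  exact (iteratedDeriv_fun_sum (n := p.2.1) (x := p.2.2.val) (I := range (m p.1))
    (f := fun i => f (p.1, i)) (fun i _ => contDiffAt_nat (hf.1 (p.1, i)) _ _)).symm

theorem ite {p : α → Prop} [DecidablePred p] (hp : Computable (fun a => decide (p a)))
    {f g : α → ℝ → ℝ} (hf : JetFam f) (hg : JetFam g) :
    JetFam (fun a => if p a then f a else g a) := by
  refine ⟨fun a => ?_, ?_⟩
  · by_cases h : p a
    · simpa [h] using hf.1 a
    · simpa [h] using hg.1 a
  · have h1 := CompFam.ite (p := fun q : α × ℕ × QC => p q.1) (hp.comp Computable.fst) hf.2 hg.2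
    refine h1.congr (fun q => ?_)
    by_cases h : p q.1
    · simp [h]
    · simp [h]

end JetFam

end Vale.Agent.P113
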