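import Vale.Agent.P113.Defs

/-!
# P113 subtask D2: a smooth periodic divergence-free field starting from rest is a global smooth
solution for the force `forceOf ν u` (with zero pressure)
-/

namespace Vale.Agent.P113

open Set MeasureTheory
open scoped ContDiff

section aux

variable {G : ℝ × R3 → ℝ}

theorem pd_slice (hG : ContDiff ℝ ∞ G) (j : Fin 3) (t : ℝ) (x : R3) :
    pd j (fun y => G (t, y)) x = fderiv ℝ G (t, x) (0, Pi.single j 1) := by
  have h1 : HasFDerivAt G (fderiv ℝ G (t, x)) (t, x) :=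
    (hG.differentiable (by simp) (t, x)).hasFDerivAt
  have h2 : HasFDerivAt (fun y : R3 => (t, y)) (ContinuousLinearMap.inr ℝ ℝ R3) x :=
    hasFDerivAt_prodMk_right t x
  have h3 := h1.comp x h2
  unfold pd
  have h4 : fderiv ℝ (fun y => G (t, y)) x
      = (fderiv ℝ G (t, x)).comp (ContinuousLinearMap.inr ℝ ℝ R3) := h3.fderiv
  rw [h4]
  simp

theorem deriv_slice (hG : ContDiff ℝ ∞ G) (t : ℝ) (x : R3) :
    HasDerivAt (fun s => G (s, x)) (fderiv ℝ G (t, x) (1, 0)) t := by
  have h1 : HasFDerivAt G (fderiv ℝ G (t, x)) (t, x) :=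
    (hG.differentiable (by simp) (t, x)).hasFDerivAt
  have h2 : HasFDerivAt (fun s : ℝ => (s, x)) (ContinuousLinearMap.inl ℝ ℝ R3) t :=
    hasFDerivAt_prodMk_left t x
  have h3 := (h1.comp t h2).hasDerivAt
  have h4 : ((fderiv ℝ G (t, x)).comp (ContinuousLinearMap.inl ℝ ℝ R3)) 1
      = fderiv ℝ G (t, x) (1, 0) := by simp
  rw [h4] at h3
  exact h3

theorem contDiff_dir (hG : ContDiff ℝ ∞ G) (v : ℝ × R3) :
    ContDiff ℝ ∞ (fun q => fderiv ℝ G q v) :=
  (hG.fderiv_right (m := ∞) (by simp)).clm_apply contDiff_const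

theorem pd_slice_fun (hG : ContDiff ℝ ∞ G) (j : Fin 3) (t : ℝ) :
    pd j (fun y => G (t, y)) = fun x => (fun q => fderiv ℝ G q (0, Pi.single j 1)) (t, x) := by
  funext x
  exact pd_slice hG j t x

theorem pd_pd_slice (hG : ContDiff ℝ ∞ G) (j k : Fin 3) (t : ℝ) (x : R3) :
    pd k (pd j (fun y => G (t, y))) x
      = fderiv ℝ (fun q => fderiv ℝ G q (0, Pi.single j 1)) (t, x) (0, Pi.single k 1) := by
  rw [pd_slice_fun hG j t]
  exact pd_slice (contDiff_dir hG _) k t x

theorem pd_periodic {g : R3 → ℝ} (hg : TorusPeriodic g) (j : Fin 3) : TorusPeriodic (pd j g) := by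
  intro i x
  unfold pd
  have h : (fun y => g (y + Pi.single i 1)) = g := funext (hg i)
  have h2 := fderiv_comp_add_right (𝕜 := ℝ) (f := g) (x := x) (Pi.single i 1)
  rw [h] at h2
  rw [← h2]

theorem pd_zero (i : Fin 3) (x : R3) : pd i (fun _ => (0 : ℝ)) x = 0 := by
  simp [pd]

end aux

theorem comp_contDiff {u : ℝ → R3 → R3}
    (hu : ContDiff ℝ ∞ (fun q : ℝ × R3 => u q.1 q.2)) (i : Fin 3) :
    ContDiff ℝ ∞ (fun q : ℝ × R3 => u q.1 q.2 i) :=
  (contDiff_pi.1 hu) i

theorem forceOf_eq (ν : ℝ) {u : ℝ → R3 → R3}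
    (hu : ContDiff ℝ ∞ (fun q : ℝ × R3 => u q.1 q.2)) (q : ℝ × R3) (i : Fin 3) :
    forceOf ν u q.1 q.2 i =
      fderiv ℝ (fun q : ℝ × R3 => u q.1 q.2 i) q (1, 0)
      + ∑ j, u q.1 q.2 j * fderiv ℝ (fun q : ℝ × R3 => u q.1 q.2 i) q (0, Pi.single j 1)
      - ν * ∑ j, fderiv ℝ (fun q => fderiv ℝ (fun q : ℝ × R3 => u q.1 q.2 i) q
          (0, Pi.single j 1)) q (0, Pi.single j 1) := by
  obtain ⟨t, x⟩ := q
  have hG := comp_contDiff hu i
  unfold forceOf
  have h1 : deriv (fun s => u s x i) t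
      = fderiv ℝ (fun q : ℝ × R3 => u q.1 q.2 i) (t, x) (1, 0) := (deriv_slice hG t x).deriv
  have h2 : ∀ j, pd j (fun y => u t y i) x
      = fderiv ℝ (fun q : ℝ × R3 => u q.1 q.2 i) (t, x) (0, Pi.single j 1) :=
    fun j => pd_slice hG j t x
  have h3 : ∀ j, pd j (pd j (fun y => u t y i)) x
      = fderiv ℝ (fun q => fderiv ℝ (fun q : ℝ × R3 => u q.1 q.2 i) q
          (0, Pi.single j 1)) (t, x) (0, Pi.single j 1) :=
    fun j => pd_pd_slice hG j j t x
  simp only [h1, h2, h3]

theorem forceOf_contDiff (ν : ℝ) {u : ℝ → R3 → R3}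
    (hu : ContDiff ℝ ∞ (fun q : ℝ × R3 => u q.1 q.2)) :
    ContDiff ℝ ∞ (fun q : ℝ × R3 => forceOf ν u q.1 q.2) := by
  rw [contDiff_pi]
  intro i
  have hG := comp_contDiff hu i
  have := funext (fun q => forceOf_eq ν hu q i)
  rw [this]
  refine ContDiff.sub (ContDiff.add (contDiff_dir hG _) ?_) (contDiff_const.mul ?_)
  · exact ContDiff.sum (fun j _ => (comp_contDiff hu j).mul (contDiff_dir hG _))
  · exact ContDiff.sum (fun j _ => contDiff_dir (contDiff_dir hG _) _)

theorem forceOf_periodic (ν : ℝ) {u : ℝ → R3 → R3}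
    (hper : ∀ t, TorusPeriodic (u t)) (t : ℝ) : TorusPeriodic (forceOf ν u t) := by
  intro k x
  funext i
  unfold forceOf
  have hg : TorusPeriodic (fun y => u t y i) := fun k x => by
    show u t (x + Pi.single k 1) i = u t x i
    rw [hper t k x]
  have h1 : (fun s => u s (x + Pi.single k 1) i) = fun s => u s x i := by
    funext s
    rw [hper s k x]
  have h2 : ∀ j, pd j (fun y => u t y i) (x + Pi.single k 1) = pd j (fun y => u t y i) x :=
    fun j => pd_periodic hg j k x
  have h3 : ∀ j, pd j (pd j (fun y => u t y i)) (x + Pi.single k 1)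
      = pd j (pd j (fun y => u t y i)) x :=
    fun j => pd_periodic (pd_periodic hg j) j k x
  simp only [h1, h2, h3, hper t k x]

theorem isGlobalSmoothSolution_forceOf (ν : ℝ) {u : ℝ → R3 → R3}
    (hu : ContDiff ℝ ∞ (fun q : ℝ × R3 => u q.1 q.2))
    (hper : ∀ t, TorusPeriodic (u t))
    (hdiv : ∀ t x, ∑ i, pd i (fun y => u t y i) x = 0)
    (h0 : ∀ x, u 0 x = 0) :
    IsGlobalSmoothSolution ν (forceOf ν u) u (fun _ _ => 0) := by
  have hdt : ∀ (t : ℝ) (x : R3), HasDerivAt (fun s => u s x)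
      (fderiv ℝ (fun q : ℝ × R3 => u q.1 q.2) (t, x) (1, 0)) t := by
    intro t x
    have h1 : HasFDerivAt (fun q : ℝ × R3 => u q.1 q.2)
        (fderiv ℝ (fun q : ℝ × R3 => u q.1 q.2) (t, x)) (t, x) :=
      (hu.differentiable (by simp) (t, x)).hasFDerivAt
    have h2 : HasFDerivAt (fun s : ℝ => (s, x)) (ContinuousLinearMap.inl ℝ ℝ R3) t :=
      hasFDerivAt_prodMk_left t x
    have h3 := (h1.comp t h2).hasDerivAt
    have h4 : ((fderiv ℝ (fun q : ℝ × R3 => u q.1 q.2) (t, x)).comp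
        (ContinuousLinearMap.inl ℝ ℝ R3)) 1
        = fderiv ℝ (fun q : ℝ × R3 => u q.1 q.2) (t, x) (1, 0) := by simp
    rw [h4] at h3
    exact h3
  refine ⟨hu, contDiff_const, fun T hT => ?_⟩
  have huniq : ∀ t ∈ Icc (0 : ℝ) T, UniqueDiffWithinAt ℝ (Icc (0 : ℝ) T) t :=
    fun t ht => uniqueDiffOn_Icc hT t ht
  refine
    { u_periodic := fun t _ => hper t
      p_periodic := fun _ _ _ _ => rfl
      u_C2 := fun t _ => ?_
      p_C1 := fun _ _ => contDiff_const
      u_diff_t := fun t _ x => (hdt t x).differentiableAt.differentiableWithinAt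
      cont_u := hu.continuous.continuousOn
      cont_ut := ?_
      cont_du := fun i j => ?_
      cont_ddu := fun i j k => ?_
      cont_p := continuousOn_const
      cont_dp := fun i => ?_
      p_mean := fun _ _ => by simp
      momentum := fun t ht x i => ?_
      div_free := fun t _ x => hdiv t x
      initial := h0 }
  · have : ContDiff ℝ ∞ (fun y : R3 => (fun q : ℝ × R3 => u q.1 q.2) (t, y)) :=
      hu.comp (contDiff_prodMk_right t)
    exact this.of_le ENat.LEInfty.out
  · have hc : Continuous (fun q : ℝ × R3 => fderiv ℝ (fun q : ℝ × R3 => u q.1 q.2) q (1, 0)) :=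
      ((hu.fderiv_right (m := ∞) (by simp)).clm_apply contDiff_const).continuous
    refine hc.continuousOn.congr ?_
    rintro ⟨t, x⟩ ⟨ht, -⟩
    exact ((hdt t x).hasDerivWithinAt).derivWithin (huniq t ht)
  · have hc := (contDiff_dir (comp_contDiff hu i) (0, Pi.single j 1)).continuous
    refine hc.continuousOn.congr ?_
    rintro ⟨t, x⟩ -
    exact pd_slice (comp_contDiff hu i) j t x
  · have hc := (contDiff_dir (contDiff_dir (comp_contDiff hu i) (0, Pi.single j 1))
      (0, Pi.single k 1)).continuous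
    refine hc.continuousOn.congr ?_
    rintro ⟨t, x⟩ -
    exact pd_pd_slice (comp_contDiff hu i) j k t x
  · simp only [pd_zero]
    exact continuousOn_const
  · have h1 : derivWithin (fun s => u s x i) (Icc (0 : ℝ) T) t = deriv (fun s => u s x i) t :=
      (deriv_slice (comp_contDiff hu i) t x).differentiableAt.derivWithin (huniq t ht)
    rw [h1, pd_zero]
    unfold forceOf
    ring

end Vale.Agent.P113
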