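import Vale.Agent.P113.Effective
import Vale.Agent.P113.SmoothSol

/-!
# P113-E: calculus of mixed derivatives (no computability here)
-/

namespace Vale.Agent.P113

open Finset
open scoped ContDiff

/-- joint smoothness in `(t, x)` -/
def Smooth4 (g : ℝ → R3 → ℝ) : Prop := ContDiff ℝ ∞ (fun q : ℝ × R3 => g q.1 q.2)

/-- the unit vector of a direction -/
noncomputable def dirVec : Option (Fin 3) → ℝ × R3
  | none => (1, 0)
  | some j => (0, Pi.single j 1)

/-- the coordinate function of a direction -/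
def coord : Option (Fin 3) → ℝ → R3 → ℝ
  | none => fun t _ => t
  | some j => fun _ x => x j

theorem dirDeriv_eq {g : ℝ → R3 → ℝ} (hg : Smooth4 g) (d : Option (Fin 3)) (t : ℝ) (x : R3) :
    dirDeriv d g t x = fderiv ℝ (fun q : ℝ × R3 => g q.1 q.2) (t, x) (dirVec d) := by
  cases d with
  | none => exact (deriv_slice hg t x).deriv
  | some j => exact pd_slice hg j t x

theorem Smooth4.dirDeriv {g : ℝ → R3 → ℝ} (hg : Smooth4 g) (d : Option (Fin 3)) :
    Smooth4 (dirDeriv d g) := by
  have h := contDiff_dir hg (dirVec d)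
  unfold Smooth4
  have e : (fun q : ℝ × R3 => Vale.Agent.P113.dirDeriv d g q.1 q.2)
      = fun q => fderiv ℝ (fun q : ℝ × R3 => g q.1 q.2) q (dirVec d) := by
    funext q; exact dirDeriv_eq hg d q.1 q.2
  rw [e]; exact h

theorem Smooth4.mixedDeriv {g : ℝ → R3 → ℝ} (hg : Smooth4 g) (l : List (Option (Fin 3))) :
    Smooth4 (mixedDeriv l g) := by
  induction l with
  | nil => exact hg
  | cons d l ih => exact ih.dirDeriv d

theorem Smooth4.differentiableAt {g : ℝ → R3 → ℝ} (hg : Smooth4 g) (q : ℝ × R3) :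
    DifferentiableAt ℝ (fun q : ℝ × R3 => g q.1 q.2) q :=
  (ContDiff.differentiable hg (by simp)) q

theorem Smooth4.const (c : ℝ) : Smooth4 (fun _ _ => c) := contDiff_const

theorem Smooth4.add {f g : ℝ → R3 → ℝ} (hf : Smooth4 f) (hg : Smooth4 g) :
    Smooth4 (fun t x => f t x + g t x) := ContDiff.add hf hg

theorem Smooth4.neg {f : ℝ → R3 → ℝ} (hf : Smooth4 f) : Smooth4 (fun t x => - f t x) :=
  ContDiff.neg hf

theorem Smooth4.sub {f g : ℝ → R3 → ℝ} (hf : Smooth4 f) (hg : Smooth4 g) :
    Smooth4 (fun t x => f t x - g t x) := ContDiff.sub hf hg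

theorem Smooth4.mul {f g : ℝ → R3 → ℝ} (hf : Smooth4 f) (hg : Smooth4 g) :
    Smooth4 (fun t x => f t x * g t x) := ContDiff.mul hf hg

theorem Smooth4.const_mul (c : ℝ) {f : ℝ → R3 → ℝ} (hf : Smooth4 f) :
    Smooth4 (fun t x => c * f t x) := ContDiff.mul contDiff_const hf

theorem Smooth4.sum {f : ℕ → ℝ → R3 → ℝ} (hf : ∀ i, Smooth4 (f i)) (m : ℕ) :
    Smooth4 (fun t x => ∑ i ∈ range m, f i t x) :=
  ContDiff.sum (fun i _ => hf i)

theorem Smooth4.list_sum {ι : Type*} (L : List ι) {F : ι → ℝ → R3 → ℝ}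
    (hF : ∀ i ∈ L, Smooth4 (F i)) : Smooth4 (fun t x => (L.map (fun i => F i t x)).sum) := by
  induction L with
  | nil => simpa using Smooth4.const 0
  | cons a L ih =>
    simp only [List.map_cons, List.sum_cons]
    exact (hF a (by simp)).add (ih (fun i hi => hF i (by simp [hi])))

theorem coord4_contDiff (c : Option (Fin 3)) :
    ContDiff ℝ ∞ (fun q : ℝ × R3 => coord c q.1 q.2) := by
  cases c with
  | none => exact contDiff_fst
  | some j => exact (contDiff_apply ℝ ℝ j).comp contDiff_snd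

theorem Smooth4.lift {f : ℝ → ℝ} (hf : ContDiff ℝ ∞ f) (d : Option (Fin 3)) :
    Smooth4 (fun t x => f (coord d t x)) :=
  hf.comp (coord4_contDiff d)

/-! ### `dirDeriv` -/

theorem dirDeriv_add {G H : ℝ → R3 → ℝ} (hG : Smooth4 G) (hH : Smooth4 H) (d : Option (Fin 3)) :
    dirDeriv d (fun t x => G t x + H t x) = fun t x => dirDeriv d G t x + dirDeriv d H t x := by
  funext t x
  rw [dirDeriv_eq (hG.add hH), dirDeriv_eq hG, dirDeriv_eq hH]
  have := fderiv_fun_add (hG.differentiableAt (t, x)) (hH.differentiableAt (t, x))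
  rw [this]; rfl

theorem dirDeriv_sub {G H : ℝ → R3 → ℝ} (hG : Smooth4 G) (hH : Smooth4 H) (d : Option (Fin 3)) :
    dirDeriv d (fun t x => G t x - H t x) = fun t x => dirDeriv d G t x - dirDeriv d H t x := by
  funext t x
  rw [dirDeriv_eq (hG.sub hH), dirDeriv_eq hG, dirDeriv_eq hH]
  have := fderiv_fun_sub (hG.differentiableAt (t, x)) (hH.differentiableAt (t, x))
  rw [this]; rfl

theorem dirDeriv_neg {G : ℝ → R3 → ℝ} (hG : Smooth4 G) (d : Option (Fin 3)) :
    dirDeriv d (fun t x => - G t x) = fun t x => - dirDeriv d G t x := by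
  funext t x
  rw [dirDeriv_eq hG.neg, dirDeriv_eq hG]
  have : fderiv ℝ (fun q : ℝ × R3 => - G q.1 q.2) (t, x)
      = - fderiv ℝ (fun q : ℝ × R3 => G q.1 q.2) (t, x) := fderiv_fun_neg
  rw [this]; rfl

theorem dirDeriv_const (c : ℝ) (d : Option (Fin 3)) :
    dirDeriv d (fun _ _ => c) = fun _ _ => 0 := by
  funext t x
  rw [dirDeriv_eq (Smooth4.const c)]
  simp

theorem dirDeriv_mul {G H : ℝ → R3 → ℝ} (hG : Smooth4 G) (hH : Smooth4 H) (d : Option (Fin 3)) :
    dirDeriv d (fun t x => G t x * H t x)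
      = fun t x => dirDeriv d G t x * H t x + G t x * dirDeriv d H t x := by
  funext t x
  rw [dirDeriv_eq (hG.mul hH), dirDeriv_eq hG, dirDeriv_eq hH]
  have := fderiv_fun_mul (hG.differentiableAt (t, x)) (hH.differentiableAt (t, x))
  rw [this]
  simp only [_root_.add_apply, _root_.smul_apply, smul_eq_mul]
  ring

theorem dirDeriv_const_mul (c : ℝ) {G : ℝ → R3 → ℝ} (hG : Smooth4 G) (d : Option (Fin 3)) :
    dirDeriv d (fun t x => c * G t x) = fun t x => c * dirDeriv d G t x := by
  rw [dirDeriv_mul (Smooth4.const c) hG, dirDeriv_const]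
  simp

theorem dirDeriv_list_sum {ι : Type*} (L : List ι) {F : ι → ℝ → R3 → ℝ}
    (hF : ∀ i ∈ L, Smooth4 (F i)) (d : Option (Fin 3)) :
    dirDeriv d (fun t x => (L.map (fun i => F i t x)).sum)
      = fun t x => (L.map (fun i => dirDeriv d (F i) t x)).sum := by
  induction L with
  | nil => simpa using dirDeriv_const 0 d
  | cons a L ih =>
    simp only [List.map_cons, List.sum_cons]
    rw [dirDeriv_add (hF a (by simp)) (Smooth4.list_sum L (fun i hi => hF i (by simp [hi]))),
      ih (fun i hi => hF i (by simp [hi]))]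

/-! ### `mixedDeriv` -/

theorem mixedDeriv_dirDeriv (l : List (Option (Fin 3))) (d : Option (Fin 3)) (g : ℝ → R3 → ℝ) :
    mixedDeriv l (dirDeriv d g) = mixedDeriv (l ++ [d]) g := by
  induction l with
  | nil => rfl
  | cons e l ih => simp only [mixedDeriv, List.cons_append, ih]

theorem mixedDeriv_append (l l' : List (Option (Fin 3))) (G : ℝ → R3 → ℝ) :
    mixedDeriv l (mixedDeriv l' G) = mixedDeriv (l ++ l') G := by
  induction l with
  | nil => rfl
  | cons e l ih => simp only [mixedDeriv, List.cons_append, ih]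

theorem mixedDeriv_add {f g : ℝ → R3 → ℝ} (hf : Smooth4 f) (hg : Smooth4 g)
    (l : List (Option (Fin 3))) :
    mixedDeriv l (fun t x => f t x + g t x) = fun t x => mixedDeriv l f t x + mixedDeriv l g t x := by
  induction l with
  | nil => rfl
  | cons d l ih =>
    simp only [mixedDeriv]
    rw [ih, dirDeriv_add (hf.mixedDeriv l) (hg.mixedDeriv l)]

theorem mixedDeriv_const_mul (c : ℝ) {f : ℝ → R3 → ℝ} (hf : Smooth4 f)
    (l : List (Option (Fin 3))) :
    mixedDeriv l (fun t x => c * f t x) = fun t x => c * mixedDeriv l f t x := by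
  induction l with
  | nil => rfl
  | cons d l ih =>
    simp only [mixedDeriv]
    rw [ih, dirDeriv_const_mul c (hf.mixedDeriv l)]

theorem mixedDeriv_neg {f : ℝ → R3 → ℝ} (hf : Smooth4 f) (l : List (Option (Fin 3))) :
    mixedDeriv l (fun t x => - f t x) = fun t x => - mixedDeriv l f t x := by
  induction l with
  | nil => rfl
  | cons d l ih =>
    simp only [mixedDeriv]
    rw [ih, dirDeriv_neg (hf.mixedDeriv l)]

theorem mixedDeriv_sub {f g : ℝ → R3 → ℝ} (hf : Smooth4 f) (hg : Smooth4 g)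
    (l : List (Option (Fin 3))) :
    mixedDeriv l (fun t x => f t x - g t x) = fun t x => mixedDeriv l f t x - mixedDeriv l g t x := by
  induction l with
  | nil => rfl
  | cons d l ih =>
    simp only [mixedDeriv]
    rw [ih, dirDeriv_sub (hf.mixedDeriv l) (hg.mixedDeriv l)]

theorem mixedDeriv_zero (l : List (Option (Fin 3))) :
    mixedDeriv l (fun _ _ => (0 : ℝ)) = fun _ _ => 0 := by
  induction l with
  | nil => rfl
  | cons d l ih =>
    simp only [mixedDeriv]
    rw [ih, dirDeriv_const]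

theorem mixedDeriv_list_sum {ι : Type*} (L : List ι) {F : ι → ℝ → R3 → ℝ}
    (hF : ∀ i ∈ L, Smooth4 (F i)) (l : List (Option (Fin 3))) :
    mixedDeriv l (fun t x => (L.map (fun i => F i t x)).sum)
      = fun t x => (L.map (fun i => mixedDeriv l (F i) t x)).sum := by
  induction l with
  | nil => rfl
  | cons d l ih =>
    simp only [mixedDeriv]
    rw [ih, dirDeriv_list_sum L (fun i hi => (hF i hi).mixedDeriv l)]

theorem mixedDeriv_sum {f : ℕ → ℝ → R3 → ℝ} (hf : ∀ i, Smooth4 (f i)) (m : ℕ)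
    (l : List (Option (Fin 3))) :
    mixedDeriv l (fun t x => ∑ i ∈ range m, f i t x)
      = fun t x => ∑ i ∈ range m, mixedDeriv l (f i) t x := by
  have h := mixedDeriv_list_sum (List.range m) (F := f) (fun i _ => hf i) l
  simpa [Finset.sum_range, List.sum_range_succ, Finset.sum, Finset.range, Multiset.range] using h

end Vale.Agent.P113
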