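import Vale.Agent.P113.CompJet
import Vale.Agent.P113.CompMixed

/-!
# P113-E: computable families of smooth functions of `(t, x)`
-/

namespace Vale.Agent.P113

open Finset
open scoped ContDiff

/-- rational points of space-time -/
abbrev Pt : Type := QC × QC × QC × QC

noncomputable def Pt.time (p : Pt) : ℝ := p.1.val

noncomputable def Pt.space (p : Pt) : R3 := ![p.2.1.val, p.2.2.1.val, p.2.2.2.val]

/-- a family of smooth functions of `(t, x)` all of whose mixed derivatives at rational points are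
uniformly computable -/
def Jet4 {α : Type} [Primcodable α] (g : α → ℝ → R3 → ℝ) : Prop :=
  (∀ a, Smooth4 (g a)) ∧
    CompFam (fun p : α × List (Option (Fin 3)) × Pt =>
      mixedDeriv p.2.1 (g p.1) p.2.2.time p.2.2.space)

namespace Jet4

variable {α β : Type} [Primcodable α] [Primcodable β]

theorem congr {f g : α → ℝ → R3 → ℝ} (hf : Jet4 f) (h : ∀ a, f a = g a) : Jet4 g := by
  have e : f = g := funext h
  rw [← e]; exact hf

theorem comp {f : α → ℝ → R3 → ℝ} (hf : Jet4 f) {h : β → α} (hh : Computable h) :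
    Jet4 (fun b => f (h b)) := by
  refine ⟨fun b => hf.1 (h b), ?_⟩
  exact hf.2.comp (h := fun p : β × List (Option (Fin 3)) × Pt => (h p.1, p.2))
    ((hh.comp Computable.fst).pair Computable.snd)

theorem zero : Jet4 (fun (_ : α) _ _ => (0 : ℝ)) := by
  refine ⟨fun _ => Smooth4.const 0, ?_⟩
  refine CompFam.zero.congr ?_
  intro p
  rw [mixedDeriv_zero]

theorem add {f g : α → ℝ → R3 → ℝ} (hf : Jet4 f) (hg : Jet4 g) :
    Jet4 (fun a t x => f a t x + g a t x) := by
  refine ⟨fun a => (hf.1 a).add (hg.1 a), ?_⟩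
  refine (hf.2.add hg.2).congr ?_
  intro p
  rw [mixedDeriv_add (hf.1 p.1) (hg.1 p.1)]

theorem neg {f : α → ℝ → R3 → ℝ} (hf : Jet4 f) : Jet4 (fun a t x => - f a t x) := by
  refine ⟨fun a => (hf.1 a).neg, ?_⟩
  refine hf.2.neg.congr ?_
  intro p
  rw [mixedDeriv_neg (hf.1 p.1)]

theorem sub {f g : α → ℝ → R3 → ℝ} (hf : Jet4 f) (hg : Jet4 g) :
    Jet4 (fun a t x => f a t x - g a t x) := by
  refine ⟨fun a => (hf.1 a).sub (hg.1 a), ?_⟩
  refine (hf.2.sub hg.2).congr ?_
  intro p
  rw [mixedDeriv_sub (hf.1 p.1) (hg.1 p.1)]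

theorem smul {c : α → ℝ} (hc : CompFam c) {f : α → ℝ → R3 → ℝ} (hf : Jet4 f) :
    Jet4 (fun a t x => c a * f a t x) := by
  refine ⟨fun a => (hf.1 a).const_mul (c a), ?_⟩
  have h1 : CompFam (fun p : α × List (Option (Fin 3)) × Pt => c p.1) :=
    hc.comp Computable.fst
  refine (h1.mul hf.2).congr ?_
  intro p
  rw [mixedDeriv_const_mul (c p.1) (hf.1 p.1)]

theorem sum {f : α × ℕ → ℝ → R3 → ℝ} (hf : Jet4 f) {m : α → ℕ} (hm : Computable m) :
    Jet4 (fun a t x => ∑ i ∈ range (m a), f (a, i) t x) := by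
  refine ⟨fun a => Smooth4.sum (f := fun i => f (a, i)) (fun i => hf.1 (a, i)) (m a), ?_⟩
  have h1 : CompFam (fun q : (α × List (Option (Fin 3)) × Pt) × ℕ =>
      mixedDeriv q.1.2.1 (f (q.1.1, q.2)) q.1.2.2.time q.1.2.2.space) :=
    hf.2.comp (h := fun q : (α × List (Option (Fin 3)) × Pt) × ℕ => ((q.1.1, q.2), q.1.2))
      (((Computable.fst.comp Computable.fst).pair Computable.snd).pair
        (Computable.snd.comp Computable.fst))
  have h2 := h1.sum (m := fun p : α × List (Option (Fin 3)) × Pt => m p.1)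
    (hm.comp Computable.fst)
  refine h2.congr ?_
  intro p
  rw [mixedDeriv_sum (f := fun i => f (p.1, i)) (fun i => hf.1 (p.1, i)) (m p.1)]

theorem dirDeriv {f : α → ℝ → R3 → ℝ} (hf : Jet4 f) (d : Option (Fin 3)) :
    Jet4 (fun a => dirDeriv d (f a)) := by
  refine ⟨fun a => (hf.1 a).dirDeriv d, ?_⟩
  have h1 := hf.2.comp
    (h := fun p : α × List (Option (Fin 3)) × Pt => (p.1, p.2.1 ++ [d], p.2.2))
    (Computable.fst.pair (((Computable.list_append.comp (Computable.fst.comp Computable.snd)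
      (Computable.const [d]))).pair (Computable.snd.comp Computable.snd)))
  refine h1.congr ?_
  intro p
  rw [mixedDeriv_dirDeriv]

theorem ite {p : α → Prop} [DecidablePred p] (hp : Computable (fun a => decide (p a)))
    {f g : α → ℝ → R3 → ℝ} (hf : Jet4 f) (hg : Jet4 g) :
    Jet4 (fun a => if p a then f a else g a) := by
  refine ⟨fun a => ?_, ?_⟩
  · by_cases h : p a
    · simp only [h, if_true]; exact hf.1 a
    · simp only [h, if_false]; exact hg.1 a
  · have h1 := CompFam.ite (p := fun q : α × List (Option (Fin 3)) × Pt => p q.1)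
      (hp.comp Computable.fst) hf.2 hg.2
    refine h1.congr ?_
    intro q
    by_cases h : p q.1
    · simp only [h, if_true]
    · simp only [h, if_false]

theorem fin3 {f : α → Fin 3 → ℝ → R3 → ℝ} (h : ∀ i, Jet4 (fun a => f a i)) :
    Jet4 (fun p : α × Fin 3 => f p.1 p.2) := by
  refine ⟨fun p => (h p.2).1 p.1, ?_⟩
  have h1 := CompFam.fin3 (α := α × List (Option (Fin 3)) × Pt)
    (F := fun q i => mixedDeriv q.2.1 (f q.1 i) q.2.2.time q.2.2.space) (fun i => (h i).2)
  exact h1.comp (h := fun q : (α × Fin 3) × List (Option (Fin 3)) × Pt => ((q.1.1, q.2), q.1.2))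
    (((Computable.fst.comp Computable.fst).pair Computable.snd).pair
      (Computable.snd.comp Computable.fst))

end Jet4

end Vale.Agent.P113
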