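import Vale.Agent.P113.CompMixed

/-!
# P113-E: mixed derivatives of functions of one coordinate
-/

namespace Vale.Agent.P113

open Finset
open scoped ContDiff

theorem dirDeriv_coord (c d : Option (Fin 3)) (t : ℝ) (x : R3) :
    dirDeriv d (coord c) t x = if d = c then 1 else 0 := by
  cases c with
  | none =>
    cases d with
    | none => simp [dirDeriv, coord]
    | some j => simp [dirDeriv, coord, pd]
  | some i =>
    cases d with
    | none => simp [dirDeriv, coord]
    | some j =>
      simp only [dirDeriv, coord, pd]
      have : fderiv ℝ (fun x : R3 => x i) x = ContinuousLinearMap.proj i :=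
        (ContinuousLinearMap.proj (R := ℝ) (φ := fun _ : Fin 3 => ℝ) i).fderiv
      rw [this]
      simp only [ContinuousLinearMap.proj_apply, Option.some.injEq]
      by_cases h : j = i
      · subst h; simp
      · simp [h, Ne.symm h]

theorem dirDeriv_lift {g : ℝ → ℝ} (hg : ContDiff ℝ ∞ g) (c d : Option (Fin 3)) :
    dirDeriv d (fun t x => g (coord c t x))
      = if d = c then fun t x => deriv g (coord c t x) else fun _ _ => 0 := by
  funext t x
  rw [dirDeriv_eq (Smooth4.lift hg c)]
  have hc : DifferentiableAt ℝ (fun q : ℝ × R3 => coord c q.1 q.2) (t, x) :=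
    (coord4_contDiff c).differentiable (by simp) _
  have hg' : DifferentiableAt ℝ g (coord c t x) := hg.differentiable (by simp) _
  have h1 : fderiv ℝ (fun q : ℝ × R3 => g (coord c q.1 q.2)) (t, x)
      = (fderiv ℝ g (coord c t x)).comp (fderiv ℝ (fun q : ℝ × R3 => coord c q.1 q.2) (t, x)) :=
    fderiv_comp (t, x) (g := g) (f := fun q : ℝ × R3 => coord c q.1 q.2) hg' hc
  rw [h1, ContinuousLinearMap.comp_apply, ← dirDeriv_eq (coord4_contDiff c), dirDeriv_coord]
  by_cases h : d = c
  · simp [h]
  · simp [h]

theorem mixedDeriv_lift_aux {g : ℝ → ℝ} (hg : ContDiff ℝ ∞ g) (c : Option (Fin 3))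
    (l : List (Option (Fin 3))) :
    mixedDeriv l (fun t x => g (coord c t x))
      = if (∀ d ∈ l, d = c) then fun t x => iteratedDeriv l.length g (coord c t x)
        else fun _ _ => 0 := by
  induction l with
  | nil => simp [mixedDeriv]
  | cons d l ih =>
    simp only [mixedDeriv]
    rw [ih]
    by_cases h : ∀ e ∈ l, e = c
    · rw [if_pos h]
      have hs : ContDiff ℝ ∞ (iteratedDeriv l.length g) := by
        rw [iteratedDeriv_eq_iterate]; exact ContDiff.iterate_deriv _ hg
      rw [dirDeriv_lift hs]
      by_cases hd : d = c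
      · have : ∀ e ∈ d :: l, e = c := by simpa [hd] using h
        rw [if_pos hd, if_pos this]
        funext t x
        rw [List.length_cons, iteratedDeriv_succ]
      · have : ¬ ∀ e ∈ d :: l, e = c := by simp [hd]
        rw [if_neg hd, if_neg this]
    · have : ¬ ∀ e ∈ d :: l, e = c := by
        intro h'; exact h (fun e he => h' e (by simp [he]))
      rw [if_neg h, if_neg this, dirDeriv_const]

/-- mixed derivatives of a function of one coordinate -/
theorem mixedDeriv_lift {f : ℝ → ℝ} (hf : ContDiff ℝ ∞ f) (d : Option (Fin 3))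
    (l : List (Option (Fin 3))) (t : ℝ) (x : R3) :
    mixedDeriv l (fun t x => f (coord d t x)) t x
      = if l = List.replicate l.length d then iteratedDeriv l.length f (coord d t x) else 0 := by
  rw [mixedDeriv_lift_aux hf d l]
  have : (l = List.replicate l.length d) ↔ ∀ e ∈ l, e = d := by
    rw [List.eq_replicate_iff]; simp
  by_cases h : ∀ e ∈ l, e = d
  · rw [if_pos h, if_pos (this.2 h)]
  · rw [if_neg h, if_neg (fun h' => h (this.1 h'))]

end Vale.Agent.P113
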