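import Vale.Agent.P113.CompJet4
import Vale.Agent.P113.CompMixedLift

/-!
# P113-E: functions of one coordinate as computable families of functions of (t, x)
-/

namespace Vale.Agent.P113

open Finset
open scoped ContDiff

/-- the rational code of the coordinate of a rational point in a direction -/
def Pt.coordQC (d : Option (Fin 3)) (p : Pt) : QC :=
  match d with
  | none => p.1
  | some j => ![p.2.1, p.2.2.1, p.2.2.2] j

theorem Pt.coordQC_val (d : Option (Fin 3)) (p : Pt) :
    (Pt.coordQC d p).val = coord d p.time p.space := by
  cases d with
  | none => rfl
  | some j =>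
    fin_cases j <;> simp [Pt.coordQC, coord, Pt.space]

theorem Pt.computable_coordQC (d : Option (Fin 3)) : Computable (Pt.coordQC d) := by
  cases d with
  | none => exact Computable.fst
  | some j =>
    fin_cases j
    · exact (Computable.fst.comp Computable.snd : Computable (fun p : Pt => p.2.1))
    · exact (Computable.fst.comp (Computable.snd.comp Computable.snd) :
        Computable (fun p : Pt => p.2.2.1))
    · exact (Computable.snd.comp (Computable.snd.comp Computable.snd) :
        Computable (fun p : Pt => p.2.2.2))

theorem primrec_replicate_length (d : Option (Fin 3)) :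
    Primrec (fun l : List (Option (Fin 3)) => List.replicate l.length d) := by
  have h : Primrec (fun l : List (Option (Fin 3)) => (List.range l.length).map (fun _ => d)) :=
    Primrec.list_map (Primrec.list_range.comp Primrec.list_length) (Primrec.const d).to₂
  refine h.of_eq fun l => ?_
  simp

namespace Jet4

variable {α β : Type} [Primcodable α] [Primcodable β]

theorem lift {f : α → ℝ → ℝ} (hf : JetFam f) (d : Option (Fin 3)) :
    Jet4 (fun a t x => f a (coord d t x)) := by
  refine ⟨fun a => Smooth4.lift (hf.1 a) d, ?_⟩
  have hp : Computable (fun p : α × List (Option (Fin 3)) × Pt =>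
      decide (p.2.1 = List.replicate p.2.1.length d)) := by
    have h1 : PrimrecPred (fun l : List (Option (Fin 3)) => l = List.replicate l.length d) :=
      Primrec.eq.comp Primrec.id (primrec_replicate_length d)
    exact h1.decide.to_comp.comp (Computable.fst.comp Computable.snd)
  have h1 : CompFam (fun p : α × List (Option (Fin 3)) × Pt =>
      iteratedDeriv p.2.1.length (f p.1) (Pt.coordQC d p.2.2).val) := by
    refine hf.2.comp (h := fun p : α × List (Option (Fin 3)) × Pt =>
      (p.1, p.2.1.length, Pt.coordQC d p.2.2)) ?_
    exact Computable.pair Computable.fst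
      (Computable.pair (Primrec.list_length.to_comp.comp (Computable.fst.comp Computable.snd))
        ((Pt.computable_coordQC d).comp (Computable.snd.comp Computable.snd)))
  refine (CompFam.ite hp h1 CompFam.zero).congr fun p => ?_
  rw [mixedDeriv_lift (hf.1 _), Pt.coordQC_val]

theorem liftT {f : α → ℝ → ℝ} (hf : JetFam f) : Jet4 (fun a t _ => f a t) :=
  lift hf none

theorem liftX {f : α → ℝ → ℝ} (hf : JetFam f) (j : Fin 3) : Jet4 (fun a _ x => f a (x j)) :=
  lift hf (some j)

end Jet4

end Vale.Agent.P113
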