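import Vale.Agent.P113.CompMixed

/-!
# P113-E: the Leibniz rule for mixed derivatives
-/

namespace Vale.Agent.P113

open Finset
open scoped ContDiff

/-- all ways of distributing the derivatives of a list over two factors -/
def splits : List (Option (Fin 3)) → List (List (Option (Fin 3)) × List (Option (Fin 3)))
  | [] => [([], [])]
  | d :: l => (splits l).map (fun p => (d :: p.1, p.2)) ++ (splits l).map (fun p => (p.1, d :: p.2))

/-- the Leibniz rule -/
theorem mixedDeriv_mul {f g : ℝ → R3 → ℝ} (hf : Smooth4 f) (hg : Smooth4 g)
    (l : List (Option (Fin 3))) :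
    mixedDeriv l (fun t x => f t x * g t x)
      = fun t x => ((splits l).map (fun p => mixedDeriv p.1 f t x * mixedDeriv p.2 g t x)).sum := by
  induction l with
  | nil => simp [mixedDeriv, splits]
  | cons d l ih =>
    simp only [mixedDeriv]
    rw [ih, dirDeriv_list_sum (splits l)
      (F := fun p t x => mixedDeriv p.1 f t x * mixedDeriv p.2 g t x)
      (fun p _ => (hf.mixedDeriv p.1).mul (hg.mixedDeriv p.2))]
    funext t x
    simp only [splits, List.map_append, List.map_map, List.sum_append, Function.comp_def,
      mixedDeriv]
    have : ∀ L : List (List (Option (Fin 3)) × List (Option (Fin 3))),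
        (L.map (fun p => dirDeriv d (fun t x => mixedDeriv p.1 f t x * mixedDeriv p.2 g t x) t x)).sum
        = (L.map (fun p => dirDeriv d (mixedDeriv p.1 f) t x * mixedDeriv p.2 g t x)).sum
          + (L.map (fun p => mixedDeriv p.1 f t x * dirDeriv d (mixedDeriv p.2 g) t x)).sum := by
      intro L
      induction L with
      | nil => simp
      | cons p L ihL =>
        simp only [List.map_cons, List.sum_cons, ihL]
        rw [dirDeriv_mul (hf.mixedDeriv p.1) (hg.mixedDeriv p.2)]
        ring
    exact this _

end Vale.Agent.P113
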