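import Vale.Agent.P113.CompJet4
import Vale.Agent.P113.CompMixedMul

/-!
# P113-E: products of computable families of smooth functions of (t, x)
-/

namespace Vale.Agent.P113

open Finset
open scoped ContDiff

theorem primrec_splits : Primrec splits := by
  have h : Primrec₂ (fun (_ : List (Option (Fin 3)))
      (q : Option (Fin 3) × List (List (Option (Fin 3)) × List (Option (Fin 3)))) =>
      q.2.map (fun p => (q.1 :: p.1, p.2)) ++ q.2.map (fun p => (p.1, q.1 :: p.2))) := by
    refine Primrec.list_append.comp
      (Primrec.list_map (Primrec.snd.comp Primrec.snd) ?_)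
      (Primrec.list_map (Primrec.snd.comp Primrec.snd) ?_)
    · exact Primrec.pair
        (Primrec.list_cons.comp (Primrec.fst.comp (Primrec.snd.comp Primrec.fst))
          (Primrec.fst.comp Primrec.snd))
        (Primrec.snd.comp Primrec.snd)
    · exact Primrec.pair (Primrec.fst.comp Primrec.snd)
        (Primrec.list_cons.comp (Primrec.fst.comp (Primrec.snd.comp Primrec.fst))
          (Primrec.snd.comp Primrec.snd))
  have h2 := Primrec.list_foldr (Primrec.id) (Primrec.const [(([] : List (Option (Fin 3))),
    ([] : List (Option (Fin 3))))]) h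
  refine h2.of_eq fun l => ?_
  induction l with
  | nil => rfl
  | cons d l ih =>
    simp only [id, List.foldr_cons, splits] at ih ⊢
    rw [ih]

namespace Jet4

variable {α β : Type} [Primcodable α] [Primcodable β]

theorem mul {f g : α → ℝ → R3 → ℝ} (hf : Jet4 f) (hg : Jet4 g) :
    Jet4 (fun a t x => f a t x * g a t x) := by
  refine ⟨fun a => (hf.1 a).mul (hg.1 a), ?_⟩
  have hF : CompFam (fun q : (α × List (Option (Fin 3)) × Pt) ×
      (List (Option (Fin 3)) × List (Option (Fin 3))) =>
      mixedDeriv q.2.1 (f q.1.1) q.1.2.2.time q.1.2.2.space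
        * mixedDeriv q.2.2 (g q.1.1) q.1.2.2.time q.1.2.2.space) := by
    refine CompFam.mul
      (hf.2.comp (h := fun q : (α × List (Option (Fin 3)) × Pt) ×
        (List (Option (Fin 3)) × List (Option (Fin 3))) => (q.1.1, q.2.1, q.1.2.2)) ?_)
      (hg.2.comp (h := fun q : (α × List (Option (Fin 3)) × Pt) ×
        (List (Option (Fin 3)) × List (Option (Fin 3))) => (q.1.1, q.2.2, q.1.2.2)) ?_)
    · exact Computable.pair (Computable.fst.comp Computable.fst)
        (Computable.pair (Computable.fst.comp Computable.snd)
          (Computable.snd.comp (Computable.snd.comp Computable.fst)))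
    · exact Computable.pair (Computable.fst.comp Computable.fst)
        (Computable.pair (Computable.snd.comp Computable.snd)
          (Computable.snd.comp (Computable.snd.comp Computable.fst)))
  have hL : Computable (fun p : α × List (Option (Fin 3)) × Pt => splits p.2.1) :=
    primrec_splits.to_comp.comp (Computable.fst.comp Computable.snd)
  refine (CompFam.listSum hF hL).congr fun p => ?_
  rw [mixedDeriv_mul (hf.1 _) (hg.1 _)]

end Jet4

end Vale.Agent.P113
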