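import Vale.Agent.P113.CompJet

/-!
# P113-E: products of computable families of smooth functions of one variable
-/

namespace Vale.Agent.P113

open Finset
open scoped ContDiff

/-- binomial coefficients through factorials (agrees with `Nat.choose` for `i ≤ n`) -/
def chooseF (n i : ℕ) : ℕ := n.factorial / (i.factorial * (n - i).factorial)

theorem primrec_chooseF : Primrec₂ chooseF := by
  unfold chooseF
  exact Primrec.nat_div.comp (primrec_factorial.comp Primrec.fst)
    (Primrec.nat_mul.comp (primrec_factorial.comp Primrec.snd)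
      (primrec_factorial.comp (Primrec.nat_sub.comp Primrec.fst Primrec.snd)))

theorem chooseF_eq {n i : ℕ} (h : i ≤ n) : chooseF n i = n.choose i :=
  (Nat.choose_eq_factorial_div_factorial h).symm

namespace JetFam

variable {α β : Type} [Primcodable α] [Primcodable β]

theorem mul {f g : α → ℝ → ℝ} (hf : JetFam f) (hg : JetFam g) :
    JetFam (fun a x => f a x * g a x) := by
  refine ⟨fun a => (hf.1 a).mul (hg.1 a), ?_⟩
  -- the three factors, indexed by `((a, n, q), i)`
  have h1 : CompFam (fun r : (α × ℕ × QC) × ℕ => ((chooseF r.1.2.1 r.2 : ℕ) : ℝ)) :=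
    CompFam.natCast ((primrec_chooseF.to_comp).comp
      (Computable.fst.comp (Computable.snd.comp Computable.fst)) Computable.snd)
  have h2 : CompFam (fun r : (α × ℕ × QC) × ℕ => iteratedDeriv r.2 (f r.1.1) r.1.2.2.val) :=
    hf.2.comp (h := fun r : (α × ℕ × QC) × ℕ => (r.1.1, r.2, r.1.2.2))
      ((Computable.fst.comp Computable.fst).pair
        (Computable.snd.pair (Computable.snd.comp (Computable.snd.comp Computable.fst))))
  have h3 : CompFam (fun r : (α × ℕ × QC) × ℕ =>
      iteratedDeriv (r.1.2.1 - r.2) (g r.1.1) r.1.2.2.val) :=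
    hg.2.comp (h := fun r : (α × ℕ × QC) × ℕ => (r.1.1, r.1.2.1 - r.2, r.1.2.2))
      ((Computable.fst.comp Computable.fst).pair
        (((Primrec.nat_sub.to_comp).comp
          (Computable.fst.comp (Computable.snd.comp Computable.fst)) Computable.snd).pair
          (Computable.snd.comp (Computable.snd.comp Computable.fst))))
  have h4 := ((h1.mul h2).mul h3).sum (m := fun p : α × ℕ × QC => p.2.1 + 1)
    (Computable.succ.comp (Computable.fst.comp Computable.snd))
  refine h4.congr ?_
  intro p
  have hfa : ContDiffAt ℝ (p.2.1 : ℕ) (f p.1) p.2.2.val :=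
    ((hf.1 p.1).of_le (by exact_mod_cast le_top)).contDiffAt
  have hga : ContDiffAt ℝ (p.2.1 : ℕ) (g p.1) p.2.2.val :=
    ((hg.1 p.1).of_le (by exact_mod_cast le_top)).contDiffAt
  rw [iteratedDeriv_fun_mul hfa hga]
  refine Finset.sum_congr rfl ?_
  intro i hi
  have hi' : i ≤ p.2.1 := Nat.lt_succ_iff.mp (Finset.mem_range.mp hi)
  simp only [chooseF_eq hi']

end JetFam

end Vale.Agent.P113
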