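import Vale.Agent.P113.CompFamMul
import Vale.Agent.P113.CompFamSum
import Vale.Agent.P113.CompAnaExp
import Vale.Agent.P113.CompAutoQC

/-!
# P113-E: the constant log 2
-/

namespace Vale.Agent.P113

open Finset

theorem compFam_log_two : CompFam (fun _ : Unit => Real.log 2) := by
  have hterm : CompFam (fun p : (Unit × ℕ) × ℕ => (1 / 2 : ℝ) ^ (p.2 + 1) / ((p.2 : ℝ) + 1)) := by
    have hr : Primrec (fun p : (Unit × ℕ) × ℕ => ((1, 0, 2 ^ (p.2 + 1) * (p.2 + 1) - 1) : QC)) := by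
      fun_prop
    refine (CompFam.of_val hr.to_comp).congr ?_
    rintro ⟨_, i⟩
    simp only [QC.val_mk]
    have h1 : 1 ≤ 2 ^ (i + 1) * (i + 1) := Nat.succ_le_of_lt (by positivity)
    rw [Nat.cast_sub h1]
    push_cast
    rw [one_div_pow]
    field_simp
    ring
  have hsum : CompFam (fun p : Unit × ℕ =>
      ∑ i ∈ range p.2, (1 / 2 : ℝ) ^ (i + 1) / ((i : ℝ) + 1)) :=
    CompFam.sum (F := fun p : (Unit × ℕ) × ℕ => (1 / 2 : ℝ) ^ (p.2 + 1) / ((p.2 : ℝ) + 1)) hterm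
      (m := fun p : Unit × ℕ => p.2) Computable.snd
  exact CompFam.lim hsum (fun _ n => abs_log_two_sub_sum_le n)

end Vale.Agent.P113
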