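import Vale.Agent.P113.Machine

/-!
# P113: the two-stack phase program attached to a Turing machine

Two stacks of digits `A`, `B` (lists of naturals, the empty stack reads as `0,0,0,...`).
Time is divided in phases `0..9` repeated cyclically.  In each phase one stack is modified by an
operation (coded as a pair `(kind, digit)`: kind 0 nothing, 1 push, 2 pop, 3 halt signal) which
depends only on the two top digits `d1 d2` of the OTHER stack through `N = K * d1 + d2`.
-/

namespace Vale.Agent.P113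

namespace TM

variable (M : TM)

/-- first record digit -/
def base1 : ℕ := M.nS + 1
/-- first marker digit -/
def base2 : ℕ := M.nS + 1 + 4 * (M.nQ + 1) * (M.nS + 2)
/-- number of digits -/
def m : ℕ := M.nS + 1 + 4 * (M.nQ + 1) * (M.nS + 2) + 4 * (M.nQ + 1)
/-- the base of the encoding -/
def K : ℕ := 2 ^ M.m

/-- control word: state `q`, mode (0: marker on the second stack, scanning to the right;
1: marker on the first stack, scanning to the left), class (1: created by a turn). -/
def kap (q mode cls : ℕ) : ℕ := 4 * q + 2 * mode + cls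
def kQ (k : ℕ) : ℕ := k / 4
def kMode (k : ℕ) : ℕ := (k / 2) % 2
def kCls (k : ℕ) : ℕ := k % 2

/-- digit of a dead record `(k, s)`, `s ≤ nS` a symbol or `s = nS + 1` (skip record) -/
def recC (k s : ℕ) : ℕ := M.base1 + k * (M.nS + 2) + s
/-- digit of an active marker -/
def mkC (k : ℕ) : ℕ := M.base2 + k

def isSym (d : ℕ) : Prop := d ≤ M.nS
def isRec (d : ℕ) : Prop := M.base1 ≤ d ∧ d < M.base2
def isMk (d : ℕ) : Prop := M.base2 ≤ d ∧ d < M.m
instance (d : ℕ) : Decidable (M.isSym d) := by unfold isSym; infer_instance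
instance (d : ℕ) : Decidable (M.isRec d) := by unfold isRec; infer_instance
instance (d : ℕ) : Decidable (M.isMk d) := by unfold isMk; infer_instance
def recK (d : ℕ) : ℕ := (d - M.base1) / (M.nS + 2)
def recS (d : ℕ) : ℕ := (d - M.base1) % (M.nS + 2)
def mkK (d : ℕ) : ℕ := d - M.base2

/-- does the move `r` (true = right) continue the scanning direction of `mode`? -/
def dirMatch (r : Bool) (mode : ℕ) : Prop := (r = true ∧ mode = 0) ∨ (r = false ∧ mode = 1)
instance (r : Bool) (mode : ℕ) : Decidable (dirMatch r mode) := by unfold dirMatch; infer_instance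

/-- first phase of a sub-cycle: reads (marker, scanned digit) -/
def p1 (mode d1 d2 : ℕ) : ℕ × ℕ :=
  if M.isMk d1 ∧ kMode (M.mkK d1) = mode then
    if M.isHalt (kQ (M.mkK d1)) = true then (3, 0)
    else if M.isSym d2 then (1, M.recC (M.mkK d1) d2)
    else if M.isRec d2 then (1, d2)
    else (0, 0)
  else (0, 0)

/-- second phase of a sub-cycle: reads (marker, scanned digit) -/
def p2 (mode d1 d2 : ℕ) : ℕ × ℕ :=
  if M.isMk d1 ∧ kMode (M.mkK d1) = mode ∧ M.isHalt (kQ (M.mkK d1)) = false then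
    if M.isSym d2 then
      if dirMatch (M.trans (kQ (M.mkK d1)) d2).2.2 mode then (1, (M.trans (kQ (M.mkK d1)) d2).2.1)
      else (1, M.mkC (kap (M.trans (kQ (M.mkK d1)) d2).1 (1 - mode) 1))
    else if M.isRec d2 then (1, M.recC (M.mkK d1) (M.nS + 1))
    else (0, 0)
  else (0, 0)

/-- decoding of the two fresh top digits: `(1, marker digit to pop, scanned digit to pop,
digit to push)` or `(0, _, _, _)` -/
def dec (mode x y : ℕ) : ℕ × ℕ × ℕ × ℕ :=
  if M.isSym x ∧ M.isRec y ∧ M.recS y ≤ M.nS ∧ kMode (M.recK y) = mode ∧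
      M.isHalt (kQ (M.recK y)) = false ∧
      dirMatch (M.trans (kQ (M.recK y)) (M.recS y)).2.2 mode ∧
      (M.trans (kQ (M.recK y)) (M.recS y)).2.1 = x then
    (1, M.mkC (M.recK y), M.recS y, M.mkC (kap (M.trans (kQ (M.recK y)) (M.recS y)).1 mode 0))
  else if M.isMk x ∧ kMode (M.mkK x) = 1 - mode ∧ kCls (M.mkK x) = 1 ∧
      M.isRec y ∧ M.recS y ≤ M.nS ∧ kMode (M.recK y) = mode ∧
      M.isHalt (kQ (M.recK y)) = false ∧
      ¬ dirMatch (M.trans (kQ (M.recK y)) (M.recS y)).2.2 mode ∧
      (M.trans (kQ (M.recK y)) (M.recS y)).1 = kQ (M.mkK x) then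
    (1, M.mkC (M.recK y), M.recS y, (M.trans (kQ (M.recK y)) (M.recS y)).2.1)
  else if M.isRec x ∧ M.recS x = M.nS + 1 ∧ kMode (M.recK x) = mode ∧ M.isRec y ∧
      M.isHalt (kQ (M.recK x)) = false then
    (1, M.mkC (M.recK x), y, M.mkC (kap (kQ (M.recK x)) mode 0))
  else (0, 0, 0, 0)

def p3 (mode x y : ℕ) : ℕ × ℕ := if (M.dec mode x y).1 = 1 then (2, (M.dec mode x y).2.1) else (0, 0)
def p4 (mode x y : ℕ) : ℕ × ℕ := if (M.dec mode x y).1 = 1 then (2, (M.dec mode x y).2.2.1) else (0, 0)
def p5 (mode x y : ℕ) : ℕ × ℕ := if (M.dec mode x y).1 = 1 then (1, (M.dec mode x y).2.2.2) else (0, 0)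

/-- the table of phase `j` (`j < 10`) at block index `N = K * d1 + d2` -/
def tab (j N : ℕ) : ℕ × ℕ :=
  if j = 0 then M.p1 0 (N / M.K) (N % M.K)
  else if j = 1 then M.p2 0 (N / M.K) (N % M.K)
  else if j = 2 then M.p3 0 (N / M.K) (N % M.K)
  else if j = 3 then M.p4 0 (N / M.K) (N % M.K)
  else if j = 4 then M.p5 0 (N / M.K) (N % M.K)
  else if j = 5 then M.p1 1 (N / M.K) (N % M.K)
  else if j = 6 then M.p2 1 (N / M.K) (N % M.K)
  else if j = 7 then M.p3 1 (N / M.K) (N % M.K)
  else if j = 8 then M.p4 1 (N / M.K) (N % M.K)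
  else if j = 9 then M.p5 1 (N / M.K) (N % M.K)
  else (0, 0)

/-- the initial second stack: marker (state 0, mode 0, class 0) on top of the input word -/
def initB (w : List ℕ) : List ℕ := M.mkC 0 :: w

end TM

/-- block index read from a stack -/
def blockIdx (K : ℕ) (l : List ℕ) : ℕ := K * l.headD 0 + l.tail.headD 0

/-- effect of an operation on a stack (the halt signal does nothing at the level of stacks) -/
def applyOp (o : ℕ × ℕ) (l : List ℕ) : List ℕ :=
  if o.1 = 1 then o.2 :: l else if o.1 = 2 then l.tail else l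

/-- phases 0,1,7,8,9 modify the first stack (reading the second), phases 2..6 modify the second
stack (reading the first) -/
def actsOnFirst (j : ℕ) : Prop := j < 2 ∨ 7 ≤ j
instance (j : ℕ) : Decidable (actsOnFirst j) := by unfold actsOnFirst; infer_instance

/-- the operation performed in phase `j` on the configuration `c = (A, B)` -/
def opOf (K : ℕ) (tab : ℕ → ℕ → ℕ × ℕ) (j : ℕ) (c : List ℕ × List ℕ) : ℕ × ℕ :=
  if actsOnFirst j then tab j (blockIdx K c.2) else tab j (blockIdx K c.1)

def stepPhase (K : ℕ) (tab : ℕ → ℕ → ℕ × ℕ) (j : ℕ) (c : List ℕ × List ℕ) : List ℕ × List ℕ :=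
  if actsOnFirst j then (applyOp (opOf K tab j c) c.1, c.2) else (c.1, applyOp (opOf K tab j c) c.2)

/-- configuration after `n` phases -/
def run (K : ℕ) (tab : ℕ → ℕ → ℕ × ℕ) (c₀ : List ℕ × List ℕ) : ℕ → List ℕ × List ℕ
  | 0 => c₀
  | n + 1 => stepPhase K tab (n % 10) (run K tab c₀ n)

/-- the stack modified in phase `j` -/
def movingStack (j : ℕ) (c : List ℕ × List ℕ) : List ℕ := if actsOnFirst j then c.1 else c.2

/-- The operation `o` is legal on the stack `l`, for digits `< m`: nothing, push of a digit `< m`,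
or pop of the digit which really is on top. -/
def OpOK (m : ℕ) (o : ℕ × ℕ) (l : List ℕ) : Prop :=
  o.1 = 0 ∨ (o.1 = 1 ∧ o.2 < m) ∨ (o.1 = 2 ∧ l.headD 0 = o.2)

/-- all digits of both stacks are `< m` -/
def DigitsOK (m : ℕ) (c : List ℕ × List ℕ) : Prop := (∀ d ∈ c.1, d < m) ∧ (∀ d ∈ c.2, d < m)

end Vale.Agent.P113
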