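import Vale.Agent.P113.Defs
import Vale.Agent.P113.Prog

/-!
# P113: the explicit velocity field (definitions only)
-/

namespace Vale.Agent.P113

open Set MeasureTheory

/-- smooth bump supported in `[0,1]` -/
noncomputable def bump (x : ℝ) : ℝ := expNegInvGlue x * expNegInvGlue (1 - x)

noncomputable def bumpI : ℝ := ∫ x in (0 : ℝ)..1, bump x

/-- normalised bump: integral one -/
noncomputable def pulse (x : ℝ) : ℝ := bump x / bumpI

/-- smooth step: `0` on `(-∞,0]`, `1` on `[1,∞)`, derivative `pulse` -/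
noncomputable def step (x : ℝ) : ℝ := ∫ y in (0 : ℝ)..x, pulse y

/-- plateau: `1` on `[0,1/2]`, `0` outside `(-1/4,3/4)` -/
noncomputable def plat (r : ℝ) : ℝ := step (4 * r + 1) - step (4 * r - 2)

/-- window: `1` on `[3/16,3/4]`, `0` outside `(1/8,7/8)` -/
noncomputable def win (x : ℝ) : ℝ := step (16 * x - 2) - step (8 * x - 6)

noncomputable def lin (x : ℝ) : ℝ := x * win x

noncomputable def phi (z : ℝ) : ℝ := (z - 1 / 2) * win z

/-- periodisation of a function supported in `[0,1]` -/
noncomputable def per (g : ℝ → ℝ) (x : ℝ) : ℝ := g (Int.fract x)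

/-- smooth table look-up: equals `v N` when `K^2 (2y - 1/2) ∈ [N, N + 1/2]`, `N < K^2` -/
noncomputable def tabfun (K : ℕ) (v : ℕ → ℝ) (y : ℝ) : ℝ :=
  ∑ N ∈ Finset.range (K ^ 2), v N * plat ((K : ℝ) ^ 2 * (2 * y - 1 / 2) - N)

/-- sign of the rate of an operation: contraction (push, halt signal) `1`, expansion (pop) `-1` -/
noncomputable def opSig (o : ℕ × ℕ) : ℝ := if o.1 = 1 ∨ o.1 = 3 then 1 else if o.1 = 2 then -1 else 0

/-- centre of the contraction / expansion -/
noncomputable def opFix (K : ℕ) (o : ℕ × ℕ) : ℝ :=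
  if o.1 = 3 then 5 / 8 else 1 / 4 + (o.2 : ℝ) / (2 * ((K : ℝ) - 1))

/-- rate table of phase `j` -/
noncomputable def g0 (k : ℕ) (tab : ℕ → ℕ → ℕ × ℕ) (j N : ℕ) : ℝ :=
  (k : ℝ) * Real.log 2 * opSig (tab j N)

noncomputable def g1 (k : ℕ) (tab : ℕ → ℕ → ℕ × ℕ) (j N : ℕ) : ℝ :=
  (k : ℝ) * Real.log 2 * opSig (tab j N) * opFix (2 ^ k) (tab j N)

/-- speed of the moving coordinate `x` when the other (read) coordinate is `y` -/
noncomputable def Afun (K : ℕ) (v0 v1 : ℕ → ℝ) (x y : ℝ) : ℝ :=
  per win x * per (tabfun K v1) y - per lin x * per (tabfun K v0) y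

/-- its derivative with respect to `x` -/
noncomputable def AfunD (K : ℕ) (v0 v1 : ℕ → ℝ) (x y : ℝ) : ℝ :=
  per (deriv win) x * per (tabfun K v1) y - per (deriv lin) x * per (tabfun K v0) y

/-- divergence-free field moving the coordinate `x 0` (if `first`) or `x 1`, compensated in the
third direction; the plane `x 2 = 1/2` is invariant. -/
noncomputable def phaseField (K : ℕ) (first : Prop) [Decidable first] (v0 v1 : ℕ → ℝ) (x : R3) :
    R3 :=
  if first then
    ![per (deriv phi) (x 2) * Afun K v0 v1 (x 0) (x 1), 0,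
      - (per phi (x 2) * AfunD K v0 v1 (x 0) (x 1))]
  else
    ![0, per (deriv phi) (x 2) * Afun K v0 v1 (x 1) (x 0),
      - (per phi (x 2) * AfunD K v0 v1 (x 1) (x 0))]

/-- time profile of phase `j`: period `12`, active on `[12 i + j + 1, 12 i + j + 2]` -/
noncomputable def theta (j : ℕ) (t : ℝ) : ℝ := per (fun s => pulse (12 * s - ((j : ℝ) + 1))) (t / 12)

/-- the velocity field: during `[0,1]` a rigid translation by `τ` in the second coordinate,
afterwards the `12`-periodic program of ten phases. -/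
noncomputable def vel (k : ℕ) (tab : ℕ → ℕ → ℕ × ℕ) (τ : ℝ) (t : ℝ) (x : R3) : R3 :=
  pulse t • ![0, τ, 0] + ∑ j ∈ Finset.range 10,
    theta j t • phaseField (2 ^ k) (actsOnFirst j) (g0 k tab j) (g1 k tab j) x

/-- base-`K` value of a stack -/
noncomputable def enc (K : ℕ) : List ℕ → ℝ
  | [] => 0
  | d :: l => ((d : ℝ) + enc K l) / K

/-- position on the circle representing a stack -/
noncomputable def pos (K : ℕ) (l : List ℕ) : ℝ := 1 / 4 + enc K l / 2

/-- velocity field attached to a machine and an input -/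
noncomputable def velM (M : TM) (w : List ℕ) : ℝ → R3 → R3 :=
  vel M.m M.tab (enc M.K (M.initB w) / 2)

/-- the force attached to a machine and an input -/
noncomputable def forceM (ν : ℝ) (M : TM) (w : List ℕ) : ℝ → R3 → R3 := forceOf ν (velM M w)

/-- the starting point -/
noncomputable def aStar : R3 := ![1 / 4, 1 / 4, 1 / 2]

/-- the target open set -/
def targetO : Set R3 :=
  {x | ∃ n : ℤ, x 0 - n ∈ Ioo (9 / 16 : ℝ) (11 / 16) ∨ x 1 - n ∈ Ioo (9 / 16 : ℝ) (11 / 16)}

end Vale.Agent.P113
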