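import Vale.Agent.P113.CompTab
import Vale.Agent.P113.CompLog
import Vale.Agent.P113.CompAutoQC
import Vale.Agent.P113.Field

/-!
# P113-E: the rate tables and the initial translation are computable
-/

namespace Vale.Agent.P113

/-- rational code of `opSig` -/
def opSigQ (o : ℕ × ℕ) : QC :=
  if o.1 = 1 ∨ o.1 = 3 then (1, 0, 0) else if o.1 = 2 then (0, 1, 0) else (0, 0, 0)

theorem opSigQ_val (o : ℕ × ℕ) : (opSigQ o).val = opSig o := by
  unfold opSigQ opSig
  split_ifs <;> simp [QC.val_mk]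

/-- rational code of `opFix` -/
def opFixQ (K : ℕ) (o : ℕ × ℕ) : QC :=
  if o.1 = 3 then (5, 0, 7)
  else QC.add (1, 0, 3) (QC.mul (QC.ofNat o.2)
    (QC.inv (QC.mul (QC.ofNat 2) (QC.sub (QC.ofNat K) (QC.ofNat 1)))))

theorem opFixQ_val (K : ℕ) (o : ℕ × ℕ) : (opFixQ K o).val = opFix K o := by
  unfold opFixQ opFix
  split_ifs
  · norm_num [QC.val_mk]
  · rw [QC.val_add, QC.val_mul, QC.val_inv, QC.val_mul, QC.val_sub, QC.val_ofNat, QC.val_ofNat,
      QC.val_ofNat, QC.val_ofNat, div_eq_mul_inv (o.2 : ℝ)]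
    have e : QC.val (1, 0, 3) = 1 / 4 := by norm_num [QC.val_mk]
    rw [e]
    norm_num

section
variable {α : Type} [Primcodable α]

@[fun_prop] theorem pr_opSigQ {f : α → ℕ × ℕ} (hf : Primrec f) :
    Primrec (fun x => opSigQ (f x)) := by
  unfold opSigQ; fun_prop

@[fun_prop] theorem pr_opFixQ {k : α → ℕ} {f : α → ℕ × ℕ} (hk : Primrec k) (hf : Primrec f) :
    Primrec (fun x => opFixQ (k x) (f x)) := by
  unfold opFixQ; fun_prop

end

/-- rational code of `enc` -/
def encQ (K : ℕ) (l : List ℕ) : QC :=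
  l.foldr (fun d acc => QC.mul (QC.add (QC.ofNat d) acc) (QC.inv (QC.ofNat K))) (QC.ofNat 0)

theorem encQ_val (K : ℕ) (l : List ℕ) : (encQ K l).val = enc K l := by
  induction l with
  | nil => simp [encQ, enc, QC.val_ofNat]
  | cons d l ih =>
    have e : encQ K (d :: l) = QC.mul (QC.add (QC.ofNat d) (encQ K l)) (QC.inv (QC.ofNat K)) := rfl
    rw [e, QC.val_mul, QC.val_add, QC.val_inv, QC.val_ofNat, QC.val_ofNat, ih, enc,
      div_eq_mul_inv]

theorem primrec_encQ : Primrec₂ encQ := by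
  have h : Primrec (fun p : ℕ × List ℕ => p.2.foldr
      (fun d acc => QC.mul (QC.add (QC.ofNat d) acc) (QC.inv (QC.ofNat p.1))) (QC.ofNat 0)) := by
    refine Primrec.list_foldr (f := fun p : ℕ × List ℕ => p.2) (g := fun _ => QC.ofNat 0)
      (h := fun p q => QC.mul (QC.add (QC.ofNat q.1) q.2) (QC.inv (QC.ofNat p.1)))
      Primrec.snd (Primrec.const _) ?_
    unfold Primrec₂
    fun_prop
  exact h

theorem compFam_klog : CompFam (fun p : (TM × ℕ) × ℕ => (p.1.1.m : ℝ) * Real.log 2) := by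
  have h1 : CompFam (fun p : (TM × ℕ) × ℕ => (p.1.1.m : ℝ)) :=
    CompFam.natCast (α := (TM × ℕ) × ℕ) (m := fun p => p.1.1.m)
      (by
        have : Primrec (fun p : (TM × ℕ) × ℕ => p.1.1.m) := by fun_prop
        exact this.to_comp)
  have h2 : CompFam (fun _ : (TM × ℕ) × ℕ => Real.log 2) :=
    compFam_log_two.comp (Computable.const ())
  exact h1.mul h2

theorem compFam_sig : CompFam (fun p : (TM × ℕ) × ℕ => opSig (p.1.1.tab p.1.2 p.2)) := by
  have h : Primrec (fun p : (TM × ℕ) × ℕ => opSigQ (p.1.1.tab p.1.2 p.2)) := by fun_prop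
  exact (CompFam.of_val h.to_comp).congr fun p => opSigQ_val _

theorem compFam_fix :
    CompFam (fun p : (TM × ℕ) × ℕ => opFix (2 ^ p.1.1.m) (p.1.1.tab p.1.2 p.2)) := by
  have h : Primrec (fun p : (TM × ℕ) × ℕ => opFixQ (2 ^ p.1.1.m) (p.1.1.tab p.1.2 p.2)) := by
    fun_prop
  exact (CompFam.of_val h.to_comp).congr fun p => opFixQ_val _ _

theorem compFam_g0 :
    CompFam (fun p : (TM × ℕ) × ℕ => g0 p.1.1.m p.1.1.tab p.1.2 p.2) :=
  (compFam_klog.mul compFam_sig).congr fun _ => rfl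

theorem compFam_g1 :
    CompFam (fun p : (TM × ℕ) × ℕ => g1 p.1.1.m p.1.1.tab p.1.2 p.2) :=
  ((compFam_klog.mul compFam_sig).mul compFam_fix).congr fun _ => rfl

theorem compFam_tau : CompFam (fun p : TM × List ℕ => enc p.1.K (p.1.initB p.2) / 2) := by
  have h0 : Primrec (fun p : TM × List ℕ => encQ p.1.K (p.1.initB p.2)) :=
    primrec_encQ.comp (by fun_prop) (by fun_prop)
  have h : Primrec (fun p : TM × List ℕ => QC.mul (encQ p.1.K (p.1.initB p.2)) (1, 0, 1)) := by
    fun_prop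
  refine (CompFam.of_val h.to_comp).congr fun p => ?_
  rw [QC.val_mul, encQ_val]
  norm_num [QC.val_mk]
  ring

end Vale.Agent.P113
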