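import Vale.Agent.P113.CompAnaInt

/-!
# P113-E: error of Riemann sums of a Lipschitz function (no computability here)
-/

namespace Vale.Agent.P113

open Finset MeasureTheory

theorem riemann_error {f : ℝ → ℝ} {L : ℝ} (hL : ∀ x y, |f x - f y| ≤ L * |x - y|) (b : ℝ)
    {N : ℕ} (hN : 0 < N) :
    |(∫ x in (0 : ℝ)..b, f x) - (b / N) * ∑ i ∈ range N, f (b * i / N)| ≤ L * b ^ 2 / N := by
  have hL0 : 0 ≤ L := by
    have := hL 0 1
    have h2 : 0 ≤ L * |(0 : ℝ) - 1| := (abs_nonneg _).trans this
    simpa using h2
  have hc : Continuous f := by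
    have : LipschitzWith (Real.toNNReal L) f := by
      apply LipschitzWith.of_dist_le_mul
      intro x y
      rw [Real.dist_eq, Real.dist_eq, Real.coe_toNNReal L hL0]
      exact hL x y
    exact this.continuous
  have := abs_integral_sub_riemann_le hc hL b hN
  rwa [← Finset.mul_sum] at this

end Vale.Agent.P113
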