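import Vale.Agent.P113.CompJet4

/-!
# P113-E: from a computable family of vector fields to a compiler
-/

namespace Vale.Agent.P113

open Finset
open scoped ContDiff

/-- s-m-n: from a computable family of vector fields to a compiler -/
theorem compiler_of_jet4 {α : Type} [Primcodable α] {F : α → ℝ → R3 → R3}
    (h : Jet4 (fun p : α × Fin 3 => fun t x => F p.1 t x p.2)) :
    ∃ compiler : α → Nat.Partrec.Code, Computable compiler ∧
      ∀ a, IsProgramFor (compiler a) (F a) := by
  obtain ⟨g, hg, hgb⟩ := h.2
  let G : α × Query → QC := fun p => g ((p.1, p.2.2.1), p.2.1, p.2.2.2.1) p.2.2.2.2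
  have hG : Computable G := by
    refine hg.comp ?_ ?_
    · exact (Computable.pair (Computable.pair Computable.fst
        (Computable.fst.comp (Computable.snd.comp Computable.snd)))
        (Computable.pair (Computable.fst.comp Computable.snd)
          (Computable.fst.comp (Computable.snd.comp (Computable.snd.comp Computable.snd)))))
    · exact Computable.snd.comp (Computable.snd.comp (Computable.snd.comp Computable.snd))
  obtain ⟨c, hc⟩ := Nat.Partrec.Code.exists_code.1 hG
  refine ⟨fun a => Nat.Partrec.Code.curry c (Encodable.encode a), ?_, ?_⟩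
  · exact (Nat.Partrec.Code.primrec₂_curry.to_comp).comp (Computable.const c) Computable.encode
  · intro a l i t x₀ x₁ x₂ n
    refine ⟨G (a, (l, i, (t, x₀, x₁, x₂), n)), ?_, ?_⟩
    · have key : Nat.pair (Encodable.encode a)
          (Encodable.encode ((l, i, (t, x₀, x₁, x₂), n) : Query))
          = Encodable.encode ((a, ((l, i, (t, x₀, x₁, x₂), n) : Query)) : α × Query) :=
        (Encodable.encode_prod_val a ((l, i, (t, x₀, x₁, x₂), n) : Query)).symm
      rw [Nat.Partrec.Code.eval_curry, hc, key]
      show (Part.bind (Encodable.decode (α := α × Query) (Encodable.encode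
        ((a, ((l, i, (t, x₀, x₁, x₂), n) : Query)) : α × Query)) : Part (α × Query))
          fun a => Part.map Encodable.encode ((G : α × Query →. QC) a)) = _
      rw [Encodable.encodek]
      simp
    · exact hgb ((a, i), l, (t, x₀, x₁, x₂)) n

end Vale.Agent.P113
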