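import Vale.Agent.P113.CompAuto
import Vale.Agent.P113.Prog

/-!
# P113-E7: the tables of the phase program are primitive recursive
-/

namespace Vale.Agent.P113

open TM

section
variable {α : Type*} [Primcodable α]

@[fun_prop] theorem pr_nQ {M : α → TM} (hM : Primrec M) : Primrec (fun x => (M x).nQ) := by
  unfold TM.nQ; fun_prop
@[fun_prop] theorem pr_nS {M : α → TM} (hM : Primrec M) : Primrec (fun x => (M x).nS) := by
  unfold TM.nS; fun_prop
@[fun_prop] theorem pr_isHalt {M : α → TM} {q : α → ℕ} (hM : Primrec M) (hq : Primrec q) :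
    Primrec (fun x => (M x).isHalt (q x)) := by
  unfold TM.isHalt; fun_prop
@[fun_prop] theorem pr_trans {M : α → TM} {q a : α → ℕ} (hM : Primrec M) (hq : Primrec q)
    (ha : Primrec a) : Primrec (fun x => (M x).trans (q x) (a x)) := by
  unfold TM.trans; fun_prop
@[fun_prop] theorem pr_base1 {M : α → TM} (hM : Primrec M) : Primrec (fun x => (M x).base1) := by
  unfold TM.base1; fun_prop
@[fun_prop] theorem pr_base2 {M : α → TM} (hM : Primrec M) : Primrec (fun x => (M x).base2) := by
  unfold TM.base2; fun_prop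
@[fun_prop] theorem pr_m {M : α → TM} (hM : Primrec M) : Primrec (fun x => (M x).m) := by
  unfold TM.m; fun_prop
@[fun_prop] theorem pr_K {M : α → TM} (hM : Primrec M) : Primrec (fun x => (M x).K) := by
  unfold TM.K; fun_prop
@[fun_prop] theorem pr_kap {q mode cls : α → ℕ} (h1 : Primrec q) (h2 : Primrec mode)
    (h3 : Primrec cls) : Primrec (fun x => kap (q x) (mode x) (cls x)) := by
  unfold TM.kap; fun_prop
@[fun_prop] theorem pr_kQ {k : α → ℕ} (h1 : Primrec k) : Primrec (fun x => kQ (k x)) := by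
  unfold TM.kQ; fun_prop
@[fun_prop] theorem pr_kMode {k : α → ℕ} (h1 : Primrec k) : Primrec (fun x => kMode (k x)) := by
  unfold TM.kMode; fun_prop
@[fun_prop] theorem pr_kCls {k : α → ℕ} (h1 : Primrec k) : Primrec (fun x => kCls (k x)) := by
  unfold TM.kCls; fun_prop
@[fun_prop] theorem pr_recC {M : α → TM} {k s : α → ℕ} (hM : Primrec M) (hk : Primrec k)
    (hs : Primrec s) : Primrec (fun x => (M x).recC (k x) (s x)) := by
  unfold TM.recC; fun_prop
@[fun_prop] theorem pr_mkC {M : α → TM} {k : α → ℕ} (hM : Primrec M) (hk : Primrec k) :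
    Primrec (fun x => (M x).mkC (k x)) := by
  unfold TM.mkC; fun_prop
@[fun_prop] theorem prp_isSym {M : α → TM} {k : α → ℕ} (hM : Primrec M) (hk : Primrec k) :
    PrimrecPred (fun x => (M x).isSym (k x)) := by
  unfold TM.isSym; fun_prop
@[fun_prop] theorem prp_isRec {M : α → TM} {k : α → ℕ} (hM : Primrec M) (hk : Primrec k) :
    PrimrecPred (fun x => (M x).isRec (k x)) := by
  unfold TM.isRec; fun_prop
@[fun_prop] theorem prp_isMk {M : α → TM} {k : α → ℕ} (hM : Primrec M) (hk : Primrec k) :
    PrimrecPred (fun x => (M x).isMk (k x)) := by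
  unfold TM.isMk; fun_prop
@[fun_prop] theorem pr_recK {M : α → TM} {k : α → ℕ} (hM : Primrec M) (hk : Primrec k) :
    Primrec (fun x => (M x).recK (k x)) := by
  unfold TM.recK; fun_prop
@[fun_prop] theorem pr_recS {M : α → TM} {k : α → ℕ} (hM : Primrec M) (hk : Primrec k) :
    Primrec (fun x => (M x).recS (k x)) := by
  unfold TM.recS; fun_prop
@[fun_prop] theorem pr_mkK {M : α → TM} {k : α → ℕ} (hM : Primrec M) (hk : Primrec k) :
    Primrec (fun x => (M x).mkK (k x)) := by
  unfold TM.mkK; fun_prop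
@[fun_prop] theorem prp_dirMatch {r : α → Bool} {k : α → ℕ} (hM : Primrec r) (hk : Primrec k) :
    PrimrecPred (fun x => dirMatch (r x) (k x)) := by
  unfold TM.dirMatch; fun_prop
@[fun_prop] theorem pr_p1 {M : α → TM} {a b c : α → ℕ} (hM : Primrec M) (ha : Primrec a)
    (hb : Primrec b) (hc : Primrec c) : Primrec (fun x => (M x).p1 (a x) (b x) (c x)) := by
  unfold TM.p1; fun_prop
@[fun_prop] theorem pr_p2 {M : α → TM} {a b c : α → ℕ} (hM : Primrec M) (ha : Primrec a)
    (hb : Primrec b) (hc : Primrec c) : Primrec (fun x => (M x).p2 (a x) (b x) (c x)) := by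
  unfold TM.p2; fun_prop
@[fun_prop] theorem pr_dec {M : α → TM} {a b c : α → ℕ} (hM : Primrec M) (ha : Primrec a)
    (hb : Primrec b) (hc : Primrec c) : Primrec (fun x => (M x).dec (a x) (b x) (c x)) := by
  unfold TM.dec; fun_prop
@[fun_prop] theorem pr_p3 {M : α → TM} {a b c : α → ℕ} (hM : Primrec M) (ha : Primrec a)
    (hb : Primrec b) (hc : Primrec c) : Primrec (fun x => (M x).p3 (a x) (b x) (c x)) := by
  unfold TM.p3; fun_prop
@[fun_prop] theorem pr_p4 {M : α → TM} {a b c : α → ℕ} (hM : Primrec M) (ha : Primrec a)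
    (hb : Primrec b) (hc : Primrec c) : Primrec (fun x => (M x).p4 (a x) (b x) (c x)) := by
  unfold TM.p4; fun_prop
@[fun_prop] theorem pr_p5 {M : α → TM} {a b c : α → ℕ} (hM : Primrec M) (ha : Primrec a)
    (hb : Primrec b) (hc : Primrec c) : Primrec (fun x => (M x).p5 (a x) (b x) (c x)) := by
  unfold TM.p5; fun_prop
@[fun_prop] theorem pr_tab {M : α → TM} {a b : α → ℕ} (hM : Primrec M) (ha : Primrec a)
    (hb : Primrec b) : Primrec (fun x => (M x).tab (a x) (b x)) := by
  unfold TM.tab; fun_prop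
@[fun_prop] theorem pr_initB {M : α → TM} {w : α → List ℕ} (hM : Primrec M) (hw : Primrec w) :
    Primrec (fun x => (M x).initB (w x)) := by
  unfold TM.initB; fun_prop
@[fun_prop] theorem prp_actsOnFirst {j : α → ℕ} (hj : Primrec j) :
    PrimrecPred (fun x => actsOnFirst (j x)) := by
  unfold actsOnFirst; fun_prop

end

theorem primrec_m : Primrec TM.m := by fun_prop

theorem primrec_K : Primrec TM.K := by fun_prop

theorem primrec_tab : Primrec (fun p : TM × ℕ × ℕ => p.1.tab p.2.1 p.2.2) := by fun_prop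

theorem primrec_initB : Primrec₂ TM.initB := by
  unfold Primrec₂; fun_prop

end Vale.Agent.P113
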