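import Vale.Agent.P113.CompBlocks
import Vale.Agent.P113.CompAutoQC

/-!
# P113-E: smooth table look-up
-/

namespace Vale.Agent.P113

open Finset MeasureTheory
open scoped ContDiff

variable {α : Type} [Primcodable α]

theorem jetFam_tabfun {K : α → ℕ} (hK : Computable K) {v : α → ℕ → ℝ}
    (hv : CompFam (fun p : α × ℕ => v p.1 p.2)) : JetFam (fun a => tabfun (K a) (v a)) := by
  have hKN : Computable (fun p : α × ℕ => (K p.1, p.2)) :=
    (hK.comp Computable.fst).pair Computable.snd
  have hc : Computable (fun p : α × ℕ => ((2 * K p.1 ^ 2, 0, 0) : QC)) := by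
    have : Primrec (fun q : ℕ × ℕ => ((2 * q.1 ^ 2, 0, 0) : QC)) := by fun_prop
    have h2 := Computable.comp this.to_comp hKN
    exact h2
  have hd : Computable (fun p : α × ℕ => ((0, K p.1 ^ 2 + 2 * p.2, 1) : QC)) := by
    have : Primrec (fun q : ℕ × ℕ => ((0, q.1 ^ 2 + 2 * q.2, 1) : QC)) := by fun_prop
    have h2 := Computable.comp this.to_comp hKN
    exact h2
  have hplat : JetFam (fun _ : α × ℕ => plat) :=
    jetFam_plat.comp (h := fun _ : α × ℕ => ()) (Computable.const ())
  have h1 := JetFam.smul hv (hplat.comp_affine hc hd)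
  have hm : Computable (fun a => K a ^ 2) := by
    have : Primrec (fun k : ℕ => k ^ 2) := by fun_prop
    have h2 := Computable.comp this.to_comp hK
    exact h2
  refine (JetFam.sum h1 hm).congr ?_
  intro a
  funext y
  simp only [tabfun]
  refine Finset.sum_congr rfl fun N _ => ?_
  congr 2
  simp only [QC.val_mk]
  push_cast
  ring

theorem jetFam_per_tabfun {K : α → ℕ} (hK : Computable K) (hK1 : ∀ a, 1 ≤ K a) {v : α → ℕ → ℝ}
    (hv : CompFam (fun p : α × ℕ => v p.1 p.2)) : JetFam (fun a => per (tabfun (K a) (v a))) := by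
  refine JetFam.per (jetFam_tabfun hK hv) (δ := 1 / 8) (by norm_num) ?_
  intro a x hx
  refine tabfun_eq_zero (hK1 a) (v a) ?_
  rcases hx with h | h
  · exact Or.inl h
  · exact Or.inr (by linarith)

end Vale.Agent.P113
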