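import Vale.Agent.P113.CompTabfun
import Vale.Agent.P113.CompRates
import Vale.Agent.P113.CompJet4Mul
import Vale.Agent.P113.CompJet4Lift

/-!
# P113-E: the components of the velocity field
-/

namespace Vale.Agent.P113

open Finset
open scoped ContDiff

/-- index type of one phase: machine and phase number -/
abbrev PhIdx : Type := TM × ℕ

theorem jetFam_T0 : JetFam (fun p : PhIdx =>
    per (tabfun (2 ^ p.1.m) (g0 p.1.m p.1.tab (p.2 % 10)))) := by
  refine jetFam_per_tabfun (K := fun p : PhIdx => 2 ^ p.1.m)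
    (v := fun p : PhIdx => g0 p.1.m p.1.tab (p.2 % 10)) ?_ ?_ ?_
  · exact Primrec.to_comp (by fun_prop)
  · intro a; exact Nat.one_le_two_pow
  · exact compFam_g0.comp (h := fun q : PhIdx × ℕ => ((q.1.1, q.1.2 % 10), q.2))
      (Primrec.to_comp (by fun_prop))

theorem jetFam_T1 : JetFam (fun p : PhIdx =>
    per (tabfun (2 ^ p.1.m) (g1 p.1.m p.1.tab (p.2 % 10)))) := by
  refine jetFam_per_tabfun (K := fun p : PhIdx => 2 ^ p.1.m)
    (v := fun p : PhIdx => g1 p.1.m p.1.tab (p.2 % 10)) ?_ ?_ ?_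
  · exact Primrec.to_comp (by fun_prop)
  · intro a; exact Nat.one_le_two_pow
  · exact compFam_g1.comp (h := fun q : PhIdx × ℕ => ((q.1.1, q.1.2 % 10), q.2))
      (Primrec.to_comp (by fun_prop))

/-- a fixed function as a family over any index type -/
theorem JetFam.constFam {α : Type} [Primcodable α] {f : ℝ → ℝ} (hf : JetFam (fun _ : Unit => f)) :
    JetFam (fun _ : α => f) :=
  hf.comp (h := fun _ : α => ()) (Computable.const ())

theorem jet4_Afun (j k : Fin 3) : Jet4 (fun p : PhIdx => fun _ x =>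
    Afun (2 ^ p.1.m) (g0 p.1.m p.1.tab (p.2 % 10)) (g1 p.1.m p.1.tab (p.2 % 10)) (x j) (x k)) := by
  unfold Afun
  exact ((Jet4.liftX (JetFam.constFam jetFam_per_win) j).mul (Jet4.liftX jetFam_T1 k)).sub
    ((Jet4.liftX (JetFam.constFam jetFam_per_lin) j).mul (Jet4.liftX jetFam_T0 k))

theorem jet4_AfunD (j k : Fin 3) : Jet4 (fun p : PhIdx => fun _ x =>
    AfunD (2 ^ p.1.m) (g0 p.1.m p.1.tab (p.2 % 10)) (g1 p.1.m p.1.tab (p.2 % 10)) (x j) (x k)) := by
  unfold AfunD
  exact ((Jet4.liftX (JetFam.constFam jetFam_per_deriv_win) j).mul (Jet4.liftX jetFam_T1 k)).sub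
    ((Jet4.liftX (JetFam.constFam jetFam_per_deriv_lin) j).mul (Jet4.liftX jetFam_T0 k))

theorem computable_actsOnFirst :
    Computable (fun p : PhIdx => decide (actsOnFirst (p.2 % 10))) := by
  have h : PrimrecPred (fun p : PhIdx => actsOnFirst (p.2 % 10)) := by fun_prop
  exact h.decide.to_comp

/-- the spatial part of one phase -/
theorem jet4_phaseField (i : Fin 3) :
    Jet4 (fun p : PhIdx => fun _ x =>
      phaseField (2 ^ p.1.m) (actsOnFirst (p.2 % 10))
        (g0 p.1.m p.1.tab (p.2 % 10)) (g1 p.1.m p.1.tab (p.2 % 10)) x i) := by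
  have hA := fun j k => (Jet4.liftX (α := PhIdx) (JetFam.constFam jetFam_per_deriv_phi) 2).mul
    (jet4_Afun j k)
  have hD := fun j k => ((Jet4.liftX (α := PhIdx) (JetFam.constFam jetFam_per_phi) 2).mul
    (jet4_AfunD j k)).neg
  fin_cases i
  · refine (Jet4.ite computable_actsOnFirst (hA 0 1) Jet4.zero).congr ?_
    intro a
    funext t x
    unfold phaseField
    split_ifs <;> simp
  · refine (Jet4.ite computable_actsOnFirst Jet4.zero (hA 1 0)).congr ?_
    intro a
    funext t x
    unfold phaseField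
    split_ifs <;> simp
  · refine (Jet4.ite computable_actsOnFirst (hD 0 1) (hD 1 0)).congr ?_
    intro a
    funext t x
    unfold phaseField
    split_ifs <;> simp

/-- one phase -/
theorem jet4_phase (i : Fin 3) :
    Jet4 (fun p : TM × ℕ => fun t x =>
      theta (p.2 % 10) t * phaseField (2 ^ p.1.m) (actsOnFirst (p.2 % 10))
        (g0 p.1.m p.1.tab (p.2 % 10)) (g1 p.1.m p.1.tab (p.2 % 10)) x i) :=
  (Jet4.liftT (jetFam_theta.comp (h := fun p : PhIdx => p.2) Computable.snd)).mul
    (jet4_phaseField i)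

theorem velM_apply (M : TM) (w : List ℕ) (t : ℝ) (x : R3) (i : Fin 3) :
    velM M w t x i = (![0, enc M.K (M.initB w) / 2, 0] : R3) i * pulse t
      + ∑ j ∈ range 10, theta (j % 10) t * phaseField (2 ^ M.m) (actsOnFirst (j % 10))
        (g0 M.m M.tab (j % 10)) (g1 M.m M.tab (j % 10)) x i := by
  unfold velM vel
  simp only [Pi.add_apply, Pi.smul_apply, Finset.sum_apply, smul_eq_mul]
  rw [mul_comm (pulse t)]
  refine congrArg₂ (· + ·) rfl (Finset.sum_congr rfl fun j hj => ?_)
  rw [Nat.mod_eq_of_lt (Finset.mem_range.1 hj)]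

theorem jet4_velM (i : Fin 3) :
    Jet4 (fun p : TM × List ℕ => fun t x => velM p.1 p.2 t x i) := by
  have hsum : Jet4 (fun p : TM × List ℕ => fun t x =>
      ∑ j ∈ range 10, theta (j % 10) t * phaseField (2 ^ p.1.m) (actsOnFirst (j % 10))
        (g0 p.1.m p.1.tab (j % 10)) (g1 p.1.m p.1.tab (j % 10)) x i) :=
    Jet4.sum (f := fun q : (TM × List ℕ) × ℕ => fun t x =>
      theta (q.2 % 10) t * phaseField (2 ^ q.1.1.m) (actsOnFirst (q.2 % 10))
        (g0 q.1.1.m q.1.1.tab (q.2 % 10)) (g1 q.1.1.m q.1.1.tab (q.2 % 10)) x i)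
      ((jet4_phase i).comp (h := fun q : (TM × List ℕ) × ℕ => (q.1.1, q.2))
        (Primrec.to_comp (by fun_prop))) (m := fun _ => 10) (Computable.const 10)
  have hc : CompFam (fun p : TM × List ℕ => (![0, enc p.1.K (p.1.initB p.2) / 2, 0] : R3) i) := by
    fin_cases i
    · exact CompFam.zero
    · exact compFam_tau
    · exact CompFam.zero
  have hp : Jet4 (fun p : TM × List ℕ => fun t (_ : R3) => pulse t) :=
    Jet4.liftT (JetFam.constFam jetFam_pulse)
  refine ((Jet4.smul hc hp).add hsum).congr ?_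
  intro a
  funext t x
  rw [velM_apply]

end Vale.Agent.P113
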