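import Vale.Agent.P113.Defs

/-!
# P113: effectivity (statement-level definitions)
-/

namespace Vale.Agent.P113

open Set

/-- Codes of rational numbers: `(a, b, c)` stands for `(a - b) / (c + 1)`. -/
abbrev QC : Type := ℕ × ℕ × ℕ

/-- the rational number (as a real) denoted by a code -/
noncomputable def QC.val (r : QC) : ℝ := ((r.1 : ℝ) - (r.2.1 : ℝ)) / ((r.2.2 : ℝ) + 1)

/-- A real number is computable if a computable sequence of rationals approximates it with
error at most `1/(n+1)`. -/
def ComputableReal (ν : ℝ) : Prop :=
  ∃ g : ℕ → QC, Computable g ∧ ∀ n : ℕ, |ν - (g n).val| ≤ 1 / ((n : ℝ) + 1)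

/-- derivative in the direction `none` (time) or `some j` (the `j`-th space coordinate) -/
noncomputable def dirDeriv (d : Option (Fin 3)) (g : ℝ → R3 → ℝ) : ℝ → R3 → ℝ :=
  match d with
  | none => fun t x => deriv (fun s => g s x) t
  | some j => fun t x => pd j (g t) x

/-- mixed derivative along a list of directions -/
noncomputable def mixedDeriv : List (Option (Fin 3)) → (ℝ → R3 → ℝ) → ℝ → R3 → ℝ
  | [], g => g
  | d :: l, g => dirDeriv d (mixedDeriv l g)

/-- a query: which mixed derivative, which component, at which rational point `(t, x₀, x₁, x₂)`,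
with which accuracy `1/(n+1)` -/
abbrev Query : Type := List (Option (Fin 3)) × Fin 3 × (QC × QC × QC × QC) × ℕ

/-- The program `c` returns each mixed derivative of each component of `f` at rational points to
any prescribed accuracy `1/(n+1)`. -/
def IsProgramFor (c : Nat.Partrec.Code) (f : ℝ → R3 → R3) : Prop :=
  ∀ (l : List (Option (Fin 3))) (i : Fin 3) (t x₀ x₁ x₂ : QC) (n : ℕ),
    ∃ r : QC, c.eval (Encodable.encode ((l, i, (t, x₀, x₁, x₂), n) : Query)) =
        Part.some (Encodable.encode r) ∧
      |mixedDeriv l (fun s y => f s y i) t.val ![x₀.val, x₁.val, x₂.val] - r.val|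
        ≤ 1 / ((n : ℝ) + 1)

end Vale.Agent.P113
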