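import Vale.Agent.P113.Field
import Vale.Agent.P113.Effective
import Vale.Agent.P113.CompVel
import Vale.Agent.P113.CompForce
import Vale.Agent.P113.CompSmn

/-!
# P113 subtask E: the force compiler
-/

namespace Vale.Agent.P113

/-- There is a computable map sending `(M, w)` to a program computing all mixed derivatives of the
force `forceM ν M w` at rational points to any accuracy. -/
theorem exists_compiler (ν : ℝ) (hν : ComputableReal ν) :
    ∃ compiler : TM × List ℕ → Nat.Partrec.Code, Computable compiler ∧
      ∀ (M : TM) (w : List ℕ), IsProgramFor (compiler (M, w)) (forceM ν M w) := by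
  obtain ⟨c, hc, h⟩ := compiler_of_jet4 (F := fun p : TM × List ℕ => forceM ν p.1 p.2)
    (jet4_forceOf hν jet4_velM)
  exact ⟨c, hc, fun M w => h (M, w)⟩

end Vale.Agent.P113
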