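import Mathlib

/-!
# P113: statement-level definitions

The torus `(ℝ/ℤ)^3` is handled through `ℤ^3`-periodic objects on `ℝ^3 = Fin 3 → ℝ`.
-/

namespace Vale.Agent.P113

open Set MeasureTheory
open scoped ContDiff

/-- `ℝ^3`; points of the flat torus are represented by their lifts. -/
abbrev R3 : Type := Fin 3 → ℝ

/-- `g` is 1-periodic in each coordinate, i.e. it descends to the torus `(ℝ/ℤ)^3`. -/
def TorusPeriodic {β : Type*} (g : R3 → β) : Prop :=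
  ∀ (i : Fin 3) (x : R3), g (x + Pi.single i 1) = g x

/-- The partial derivative `∂ g / ∂ x_i`. -/
noncomputable def pd (i : Fin 3) (g : R3 → ℝ) (x : R3) : ℝ :=
  fderiv ℝ g x (Pi.single i 1)

/-- `(u, p)` is a classical solution on `[0,T] × 𝕋^3` of the forced incompressible
Navier-Stokes system with viscosity `ν`, force `f` and zero initial velocity:
`u`, `∂_t u`, the spatial derivatives of `u` up to order two, `p` and `∇ p` are continuous on
`[0,T] × 𝕋^3`, `p` has spatial mean zero, and the equations hold pointwise. -/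
structure IsClassicalSolution (ν : ℝ) (f : ℝ → R3 → R3) (T : ℝ)
    (u : ℝ → R3 → R3) (p : ℝ → R3 → ℝ) : Prop where
  u_periodic : ∀ t ∈ Icc (0 : ℝ) T, TorusPeriodic (u t)
  p_periodic : ∀ t ∈ Icc (0 : ℝ) T, TorusPeriodic (p t)
  u_C2 : ∀ t ∈ Icc (0 : ℝ) T, ContDiff ℝ 2 (u t)
  p_C1 : ∀ t ∈ Icc (0 : ℝ) T, ContDiff ℝ 1 (p t)
  u_diff_t : ∀ t ∈ Icc (0 : ℝ) T, ∀ x : R3,
    DifferentiableWithinAt ℝ (fun s => u s x) (Icc (0 : ℝ) T) t
  cont_u : ContinuousOn (fun q : ℝ × R3 => u q.1 q.2) (Icc (0 : ℝ) T ×ˢ univ)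
  cont_ut : ContinuousOn (fun q : ℝ × R3 => derivWithin (fun s => u s q.2) (Icc (0 : ℝ) T) q.1)
    (Icc (0 : ℝ) T ×ˢ univ)
  cont_du : ∀ i j : Fin 3,
    ContinuousOn (fun q : ℝ × R3 => pd j (fun y => u q.1 y i) q.2) (Icc (0 : ℝ) T ×ˢ univ)
  cont_ddu : ∀ i j k : Fin 3,
    ContinuousOn (fun q : ℝ × R3 => pd k (pd j (fun y => u q.1 y i)) q.2) (Icc (0 : ℝ) T ×ˢ univ)
  cont_p : ContinuousOn (fun q : ℝ × R3 => p q.1 q.2) (Icc (0 : ℝ) T ×ˢ univ)
  cont_dp : ∀ i : Fin 3,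
    ContinuousOn (fun q : ℝ × R3 => pd i (p q.1) q.2) (Icc (0 : ℝ) T ×ˢ univ)
  p_mean : ∀ t ∈ Icc (0 : ℝ) T, ∫ x in Icc (0 : R3) 1, p t x = 0
  momentum : ∀ t ∈ Icc (0 : ℝ) T, ∀ (x : R3) (i : Fin 3),
    derivWithin (fun s => u s x i) (Icc (0 : ℝ) T) t + ∑ j, u t x j * pd j (fun y => u t y i) x
      = - pd i (p t) x + ν * ∑ j, pd j (pd j (fun y => u t y i)) x + f t x i
  div_free : ∀ t ∈ Icc (0 : ℝ) T, ∀ x : R3, ∑ i, pd i (fun y => u t y i) x = 0
  initial : ∀ x : R3, u 0 x = 0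

/-- `(u, p)` is a global smooth solution. -/
structure IsGlobalSmoothSolution (ν : ℝ) (f : ℝ → R3 → R3)
    (u : ℝ → R3 → R3) (p : ℝ → R3 → ℝ) : Prop where
  smooth_u : ContDiff ℝ ∞ (fun q : ℝ × R3 => u q.1 q.2)
  smooth_p : ContDiff ℝ ∞ (fun q : ℝ × R3 => p q.1 q.2)
  classical : ∀ T : ℝ, 0 < T → IsClassicalSolution ν f T u p

/-- `X` is the particle trajectory of the velocity field `u` starting from `a` (lifted to `ℝ^3`). -/
def IsTrajectory (u : ℝ → R3 → R3) (a : R3) (X : ℝ → R3) : Prop :=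
  X 0 = a ∧ ∀ t : ℝ, 0 ≤ t → HasDerivWithinAt X (u t (X t)) (Ici 0) t

/-- The force for which a given velocity field solves Navier-Stokes with zero pressure. -/
noncomputable def forceOf (ν : ℝ) (u : ℝ → R3 → R3) (t : ℝ) (x : R3) : R3 := fun i =>
  deriv (fun s => u s x i) t + ∑ j, u t x j * pd j (fun y => u t y i) x
    - ν * ∑ j, pd j (pd j (fun y => u t y i)) x

end Vale.Agent.P113
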