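import Vale.Agent.P113.Follow

/-!
# P113: halting detection by the trajectory
-/

namespace Vale.Agent.P113

open Set MeasureTheory Filter
open scoped ContDiff Topology

variable {M : TM} {w : List ℕ} {X : ℝ → R3}

theorem halt_end_mem {K : ℕ} (hK : 8 ≤ K) {x : ℝ} (h0 : 1 / 4 ≤ x) (h1 : x ≤ 1 / 2) :
    5 / 8 + (x - 5 / 8) * (1 / (K : ℝ)) ∈ Ioo (9 / 16 : ℝ) (11 / 16) := by
  have hKR : (8:ℝ) ≤ K := by exact_mod_cast hK
  have hpos : (0:ℝ) < 1 / (K:ℝ) := by positivity
  have hle : 1 / (K:ℝ) ≤ 1 / 8 := by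
    apply one_div_le_one_div_of_le (by norm_num) hKR
  constructor <;> nlinarith

theorem slot_halt (hX : IsTrajectory (velM M w) aStar X) {N : ℕ} (hN : 1 ≤ N)
    (hXN : X N = point (2 ^ M.m) (runM M w (cnt N)))
    (hD : DigitsOK M.m (runM M w (cnt N)))
    (h1 : 1 ≤ N % 12) (h2 : N % 12 ≤ 10) (hop : (opM M w (cnt N)).1 = 3) :
    X ((N + 1 : ℕ) : ℝ) ∈ targetO := by
  have hK := M.two_m_le
  have hm := M.one_le_m
  obtain ⟨hc1, hc2⟩ := cnt_active h1 h2
  set n := cnt N with hn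
  set j := n % 10 with hjdef
  have hj : j < 10 := Nat.mod_lt _ (by norm_num)
  have hNj : N % 12 = j + 1 := by omega
  set c := runM M w n with hc
  have hopM : opM M w n = opOf M.K M.tab j c := rfl
  rw [hopM] at hop
  set o := opOf M.K M.tab j c with hodef
  have e1 : opSig o = 1 := by simp [opSig, hop]
  have e2 : opFix (2 ^ M.m) o = 5 / 8 := by simp [opFix, hop]
  have hsub : ((N + 1 : ℕ) : ℝ) - N = 1 := by push_cast; ring
  have hmemI : ((N + 1 : ℕ) : ℝ) ∈ Icc (N : ℝ) (N + 1) :=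
    ⟨by push_cast; linarith, by push_cast; linarith⟩
  by_cases hf : actsOnFirst j
  · have hoo : o = M.tab j (blockIdx (2 ^ M.m) c.2) := by
      simp [hodef, opOf, hf]; rfl
    have hpos0 := pos_mem hK hm hD.1
    have hposy := pos_mem hK hm hD.2
    have hend := halt_end_mem M.eight_le_K hpos0.1 hpos0.2
    have hmem := pathC_mem (c := (M.m : ℝ) * Real.log 2 * opSig o) (P := opFix (2 ^ M.m) o)
      (x₀ := pos (2 ^ M.m) c.1) (lo := 1 / 4) (hi := 11 / 16) ⟨hpos0.1, by linarith [hpos0.2]⟩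
      (by rw [e1, e2, mul_one, exp_neg_klog]; exact ⟨by linarith [hend.1], hend.2.le⟩)
    have key := traj_slot_first hX hN hj hNj hf (x₀ := pos (2 ^ M.m) c.1) (y₀ := pos (2 ^ M.m) c.2)
      (c := (M.m : ℝ) * Real.log 2 * opSig o) (P := opFix (2 ^ M.m) o) hXN
      (by linarith [hposy.1]) (by linarith [hposy.2])
      (by rw [tabfun_pos hK hm _ hD.2]; unfold g0; rw [← hoo])
      (by rw [tabfun_pos hK hm _ hD.2]; unfold g1; rw [← hoo])
      (fun s => ⟨by linarith [(hmem s).1], by linarith [(hmem s).2]⟩)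
    rw [key _ hmemI, hsub, pathC_one, e1, e2, mul_one, exp_neg_klog]
    exact ⟨0, Or.inl (by simpa using hend)⟩
  · have hoo : o = M.tab j (blockIdx (2 ^ M.m) c.1) := by
      simp [hodef, opOf, hf]; rfl
    have hpos0 := pos_mem hK hm hD.2
    have hposy := pos_mem hK hm hD.1
    have hend := halt_end_mem M.eight_le_K hpos0.1 hpos0.2
    have hmem := pathC_mem (c := (M.m : ℝ) * Real.log 2 * opSig o) (P := opFix (2 ^ M.m) o)
      (x₀ := pos (2 ^ M.m) c.2) (lo := 1 / 4) (hi := 11 / 16) ⟨hpos0.1, by linarith [hpos0.2]⟩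
      (by rw [e1, e2, mul_one, exp_neg_klog]; exact ⟨by linarith [hend.1], hend.2.le⟩)
    have key := traj_slot_second hX hN hj hNj hf (x₀ := pos (2 ^ M.m) c.2) (y₀ := pos (2 ^ M.m) c.1)
      (c := (M.m : ℝ) * Real.log 2 * opSig o) (P := opFix (2 ^ M.m) o) hXN
      (by linarith [hposy.1]) (by linarith [hposy.2])
      (by rw [tabfun_pos hK hm _ hD.1]; unfold g0; rw [← hoo])
      (by rw [tabfun_pos hK hm _ hD.1]; unfold g1; rw [← hoo])
      (fun s => ⟨by linarith [(hmem s).1], by linarith [(hmem s).2]⟩)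
    rw [key _ hmemI, hsub, pathC_one, e1, e2, mul_one, exp_neg_klog]
    exact ⟨0, Or.inr (by simpa using hend)⟩

/-- the initial slot -/
theorem slot_init (hX : IsTrajectory (velM M w) aStar X) (hD : DigitsOK M.m (runM M w 0)) :
    X ((1 : ℕ) : ℝ) = point (2 ^ M.m) (runM M w (cnt 1)) ∧ ∀ t ∈ Icc (0 : ℝ) 1, Safe (X t) := by
  have h := traj_slot_init hX
  have hK := M.two_m_le
  have hm := M.one_le_m
  have hrun : runM M w 0 = ([], M.initB w) := rfl
  rw [hrun] at hD
  have hp := pos_mem hK hm hD.2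
  have henc : enc M.K (M.initB w) / 2 = pos (2 ^ M.m) (M.initB w) - 1 / 4 := by
    unfold pos; simp only [TM.K]; ring
  constructor
  · rw [cnt_one, hrun, h _ ⟨by norm_num, by norm_num⟩]
    simp only [Nat.cast_one]
    rw [step_of_one_le le_rfl, henc]
    unfold point aStar pos
    ext i; fin_cases i <;> simp [enc]
  · intro t ht
    rw [h t ht, henc]
    have s0 := step_nonneg t
    have s1 := step_le_one t
    refine ⟨by simp [aStar]; norm_num, ?_⟩
    simp only [aStar, Matrix.cons_val_one, Matrix.cons_val_zero]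
    constructor <;> nlinarith [hp.1, hp.2]

theorem follow (hX : IsTrajectory (velM M w) aStar X) (L : ℕ)
    (hD : ∀ n ≤ L, DigitsOK M.m (runM M w n))
    (hO : ∀ n < L, OpOK M.m (opM M w n) (movingStack (n % 10) (runM M w n))) :
    ∀ N : ℕ, 1 ≤ N → cnt N ≤ L →
      X N = point (2 ^ M.m) (runM M w (cnt N)) ∧ ∀ t ∈ Icc (0 : ℝ) N, Safe (X t) := by
  intro N hN
  induction N, hN using Nat.le_induction with
  | base =>
    intro _
    have := slot_init hX (hD 0 (Nat.zero_le _))
    exact ⟨this.1, by simpa using this.2⟩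
  | succ N hN ih =>
    intro hL
    have hle : cnt N ≤ L := le_trans (cnt_mono_succ N) hL
    obtain ⟨h1, h2⟩ := ih hle
    have := slot_step hX hN h1 (hD _ hle) (fun a b => hO _ (by
      have := (cnt_active a b).1
      omega))
    refine ⟨this.1, ?_⟩
    intro t ht
    rcases le_total t N with h | h
    · exact h2 t ⟨ht.1, h⟩
    · exact this.2.2 t ⟨h, by have := ht.2; push_cast at this; exact this⟩

theorem dynamics (hw : M.ValidInput w) (hX : IsTrajectory (velM M w) aStar X) :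
    (∃ t : ℝ, 0 ≤ t ∧ X t ∈ targetO) ↔ M.Halts w := by
  constructor
  · rintro ⟨t, ht0, ht⟩
    by_contra hH
    have hs := sim_not_halts M w hw hH
    set N := ⌈t⌉₊ + 1 with hNdef
    have := follow hX (cnt N) (fun n _ => (hs n).1) (fun n _ => (hs n).2) N (by omega) le_rfl
    have hsafe := this.2 t ⟨ht0, by
      have := Nat.le_ceil t
      rw [hNdef]; push_cast; linarith⟩
    exact safe_not_target hsafe ht
  · intro hH
    obtain ⟨n₀, h3, hD, hO⟩ := sim_halts M w hw hH
    obtain ⟨c1, c2, c3⟩ := cnt_timeOf n₀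
    have hN : 1 ≤ timeOf n₀ := by unfold timeOf; omega
    have := follow hX n₀ hD hO (timeOf n₀) hN (by rw [c1])
    refine ⟨((timeOf n₀ + 1 : ℕ) : ℝ), Nat.cast_nonneg _, ?_⟩
    apply slot_halt hX hN this.1 (by rw [c1]; exact hD _ le_rfl) c2 c3 (by rw [c1]; exact h3)

end Vale.Agent.P113
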