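import Vale.Agent.P113.Slot

/-!
# P113: positions of stacks, effect of the operations
-/

namespace Vale.Agent.P113

open Set MeasureTheory Filter
open scoped ContDiff Topology

theorem enc_nonneg (K : ℕ) (l : List ℕ) : 0 ≤ enc K l := by
  induction l with
  | nil => simp [enc]
  | cons d l ih => unfold enc; positivity

theorem enc_le_half {K m : ℕ} (hK : 2 * m ≤ K) (hm : 1 ≤ m) {l : List ℕ} (hl : ∀ d ∈ l, d < m) :
    enc K l ≤ 1 / 2 := by
  induction l with
  | nil => simp [enc]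
  | cons d l ih =>
    unfold enc
    have h1 := ih (fun d hd => hl d (List.mem_cons_of_mem _ hd))
    have hd : d + 1 ≤ m := hl d List.mem_cons_self
    have hdR : (d:ℝ) + 1 ≤ m := by exact_mod_cast hd
    have hKR : 2 * (m:ℝ) ≤ K := by exact_mod_cast hK
    have hmR : (1:ℝ) ≤ m := by exact_mod_cast hm
    rw [div_le_iff₀ (by linarith)]
    linarith

theorem enc_unfold {K : ℕ} (l : List ℕ) : enc K l = ((l.headD 0 : ℕ) + enc K l.tail) / K := by
  cases l with
  | nil => simp [enc]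
  | cons d l => simp [enc]

theorem enc_block {K : ℕ} (hK : 1 ≤ K) (l : List ℕ) :
    (K : ℝ) ^ 2 * enc K l = (blockIdx K l : ℕ) + enc K l.tail.tail := by
  have hKR : (K:ℝ) ≠ 0 := by
    have : (1:ℝ) ≤ K := by exact_mod_cast hK
    linarith
  rw [enc_unfold l, enc_unfold l.tail]
  unfold blockIdx
  push_cast
  field_simp
  ring

theorem headD_lt_enc {m : ℕ} (hm : 1 ≤ m) {l : List ℕ} (hl : ∀ d ∈ l, d < m) : l.headD 0 < m := by
  cases l with
  | nil => simpa using (by omega : 0 < m)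
  | cons d l => simpa using hl d List.mem_cons_self

theorem tail_digits {m : ℕ} {l : List ℕ} (hl : ∀ d ∈ l, d < m) : ∀ d ∈ l.tail, d < m :=
  fun d hd => hl d (List.mem_of_mem_tail hd)

theorem blockIdx_lt {K m : ℕ} (hK : 2 * m ≤ K) (hm : 1 ≤ m) {l : List ℕ} (hl : ∀ d ∈ l, d < m) :
    blockIdx K l < K ^ 2 := by
  unfold blockIdx
  have h1 := headD_lt_enc hm hl
  have h2 := headD_lt_enc hm (tail_digits hl)
  have : K * l.headD 0 + l.tail.headD 0 < K * (l.headD 0 + 1) := by
    rw [Nat.mul_add]; omega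
  calc K * l.headD 0 + l.tail.headD 0 < K * (l.headD 0 + 1) := this
    _ ≤ K * K := Nat.mul_le_mul_left _ (by omega)
    _ = K ^ 2 := by ring

theorem pos_mem {K m : ℕ} (hK : 2 * m ≤ K) (hm : 1 ≤ m) {l : List ℕ} (hl : ∀ d ∈ l, d < m) :
    1 / 4 ≤ pos K l ∧ pos K l ≤ 1 / 2 := by
  unfold pos
  have := enc_nonneg K l
  have := enc_le_half hK hm hl
  constructor <;> linarith

/-- exact table look-up at the position of a stack -/
theorem tabfun_pos {K m : ℕ} (hK : 2 * m ≤ K) (hm : 1 ≤ m) (v : ℕ → ℝ) {l : List ℕ}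
    (hl : ∀ d ∈ l, d < m) : tabfun K v (pos K l) = v (blockIdx K l) := by
  have hb := enc_block (K := K) (by omega) l
  have e : (K:ℝ)^2 * (2 * pos K l - 1/2) = (blockIdx K l : ℕ) + enc K l.tail.tail := by
    rw [← hb]; unfold pos; ring
  apply tabfun_eq v (blockIdx_lt hK hm hl)
  · rw [e]; have := enc_nonneg K l.tail.tail; linarith
  · rw [e]; have := enc_le_half hK hm (tail_digits (tail_digits hl)); linarith

theorem exp_neg_klog (k : ℕ) : Real.exp (-((k:ℝ) * Real.log 2)) = 1 / ((2 ^ k : ℕ) : ℝ) := by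
  rw [Real.exp_neg, mul_comm, Real.exp_mul, Real.exp_log (by norm_num)]
  simp

theorem exp_klog (k : ℕ) : Real.exp ((k:ℝ) * Real.log 2) = ((2 ^ k : ℕ) : ℝ) := by
  rw [mul_comm, Real.exp_mul, Real.exp_log (by norm_num)]
  simp

/-- the end point of a legal operation is the position of the new stack -/
theorem pathC_end {k m : ℕ} (hK : 2 * m ≤ 2 ^ k) (hm : 1 ≤ m) {o : ℕ × ℕ} {l : List ℕ}
    (ho : OpOK m o l) :
    (opFix (2 ^ k) o) + (pos (2 ^ k) l - opFix (2 ^ k) o) * Real.exp (-((k:ℝ) * Real.log 2 * opSig o))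
      = pos (2 ^ k) (applyOp o l) := by
  have hKR : (2:ℝ) ≤ ((2 ^ k : ℕ) : ℝ) := by
    have : 2 ≤ 2 ^ k := by omega
    exact_mod_cast this
  set K : ℕ := 2 ^ k with hKdef
  rcases ho with h | ⟨h, _⟩ | ⟨h, hd⟩
  · simp [opSig, applyOp, h]
  · have e1 : opSig o = 1 := by simp [opSig, h]
    have e2 : opFix K o = 1 / 4 + (o.2 : ℝ) / (2 * ((K : ℝ) - 1)) := by simp [opFix, h]
    have e3 : applyOp o l = o.2 :: l := by simp [applyOp, h]
    rw [e1, e2, e3, mul_one, exp_neg_klog, ← hKdef]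
    unfold pos
    simp only [enc]
    have h1 : (K:ℝ) - 1 ≠ 0 := by linarith
    have h2 : (K:ℝ) ≠ 0 := by linarith
    field_simp
    ring
  · have e1 : opSig o = -1 := by simp [opSig, h]
    have e2 : opFix K o = 1 / 4 + (o.2 : ℝ) / (2 * ((K : ℝ) - 1)) := by simp [opFix, h]
    have e3 : applyOp o l = l.tail := by simp [applyOp, h]
    rw [e1, e2, e3]
    have : -((k:ℝ) * Real.log 2 * -1) = (k:ℝ) * Real.log 2 := by ring
    rw [this, exp_klog, ← hKdef]
    unfold pos
    rw [enc_unfold l, hd]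
    have h1 : (K:ℝ) - 1 ≠ 0 := by linarith
    have h2 : (K:ℝ) ≠ 0 := by linarith
    field_simp
    ring

theorem applyOp_digits_enc {m : ℕ} {o : ℕ × ℕ} {l : List ℕ} (ho : OpOK m o l) (hl : ∀ d ∈ l, d < m) :
    ∀ d ∈ applyOp o l, d < m := by
  rcases ho with h | ⟨h, h2⟩ | ⟨h, _⟩
  · simpa [applyOp, h] using hl
  · intro d hd
    simp only [applyOp, h, if_true, List.mem_cons] at hd
    rcases hd with rfl | hd
    · exact h2
    · exact hl d hd
  · have : applyOp o l = l.tail := by simp [applyOp, h]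
    rw [this]; exact tail_digits hl

/-- the path stays between its end points -/
theorem pathC_mem {c P x₀ lo hi : ℝ} (h0 : lo ≤ x₀ ∧ x₀ ≤ hi)
    (h1 : lo ≤ P + (x₀ - P) * Real.exp (-c) ∧ P + (x₀ - P) * Real.exp (-c) ≤ hi) (s : ℝ) :
    lo ≤ pathC c P x₀ s ∧ pathC c P x₀ s ≤ hi := by
  unfold pathC
  have hs0 := step_nonneg s
  have hs1 := step_le_one s
  set E := Real.exp (-(c * step s)) with hE
  set E1 := Real.exp (-c) with hE1
  have hbetween : (E1 ≤ E ∧ E ≤ 1) ∨ (1 ≤ E ∧ E ≤ E1) := by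
    rcases le_total 0 c with hc | hc
    · left
      constructor
      · apply Real.exp_le_exp.2; nlinarith
      · rw [hE, ← Real.exp_zero]; apply Real.exp_le_exp.2; nlinarith
    · right
      constructor
      · rw [hE, ← Real.exp_zero]; apply Real.exp_le_exp.2; nlinarith
      · apply Real.exp_le_exp.2; nlinarith
  rcases le_total 0 (x₀ - P) with hb | hb <;> rcases hbetween with ⟨ha, hb'⟩ | ⟨ha, hb'⟩ <;>
    constructor <;> nlinarith

end Vale.Agent.P113
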