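import Vale.Agent.P113.FieldSmooth
import Vale.Agent.P113.SmoothSol

/-!
# P113: periodicity, divergence, time structure of the velocity field
-/

namespace Vale.Agent.P113

open Set MeasureTheory Filter
open scoped ContDiff Topology

/-! ### periodicity -/

theorem phaseField_periodic (K : ℕ) (first : Prop) [Decidable first] (v0 v1 : ℕ → ℝ) :
    TorusPeriodic (phaseField K first v0 v1) := by
  intro i x
  unfold phaseField Afun AfunD
  fin_cases i <;> simp [per_add_one]

theorem vel_periodic (k : ℕ) (tab : ℕ → ℕ → ℕ × ℕ) (τ : ℝ) (t : ℝ) :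
    TorusPeriodic (vel k tab τ t) := by
  intro i x
  unfold vel
  congr 1
  apply Finset.sum_congr rfl
  intro j _
  rw [phaseField_periodic]

theorem theta_zero (j : ℕ) : theta j 0 = 0 := by
  unfold theta per
  simp only [zero_div, Int.fract_zero, mul_zero, zero_sub]
  apply pulse_eq_zero; left
  have : (0:ℝ) ≤ j := Nat.cast_nonneg j
  linarith

theorem vel_zero (k : ℕ) (tab : ℕ → ℕ → ℕ × ℕ) (τ : ℝ) (x : R3) : vel k tab τ 0 x = 0 := by
  unfold vel
  rw [pulse_eq_zero (Or.inl le_rfl), zero_smul, zero_add]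
  apply Finset.sum_eq_zero
  intro j _
  rw [theta_zero, zero_smul]

/-! ### partial derivatives -/

theorem pd_eq_deriv {g : R3 → ℝ} {x : R3} (hg : DifferentiableAt ℝ g x) (i : Fin 3) :
    pd i g x = deriv (fun s : ℝ => g (x + s • Pi.single i 1)) 0 := by
  unfold pd
  rw [← hg.lineDeriv_eq_fderiv]
  rfl

theorem pd_of_hasDerivAt {g : R3 → ℝ} {x : R3} (hg : DifferentiableAt ℝ g x) (i : Fin 3) {g' : ℝ}
    (h : HasDerivAt (fun s : ℝ => g (x + s • Pi.single i 1)) g' 0) : pd i g x = g' := by
  rw [pd_eq_deriv hg, h.deriv]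

theorem hasDerivAt_per {g : ℝ → ℝ} {δ : ℝ} (hδ : 0 < δ)
    (hg : ∀ x, x ≤ δ ∨ 1 - δ ≤ x → g x = 0) (hs : ContDiff ℝ ∞ g) (x : ℝ) :
    HasDerivAt (per g) (per (deriv g) x) x := by
  have h1 : DifferentiableAt ℝ (per g) x :=
    (per_contDiff hδ hg hs).differentiable (by simp) x
  have h2 := h1.hasDerivAt
  rwa [per_deriv hδ hg] at h2

/-- divergence of a phase field vanishes -/
theorem phaseField_div {K : ℕ} (hK : 1 ≤ K) (first : Prop) [Decidable first] (v0 v1 : ℕ → ℝ)
    (x : R3) : ∑ i, pd i (fun y => phaseField K first v0 v1 y i) x = 0 := by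
  have hd : ∀ i, DifferentiableAt ℝ (fun y => phaseField K first v0 v1 y i) x := fun i =>
    ((contDiff_pi.1 (phaseField_contDiff hK first v0 v1) i).differentiable (by simp)) x
  rw [Fin.sum_univ_three]
  have hw := fun z => hasDerivAt_per (by norm_num) win_supp win_contDiff z
  have hl := fun z => hasDerivAt_per (by norm_num) lin_supp lin_contDiff z
  have hp := fun z => hasDerivAt_per (by norm_num) phi_supp phi_contDiff z
  by_cases h : first
  · have e0 : pd 0 (fun y => phaseField K first v0 v1 y 0) x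
        = per (deriv phi) (x 2) * AfunD K v0 v1 (x 0) (x 1) := by
      apply pd_of_hasDerivAt (hd 0)
      have hW : HasDerivAt (fun s : ℝ => per win (x 0 + s)) (per (deriv win) (x 0)) 0 :=
        HasDerivAt.comp_const_add (x 0) 0 (by simpa using hw (x 0))
      have hL : HasDerivAt (fun s : ℝ => per lin (x 0 + s)) (per (deriv lin) (x 0)) 0 :=
        HasDerivAt.comp_const_add (x 0) 0 (by simpa using hl (x 0))
      have := ((hW.mul_const (per (tabfun K v1) (x 1))).sub
        (hL.mul_const (per (tabfun K v0) (x 1)))).const_mul (per (deriv phi) (x 2))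
      simpa [phaseField, h, Afun, AfunD, Pi.single_apply] using this
    have e1 : pd 1 (fun y => phaseField K first v0 v1 y 1) x = 0 := by
      apply pd_of_hasDerivAt (hd 1)
      simpa [phaseField, h] using hasDerivAt_const (0:ℝ) (0:ℝ)
    have e2 : pd 2 (fun y => phaseField K first v0 v1 y 2) x
        = - (per (deriv phi) (x 2) * AfunD K v0 v1 (x 0) (x 1)) := by
      apply pd_of_hasDerivAt (hd 2)
      have hP : HasDerivAt (fun s : ℝ => per phi (x 2 + s)) (per (deriv phi) (x 2)) 0 :=
        HasDerivAt.comp_const_add (x 2) 0 (by simpa using hp (x 2))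
      have key : HasDerivAt (fun s : ℝ => -(per phi (x 2 + s) * AfunD K v0 v1 (x 0) (x 1)))
          (-(per (deriv phi) (x 2) * AfunD K v0 v1 (x 0) (x 1))) 0 :=
        (hP.mul_const (AfunD K v0 v1 (x 0) (x 1))).neg
      simpa [phaseField, h, Pi.single_apply] using key
    rw [e0, e1, e2]; ring
  · have e0 : pd 0 (fun y => phaseField K first v0 v1 y 0) x = 0 := by
      apply pd_of_hasDerivAt (hd 0)
      simpa [phaseField, h] using hasDerivAt_const (0:ℝ) (0:ℝ)
    have e1 : pd 1 (fun y => phaseField K first v0 v1 y 1) x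
        = per (deriv phi) (x 2) * AfunD K v0 v1 (x 1) (x 0) := by
      apply pd_of_hasDerivAt (hd 1)
      have hW : HasDerivAt (fun s : ℝ => per win (x 1 + s)) (per (deriv win) (x 1)) 0 :=
        HasDerivAt.comp_const_add (x 1) 0 (by simpa using hw (x 1))
      have hL : HasDerivAt (fun s : ℝ => per lin (x 1 + s)) (per (deriv lin) (x 1)) 0 :=
        HasDerivAt.comp_const_add (x 1) 0 (by simpa using hl (x 1))
      have := ((hW.mul_const (per (tabfun K v1) (x 0))).sub
        (hL.mul_const (per (tabfun K v0) (x 0)))).const_mul (per (deriv phi) (x 2))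
      simpa [phaseField, h, Afun, AfunD, Pi.single_apply] using this
    have e2 : pd 2 (fun y => phaseField K first v0 v1 y 2) x
        = - (per (deriv phi) (x 2) * AfunD K v0 v1 (x 1) (x 0)) := by
      apply pd_of_hasDerivAt (hd 2)
      have hP : HasDerivAt (fun s : ℝ => per phi (x 2 + s)) (per (deriv phi) (x 2)) 0 :=
        HasDerivAt.comp_const_add (x 2) 0 (by simpa using hp (x 2))
      have key : HasDerivAt (fun s : ℝ => -(per phi (x 2 + s) * AfunD K v0 v1 (x 1) (x 0)))
          (-(per (deriv phi) (x 2) * AfunD K v0 v1 (x 1) (x 0))) 0 :=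
        (hP.mul_const (AfunD K v0 v1 (x 1) (x 0))).neg
      simpa [phaseField, h, Pi.single_apply] using key
    rw [e0, e1, e2]; ring



theorem vel_apply (k : ℕ) (tab : ℕ → ℕ → ℕ × ℕ) (τ t : ℝ) (y : R3) (i : Fin 3) :
    vel k tab τ t y i = pulse t * (![0, τ, 0] : R3) i + ∑ j ∈ Finset.range 10,
      theta j t * phaseField (2 ^ k) (actsOnFirst j) (g0 k tab j) (g1 k tab j) y i := by
  unfold vel
  simp only [Pi.add_apply, Pi.smul_apply, Finset.sum_apply, smul_eq_mul]

theorem pd_vel (k : ℕ) (tab : ℕ → ℕ → ℕ × ℕ) (τ t : ℝ) (x : R3) (i l : Fin 3) :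
    pd l (fun y => vel k tab τ t y i) x = ∑ j ∈ Finset.range 10,
      theta j t * pd l (fun y => phaseField (2 ^ k) (actsOnFirst j) (g0 k tab j) (g1 k tab j) y i) x := by
  have hd : ∀ j, DifferentiableAt ℝ
      (fun y => phaseField (2 ^ k) (actsOnFirst j) (g0 k tab j) (g1 k tab j) y i) x := fun j =>
    ((contDiff_pi.1 (phaseField_contDiff Nat.one_le_two_pow _ _ _) i).differentiable (by simp)) x
  unfold pd
  have : (fun y => vel k tab τ t y i) = fun y => pulse t * (![0, τ, 0] : R3) i +
      ∑ j ∈ Finset.range 10,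
      theta j t * phaseField (2 ^ k) (actsOnFirst j) (g0 k tab j) (g1 k tab j) y i := by
    funext y; exact vel_apply k tab τ t y i
  rw [this, fderiv_const_add, fderiv_fun_sum (fun j _ => (hd j).const_mul _)]
  simp only [_root_.sum_apply]
  apply Finset.sum_congr rfl
  intro j _
  rw [fderiv_const_mul (hd j)]
  simp

theorem vel_div (k : ℕ) (tab : ℕ → ℕ → ℕ × ℕ) (τ t : ℝ) (x : R3) :
    ∑ i, pd i (fun y => vel k tab τ t y i) x = 0 := by
  simp only [pd_vel]
  rw [Finset.sum_comm]
  apply Finset.sum_eq_zero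
  intro j _
  rw [← Finset.mul_sum, phaseField_div Nat.one_le_two_pow, mul_zero]



theorem deriv_pulse_eq_zero {t : ℝ} (ht : 1 ≤ t) : deriv pulse t = 0 := by
  apply IsLocalMin.deriv_eq_zero
  apply Filter.Eventually.of_forall
  intro s
  rw [pulse_eq_zero (Or.inr ht)]
  exact pulse_nonneg s

theorem vel_eq_of_one_le (k : ℕ) (tab : ℕ → ℕ → ℕ × ℕ) (τ τ' : ℝ) {t : ℝ} (ht : 1 ≤ t) :
    vel k tab τ t = vel k tab τ' t := by
  funext x
  unfold vel
  rw [pulse_eq_zero (Or.inr ht), zero_smul, zero_smul]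

theorem deriv_vel_eq_of_one_le (k : ℕ) (tab : ℕ → ℕ → ℕ × ℕ) (τ τ' : ℝ) {t : ℝ} (ht : 1 ≤ t)
    (x : R3) (i : Fin 3) :
    deriv (fun s => vel k tab τ s x i) t = deriv (fun s => vel k tab τ' s x i) t := by
  have key : ∀ σ : ℝ, deriv (fun s => vel k tab σ s x i) t = deriv (fun s => ∑ j ∈ Finset.range 10,
      theta j s * phaseField (2 ^ k) (actsOnFirst j) (g0 k tab j) (g1 k tab j) x i) t := by
    intro σ
    have h1 : (fun s => vel k tab σ s x i) = fun s => pulse s * (![0, σ, 0] : R3) i +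
        ∑ j ∈ Finset.range 10,
          theta j s * phaseField (2 ^ k) (actsOnFirst j) (g0 k tab j) (g1 k tab j) x i := by
      funext s; exact vel_apply k tab σ s x i
    have hp : DifferentiableAt ℝ pulse t := pulse_contDiff.differentiable (by simp) t
    have hs : DifferentiableAt ℝ (fun s => ∑ j ∈ Finset.range 10,
        theta j s * phaseField (2 ^ k) (actsOnFirst j) (g0 k tab j) (g1 k tab j) x i) t := by
      apply DifferentiableAt.fun_sum
      intro j hj
      exact (((theta_contDiff j (Finset.mem_range.1 hj)).differentiable (by simp)) t).mul_const _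
    rw [h1, deriv_fun_add (hp.mul_const _) hs, deriv_mul_const hp, deriv_pulse_eq_zero ht]
    simp
  rw [key τ, key τ']

theorem forceOf_vel_eq_of_one_le (ν : ℝ) (k : ℕ) (tab : ℕ → ℕ → ℕ × ℕ) (τ τ' : ℝ) {t : ℝ}
    (ht : 1 ≤ t) : forceOf ν (vel k tab τ) t = forceOf ν (vel k tab τ') t := by
  funext x i
  unfold forceOf
  rw [deriv_vel_eq_of_one_le k tab τ τ' ht, vel_eq_of_one_le k tab τ τ' ht]

theorem forceOf_time_periodic (ν : ℝ) {u : ℝ → R3 → R3} {P : ℝ} (hu : ∀ s, u (s + P) = u s)
    (t : ℝ) : forceOf ν u (t + P) = forceOf ν u t := by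
  funext x i
  unfold forceOf
  have h1 : deriv (fun s => u s x i) (t + P) = deriv (fun s => u s x i) t := by
    have := deriv_comp_add_const (fun s => u s x i) P t
    rw [← this]
    simp only [hu]
  rw [h1, hu]

theorem vel_zero_time_periodic (k : ℕ) (tab : ℕ → ℕ → ℕ × ℕ) (s : ℝ) :
    vel k tab 0 (s + 12) = vel k tab 0 s := by
  funext x
  unfold vel
  have : (![0, 0, 0] : R3) = 0 := by ext i; fin_cases i <;> rfl
  simp only [this, smul_zero, theta_add_period]

theorem forceOf_vel_periodic (ν : ℝ) (k : ℕ) (tab : ℕ → ℕ → ℕ × ℕ) (τ : ℝ) {t : ℝ}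
    (ht : 1 ≤ t) : forceOf ν (vel k tab τ) (t + 12) = forceOf ν (vel k tab τ) t := by
  rw [forceOf_vel_eq_of_one_le ν k tab τ 0 ht,
    forceOf_vel_eq_of_one_le ν k tab τ 0 (by linarith : (1:ℝ) ≤ t + 12)]
  exact forceOf_time_periodic ν (vel_zero_time_periodic k tab) t

end Vale.Agent.P113
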