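import Vale.Agent.P113.Main
import Vale.Agent.P113.Compiler

/-!
# P113: the full statement (positive answer to Q1)
-/

namespace Vale.Agent.P113

open Set
open scoped ContDiff

theorem final (ν : ℝ) (hν : 0 < ν) (hc : ComputableReal ν) :
    ∃ (a : R3) (O : Set R3) (f : TM → List ℕ → ℝ → R3 → R3)
      (compiler : TM × List ℕ → Nat.Partrec.Code) (T₀ : ℝ),
      IsOpen O ∧ (∀ (i : Fin 3) (x : R3), x + Pi.single i 1 ∈ O ↔ x ∈ O) ∧
      Computable compiler ∧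
      (∀ (M : TM) (w : List ℕ), ContDiff ℝ ∞ (fun q : ℝ × R3 => f M w q.1 q.2) ∧
        (∀ t, TorusPeriodic (f M w t)) ∧ IsProgramFor (compiler (M, w)) (f M w)) ∧
      (∀ M : TM, ∃ P : ℝ, 0 < P ∧ ∀ (w w' : List ℕ) (t : ℝ), T₀ ≤ t →
        f M w t = f M w' t ∧ f M w (t + P) = f M w t) ∧
      ∀ (M : TM) (w : List ℕ), M.ValidInput w →
        ∃ (u : ℝ → R3 → R3) (p : ℝ → R3 → ℝ),
          IsGlobalSmoothSolution ν (f M w) u p ∧
          (∀ (T : ℝ), 0 < T → ∀ (u' : ℝ → R3 → R3) (p' : ℝ → R3 → ℝ),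
            IsClassicalSolution ν (f M w) T u' p' →
              ∀ t ∈ Icc (0 : ℝ) T, u' t = u t ∧ p' t = p t) ∧
          (∃ X : ℝ → R3, IsTrajectory u a X) ∧
          ∀ X : ℝ → R3, IsTrajectory u a X →
            ((∃ t : ℝ, 0 ≤ t ∧ X t ∈ O) ↔ M.Halts w) := by
  obtain ⟨h1, h2, h3, h4, h5⟩ := main_dynamics ν hν
  obtain ⟨compiler, hcomp, hprog⟩ := exists_compiler ν hc
  refine ⟨aStar, targetO, forceM ν, compiler, 1, h1, h2, hcomp, ?_, ?_, ?_⟩
  · intro M w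
    exact ⟨(h3 M w).1, (h3 M w).2, hprog M w⟩
  · intro M
    exact ⟨12, by norm_num, fun w w' t ht => h4 M w w' t ht⟩
  · intro M w hw
    exact ⟨velM M w, fun _ _ => 0, h5 M w hw⟩

end Vale.Agent.P113
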