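import Vale.Agent.P113.SimTape

/-!
# P113 subtask A: the two-stack phase program simulates the Turing machine
-/

namespace Vale.Agent.P113

open Turing

/-- the run of the phase program of `M` on input `w` -/
def runM (M : TM) (w : List ℕ) (n : ℕ) : List ℕ × List ℕ := run M.K M.tab ([], M.initB w) n

/-- the operation performed in the `n`-th phase -/
def opM (M : TM) (w : List ℕ) (n : ℕ) : ℕ × ℕ := opOf M.K M.tab (n % 10) (runM M w n)

/-! ### generalities on phases -/

/-- everything is legal before phase `N` -/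
def LegalUpTo (M : TM) (w : List ℕ) (N : ℕ) : Prop :=
  (∀ n ≤ N, DigitsOK M.m (runM M w n)) ∧
    ∀ n < N, OpOK M.m (opM M w n) (movingStack (n % 10) (runM M w n))

/-- the configuration with written stack `X` and read stack `Y` at the start of a sub-cycle -/
def mkc (mode : ℕ) (X Y : List ℕ) : List ℕ × List ℕ := if mode = 0 then (X, Y) else (Y, X)

theorem headD_lt {m : ℕ} (hm : 0 < m) {l : List ℕ} (h : ∀ d ∈ l, d < m) : l.headD 0 < m := by
  cases l with
  | nil => exact hm
  | cons a t => exact h a (by simp)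

theorem m_pos (M : TM) : 0 < M.m := by unfold TM.m; omega

theorem m_lt_K (M : TM) : M.m < M.K := Nat.lt_two_pow_self

theorem blockIdx_div (M : TM) {l : List ℕ} (h : ∀ d ∈ l, d < M.m) :
    blockIdx M.K l / M.K = l.headD 0 := by
  have h2 : l.tail.headD 0 < M.K :=
    lt_trans (headD_lt (m_pos M) (fun d hd => h d (List.mem_of_mem_tail hd))) (m_lt_K M)
  unfold blockIdx
  rw [Nat.mul_add_div (by omega), Nat.div_eq_of_lt h2, Nat.add_zero]

theorem blockIdx_mod (M : TM) {l : List ℕ} (h : ∀ d ∈ l, d < M.m) :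
    blockIdx M.K l % M.K = l.tail.headD 0 := by
  have h2 : l.tail.headD 0 < M.K :=
    lt_trans (headD_lt (m_pos M) (fun d hd => h d (List.mem_of_mem_tail hd))) (m_lt_K M)
  unfold blockIdx
  rw [Nat.mul_add_mod, Nat.mod_eq_of_lt h2]

theorem applyOp_digits {m : ℕ} {o : ℕ × ℕ} {l : List ℕ} (h : ∀ d ∈ l, d < m) (ho : OpOK m o l) :
    ∀ d ∈ applyOp o l, d < m := by
  unfold applyOp
  rcases ho with h0 | ⟨h1, h2⟩ | ⟨h1, -⟩
  · rw [h0]; simpa using h
  · rw [h1]
    intro d hd
    simp only [if_true] at hd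
    rcases List.mem_cons.1 hd with rfl | hd
    · exact h2
    · exact h d hd
  · rw [h1]
    intro d hd
    simp only [OfNat.ofNat_ne_one, if_false, if_true] at hd
    exact h d (List.mem_of_mem_tail hd)

theorem LegalUpTo.succ {M : TM} {w : List ℕ} {N : ℕ} (h : LegalUpTo M w N)
    (ho : OpOK M.m (opM M w N) (movingStack (N % 10) (runM M w N))) : LegalUpTo M w (N + 1) := by
  refine ⟨fun n hn => ?_, fun n hn => ?_⟩
  · rcases Nat.lt_or_ge n (N + 1) with h1 | h1
    · exact h.1 n (by omega)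
    · have : n = N + 1 := by omega
      subst this
      have hd := h.1 N le_rfl
      show DigitsOK M.m (stepPhase M.K M.tab (N % 10) (runM M w N))
      unfold stepPhase
      unfold movingStack at ho
      by_cases hj : actsOnFirst (N % 10)
      · rw [if_pos hj] at ho ⊢
        exact ⟨applyOp_digits hd.1 ho, hd.2⟩
      · rw [if_neg hj] at ho ⊢
        exact ⟨hd.1, applyOp_digits hd.2 ho⟩
  · rcases Nat.lt_or_ge n N with h1 | h1
    · exact h.2 n h1
    · have : n = N := by omega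
      subst this
      exact ho

theorem phaseX {M : TM} {w : List ℕ} {n mode : ℕ} {X Y : List ℕ} (hm : mode < 2) {j : ℕ}
    (hj : j < 2) (hn : n % 10 = 5 * mode + j) (hrun : runM M w n = mkc mode X Y)
    (hleg : LegalUpTo M w n) :
    opM M w n = (if j = 0 then M.p1 mode (Y.headD 0) (Y.tail.headD 0)
      else M.p2 mode (Y.headD 0) (Y.tail.headD 0)) ∧
    (OpOK M.m (opM M w n) X →
      runM M w (n + 1) = mkc mode (applyOp (opM M w n) X) Y ∧ LegalUpTo M w (n + 1)) := by
  have hd := hleg.1 n le_rfl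
  rw [hrun] at hd
  have hm' : mode = 0 ∨ mode = 1 := by omega
  have hj' : j = 0 ∨ j = 1 := by omega
  have hY : ∀ d ∈ Y, d < M.m := by
    rcases hm' with rfl | rfl
    · exact hd.2
    · exact hd.1
  have hop : opM M w n = (if j = 0 then M.p1 mode (Y.headD 0) (Y.tail.headD 0)
      else M.p2 mode (Y.headD 0) (Y.tail.headD 0)) := by
    unfold opM opOf
    rw [hrun, hn]
    rcases hm' with rfl | rfl <;> rcases hj' with rfl | rfl <;>
      simp [actsOnFirst, mkc, TM.tab, blockIdx_div M hY, blockIdx_mod M hY]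
  refine ⟨hop, fun hok => ?_⟩
  have hmov : movingStack (n % 10) (runM M w n) = X := by
    unfold movingStack
    rw [hrun, hn]
    rcases hm' with rfl | rfl <;> rcases hj' with rfl | rfl <;> simp [actsOnFirst, mkc]
  refine ⟨?_, hleg.succ (by rw [hmov]; exact hok)⟩
  show stepPhase M.K M.tab (n % 10) (runM M w n) = _
  unfold stepPhase
  have : opOf M.K M.tab (n % 10) (runM M w n) = opM M w n := rfl
  rw [this, hrun, hn]
  rcases hm' with rfl | rfl <;> rcases hj' with rfl | rfl <;> simp [actsOnFirst, mkc]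

theorem phaseY {M : TM} {w : List ℕ} {n mode : ℕ} {X Y : List ℕ} (hm : mode < 2) {j : ℕ}
    (hj : j < 3) (hn : n % 10 = 5 * mode + 2 + j) (hrun : runM M w n = mkc mode X Y)
    (hleg : LegalUpTo M w n) :
    opM M w n = (if j = 0 then M.p3 mode (X.headD 0) (X.tail.headD 0)
      else if j = 1 then M.p4 mode (X.headD 0) (X.tail.headD 0)
      else M.p5 mode (X.headD 0) (X.tail.headD 0)) ∧
    (OpOK M.m (opM M w n) Y →
      runM M w (n + 1) = mkc mode X (applyOp (opM M w n) Y) ∧ LegalUpTo M w (n + 1)) := by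
  have hd := hleg.1 n le_rfl
  rw [hrun] at hd
  have hm' : mode = 0 ∨ mode = 1 := by omega
  have hj' : j = 0 ∨ j = 1 ∨ j = 2 := by omega
  have hX : ∀ d ∈ X, d < M.m := by
    rcases hm' with rfl | rfl
    · exact hd.1
    · exact hd.2
  have hop : opM M w n = (if j = 0 then M.p3 mode (X.headD 0) (X.tail.headD 0)
      else if j = 1 then M.p4 mode (X.headD 0) (X.tail.headD 0)
      else M.p5 mode (X.headD 0) (X.tail.headD 0)) := by
    unfold opM opOf
    rw [hrun, hn]
    rcases hm' with rfl | rfl <;> rcases hj' with rfl | rfl | rfl <;>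
      simp [actsOnFirst, mkc, TM.tab, blockIdx_div M hX, blockIdx_mod M hX]
  refine ⟨hop, fun hok => ?_⟩
  have hmov : movingStack (n % 10) (runM M w n) = Y := by
    unfold movingStack
    rw [hrun, hn]
    rcases hm' with rfl | rfl <;> rcases hj' with rfl | rfl | rfl <;> simp [actsOnFirst, mkc]
  refine ⟨?_, hleg.succ (by rw [hmov]; exact hok)⟩
  show stepPhase M.K M.tab (n % 10) (runM M w n) = _
  unfold stepPhase
  have : opOf M.K M.tab (n % 10) (runM M w n) = opM M w n := rfl
  rw [this, hrun, hn]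
  rcases hm' with rfl | rfl <;> rcases hj' with rfl | rfl | rfl <;> simp [actsOnFirst, mkc]

theorem half_run {M : TM} {w : List ℕ} {n mode : ℕ} {X Y : List ℕ} (hm : mode < 2)
    (hn : n % 10 = 5 * mode) (hrun : runM M w n = mkc mode X Y) (hleg : LegalUpTo M w n)
    {o1 o2 o3 o4 o5 : ℕ × ℕ} {X2 : List ℕ}
    (h1 : M.p1 mode (Y.headD 0) (Y.tail.headD 0) = o1)
    (h2 : M.p2 mode (Y.headD 0) (Y.tail.headD 0) = o2)
    (hX2 : applyOp o2 (applyOp o1 X) = X2)
    (h3 : M.p3 mode (X2.headD 0) (X2.tail.headD 0) = o3)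
    (h4 : M.p4 mode (X2.headD 0) (X2.tail.headD 0) = o4)
    (h5 : M.p5 mode (X2.headD 0) (X2.tail.headD 0) = o5)
    (l1 : OpOK M.m o1 X) (l2 : OpOK M.m o2 (applyOp o1 X)) (l3 : OpOK M.m o3 Y)
    (l4 : OpOK M.m o4 (applyOp o3 Y)) (l5 : OpOK M.m o5 (applyOp o4 (applyOp o3 Y))) :
    runM M w (n + 5) = mkc mode X2 (applyOp o5 (applyOp o4 (applyOp o3 Y))) ∧
      LegalUpTo M w (n + 5) := by
  obtain ⟨e1, f1⟩ := phaseX hm (j := 0) (by omega) (by omega) hrun hleg
  rw [if_pos rfl, h1] at e1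
  rw [e1] at f1
  obtain ⟨r1, g1⟩ := f1 l1
  obtain ⟨e2, f2⟩ := phaseX hm (j := 1) (by omega) (by omega) r1 g1
  rw [if_neg (by omega), h2] at e2
  rw [e2] at f2
  obtain ⟨r2, g2⟩ := f2 l2
  rw [hX2] at r2
  obtain ⟨e3, f3⟩ := phaseY hm (j := 0) (by omega) (by omega) r2 g2
  rw [if_pos rfl, h3] at e3
  rw [e3] at f3
  obtain ⟨r3, g3⟩ := f3 l3
  obtain ⟨e4, f4⟩ := phaseY hm (j := 1) (by omega) (by omega) r3 g3
  rw [if_neg (by omega), if_pos rfl, h4] at e4
  rw [e4] at f4
  obtain ⟨r4, g4⟩ := f4 l4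
  obtain ⟨e5, f5⟩ := phaseY hm (j := 2) (by omega) (by omega) r4 g4
  rw [if_neg (by omega), if_neg (by omega), h5] at e5
  rw [e5] at f5
  exact f5 l5

theorem kMode_lt (k : ℕ) : TM.kMode k < 2 := by unfold TM.kMode; omega

theorem half_active {M : TM} {w : List ℕ} {n k : ℕ} {X Y' : List ℕ}
    (hn : n % 10 = 5 * TM.kMode k) (hrun : runM M w n = mkc (TM.kMode k) X (M.mkC k :: Y'))
    (hleg : LegalUpTo M w n) {e1 e2 dc : ℕ}
    (h1 : M.p1 (TM.kMode k) (M.mkC k) (Y'.headD 0) = (1, e1))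
    (h2 : M.p2 (TM.kMode k) (M.mkC k) (Y'.headD 0) = (1, e2))
    (he1 : e1 < M.m) (he2 : e2 < M.m)
    (hdec : M.dec (TM.kMode k) e2 e1 = (1, M.mkC k, Y'.headD 0, dc)) (hdc : dc < M.m) :
    runM M w (n + 5) = mkc (TM.kMode k) (e2 :: e1 :: X) (dc :: Y'.tail) ∧
      LegalUpTo M w (n + 5) := by
  have := half_run (kMode_lt k) hn hrun hleg (o1 := (1, e1)) (o2 := (1, e2))
    (o3 := (2, M.mkC k)) (o4 := (2, Y'.headD 0)) (o5 := (1, dc)) (X2 := e2 :: e1 :: X)
    (by simpa using h1) (by simpa using h2) (by simp [applyOp])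
    (by simp [TM.p3, hdec]) (by simp [TM.p4, hdec]) (by simp [TM.p5, hdec])
    (Or.inr (Or.inl ⟨rfl, he1⟩)) (Or.inr (Or.inl ⟨rfl, he2⟩))
    (Or.inr (Or.inr ⟨rfl, by simp⟩)) (Or.inr (Or.inr ⟨rfl, by simp [applyOp]⟩))
    (Or.inr (Or.inl ⟨rfl, hdc⟩))
  simpa [applyOp] using this

theorem half_passive {M : TM} {w : List ℕ} {n mode k : ℕ} {X' Y : List ℕ} (hm : mode < 2)
    (hn : n % 10 = 5 * mode) (hrun : runM M w n = mkc mode (M.mkC k :: X') Y)
    (hleg : LegalUpTo M w n) (hY : Clean M Y) (hk : k < 4 * (M.nQ + 1)) (hc : TM.kCls k = 0) :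
    runM M w (n + 5) = mkc mode (M.mkC k :: X') Y ∧ LegalUpTo M w (n + 5) := by
  have hdec := fun y => M.dec_passive mode k y hk hc
  have := half_run hm hn hrun hleg (o1 := (0, 0)) (o2 := (0, 0))
    (o3 := (0, 0)) (o4 := (0, 0)) (o5 := (0, 0)) (X2 := M.mkC k :: X')
    (M.p1_clean _ _ _ hY.headD) (M.p2_clean _ _ _ hY.headD) (by simp [applyOp])
    (by simp [TM.p3, hdec]) (by simp [TM.p4, hdec]) (by simp [TM.p5, hdec])
    (Or.inl rfl) (Or.inl rfl) (Or.inl rfl) (Or.inl rfl) (Or.inl rfl)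
  simpa [applyOp] using this

theorem mkc_swap {mode : ℕ} (hm : mode < 2) (X Y : List ℕ) :
    mkc mode X Y = mkc (1 - mode) Y X := by
  have hm' : mode = 0 ∨ mode = 1 := by omega
  rcases hm' with rfl | rfl <;> simp [mkc]

/-! ### the representation invariant -/

/-- `At M w n c s`: phase `n` starts a sub-cycle, the stacks represent the configuration `c` of
the Turing machine, with progress measure `s`, and everything was legal so far. -/
inductive At (M : TM) (w : List ℕ) (n : ℕ) : TM.Cfg → ℕ → Prop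
  | act (k : ℕ) (X Y' : List ℕ) (hn : n % 10 = 5 * TM.kMode k)
      (hrun : runM M w n = mkc (TM.kMode k) X (M.mkC k :: Y')) (hleg : LegalUpTo M w n)
      (hk : k < 4 * (M.nQ + 1)) (hX : Clean M X) (hY : Clean M Y') :
      At M w n ⟨TM.kQ k, toTape (TM.kMode k) (ListBlank.mk (plain M Y'))
        (ListBlank.mk (plain M X))⟩ (2 * Y'.length + 2)
  | pas (k : ℕ) (X' Y : List ℕ) (hn : n % 10 = 5 * (1 - TM.kMode k))
      (hrun : runM M w n = mkc (1 - TM.kMode k) (M.mkC k :: X') Y) (hleg : LegalUpTo M w n)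
      (hk : k < 4 * (M.nQ + 1)) (hc : TM.kCls k = 0) (hX : Clean M X') (hY : Clean M Y) :
      At M w n ⟨TM.kQ k, toTape (TM.kMode k) (ListBlank.mk (plain M X'))
        (ListBlank.mk (plain M Y))⟩ (2 * X'.length + 3)

theorem At.legal {M : TM} {w : List ℕ} {n : ℕ} {c : TM.Cfg} {s : ℕ} (h : At M w n c s) :
    LegalUpTo M w n := by
  cases h with
  | act k X Y' hn hrun hleg hk hX hY => exact hleg
  | pas k X' Y hn hrun hleg hk hc hX hY => exact hleg

theorem At.init (M : TM) (w : List ℕ) (hw : M.ValidInput w) :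
    At M w 0 (TM.init w) (2 * w.length + 2) := by
  have hcl : Clean M w := fun d hd => lt_of_le_of_lt (hw d hd) M.nS_lt_base2
  have h := At.act (M := M) (w := w) (n := 0) 0 [] w (by simp [TM.kMode]) (by
      simp [TM.kMode, mkc, runM, run, TM.initB]) ?_ (by omega) (by intro d hd; simp at hd) hcl
  · rw [plain_of_valid M w hw] at h
    exact h
  · refine ⟨fun n hn => ?_, fun n hn => by omega⟩
    have : n = 0 := by omega
    subst this
    refine ⟨by intro d hd; simp [runM, run] at hd, ?_⟩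
    intro d hd
    simp only [runM, run, TM.initB] at hd
    rcases List.mem_cons.1 hd with rfl | hd
    · exact M.mkC_lt_m 0 (by omega)
    · exact hcl.lt_m d hd

theorem At.next {M : TM} {w : List ℕ} {n : ℕ} {c : TM.Cfg} {s : ℕ} (h : At M w n c s)
    (hh : M.isHalt c.q = false) :
    (∃ s', At M w (n + 5) (M.step c) s') ∨ (∃ s', s' < s ∧ At M w (n + 5) c s') := by
  cases h with
  | pas k X' Y hn hrun hleg hk hc hX hY =>
    right
    have hm := kMode_lt k
    obtain ⟨r, g⟩ := half_passive (by omega) hn hrun hleg hY hk hc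
    rw [mkc_swap (by omega)] at r
    have e : 1 - (1 - TM.kMode k) = TM.kMode k := by omega
    rw [e] at r
    exact ⟨_, by omega, At.act k Y X' (by omega) r g hk hY hX⟩
  | act k X Y' hn hrun hleg hk hX hY =>
    have hm := kMode_lt k
    simp only at hh
    rcases M.isSym_or_isRec_of_lt hY.headD with ha | hg
    · have ha' : Y'.headD 0 ≤ M.nS := ha
      have hs : Y'.headD 0 < M.nS + 2 := by omega
      have hrec := M.isRec_recC k _ hk hs
      left
      by_cases hd : TM.dirMatch (M.trans (TM.kQ k) (Y'.headD 0)).2.2 (TM.kMode k)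
      · have hk' := M.kap_lt (M.trans (TM.kQ k) (Y'.headD 0)).1 (TM.kMode k) 0 hm (by omega)
          (M.trans_fst_le _ _)
        obtain ⟨r, g⟩ := half_active hn hrun hleg (M.p1_sym k _ hk hh ha')
          (M.p2_sym_match k _ hk hh ha' hd) (lt_of_lt_of_le hrec.2 M.base2_le_m)
          (lt_of_le_of_lt (M.trans_snd_le _ _) (lt_of_lt_of_le M.nS_lt_base2 M.base2_le_m))
          (M.dec_match k _ hk hh ha' hd) (M.mkC_lt_m _ hk')
        rw [mkc_swap hm] at r
        have e1 := TM.kMode_kap (M.trans (TM.kQ k) (Y'.headD 0)).1 (TM.kMode k) 0 hm (by omega)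
        have hA := At.pas (M := M) (w := w) (n := n + 5)
          (TM.kap (M.trans (TM.kQ k) (Y'.headD 0)).1 (TM.kMode k) 0) Y'.tail
          ((M.trans (TM.kQ k) (Y'.headD 0)).2.1 :: M.recC k (Y'.headD 0) :: X)
          (by rw [e1]; omega) (by rw [e1]; exact r) g hk' (TM.kCls_kap _ _ _ (by omega)) hY.tail
          ((hX.cons hrec.2).cons (lt_of_le_of_lt (M.trans_snd_le _ _) M.nS_lt_base2))
        rw [e1, TM.kQ_kap _ _ _ hm (by omega), plain_cons_sym M _ _ (M.trans_snd_le _ _),
          plain_cons_rec M _ _ hrec] at hA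
        rw [step_match M _ _ _ _ hm (by rw [plain_head_sym M _ ha']; exact hd),
          plain_head_sym M _ ha', plain_tail_sym M _ ha', ListBlank.cons_mk]
        exact ⟨_, hA⟩
      · have hm1 : 1 - TM.kMode k < 2 := by omega
        have hk' := M.kap_lt (M.trans (TM.kQ k) (Y'.headD 0)).1 (1 - TM.kMode k) 1 hm1 (by omega)
          (M.trans_fst_le _ _)
        obtain ⟨r, g⟩ := half_active hn hrun hleg (M.p1_sym k _ hk hh ha')
          (M.p2_sym_turn k _ hk hh ha' hd) (lt_of_lt_of_le hrec.2 M.base2_le_m)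
          (M.mkC_lt_m _ hk')
          (M.dec_turn k _ hk hh ha' hd)
          (lt_of_le_of_lt (M.trans_snd_le _ _) (lt_of_lt_of_le M.nS_lt_base2 M.base2_le_m))
        rw [mkc_swap hm] at r
        have e1 := TM.kMode_kap (M.trans (TM.kQ k) (Y'.headD 0)).1 (1 - TM.kMode k) 1 hm1
          (by omega)
        have hA := At.act (M := M) (w := w) (n := n + 5)
          (TM.kap (M.trans (TM.kQ k) (Y'.headD 0)).1 (1 - TM.kMode k) 1)
          ((M.trans (TM.kQ k) (Y'.headD 0)).2.1 :: Y'.tail) (M.recC k (Y'.headD 0) :: X)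
          (by rw [e1]; omega) (by rw [e1]; exact r) g hk'
          (hY.tail.cons (lt_of_le_of_lt (M.trans_snd_le _ _) M.nS_lt_base2)) (hX.cons hrec.2)
        rw [e1, TM.kQ_kap _ _ _ hm1 (by omega), plain_cons_sym M _ _ (M.trans_snd_le _ _),
          plain_cons_rec M _ _ hrec] at hA
        rw [step_turn M _ _ _ _ hm (by rw [plain_head_sym M _ ha']; exact hd),
          plain_head_sym M _ ha', plain_tail_sym M _ ha', ListBlank.cons_mk]
        exact ⟨_, hA⟩
    · right
      have hs : M.nS + 1 < M.nS + 2 := by omega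
      have hrec := M.isRec_recC k _ hk hs
      have hk' := M.kap_lt (TM.kQ k) (TM.kMode k) 0 hm (by omega) (M.kQ_le k hk)
      obtain ⟨r, g⟩ := half_active hn hrun hleg (M.p1_rec k _ hk hh hg)
        (M.p2_rec k _ hk hh hg) (lt_of_lt_of_le hg.2 M.base2_le_m)
        (lt_of_lt_of_le hrec.2 M.base2_le_m)
        (M.dec_skip k _ hk hh hg) (M.mkC_lt_m _ hk')
      rw [mkc_swap hm] at r
      have e1 := TM.kMode_kap (TM.kQ k) (TM.kMode k) 0 hm (by omega)
      have hA := At.pas (M := M) (w := w) (n := n + 5)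
        (TM.kap (TM.kQ k) (TM.kMode k) 0) Y'.tail
        (M.recC k (M.nS + 1) :: Y'.headD 0 :: X)
        (by rw [e1]; omega) (by rw [e1]; exact r) g hk' (TM.kCls_kap _ _ _ (by omega)) hY.tail
        ((hX.cons hg.2).cons hrec.2)
      obtain ⟨e2, e3⟩ := plain_tail_rec M Y' hg
      rw [e1, TM.kQ_kap _ _ _ hm (by omega), plain_cons_rec M _ _ hrec,
        plain_cons_rec M _ _ hg, e2] at hA
      exact ⟨_, by omega, hA⟩

theorem At.halt {M : TM} {w : List ℕ} {n : ℕ} {c : TM.Cfg} {s : ℕ} (h : At M w n c s)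
    (hh : M.isHalt c.q = true) : ∃ n₀, (opM M w n₀).1 = 3 ∧ LegalUpTo M w n₀ := by
  have key : ∀ (n k : ℕ) (X Y' : List ℕ), n % 10 = 5 * TM.kMode k →
      runM M w n = mkc (TM.kMode k) X (M.mkC k :: Y') → LegalUpTo M w n →
      k < 4 * (M.nQ + 1) → M.isHalt (TM.kQ k) = true →
      ∃ n₀, (opM M w n₀).1 = 3 ∧ LegalUpTo M w n₀ := by
    intro n k X Y' hn hrun hleg hk hh
    refine ⟨n, ?_, hleg⟩
    obtain ⟨e, -⟩ := phaseX (kMode_lt k) (j := 0) (by omega) (by omega) hrun hleg
    rw [e, if_pos rfl]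
    simp only [List.headD_cons, List.tail_cons]
    rw [M.p1_halt k _ hk hh]
  cases h with
  | act k X Y' hn hrun hleg hk hX hY => exact key n k X Y' hn hrun hleg hk hh
  | pas k X' Y hn hrun hleg hk hc hX hY =>
    have hm := kMode_lt k
    obtain ⟨r, g⟩ := half_passive (by omega) hn hrun hleg hY hk hc
    rw [mkc_swap (by omega)] at r
    have e : 1 - (1 - TM.kMode k) = TM.kMode k := by omega
    rw [e] at r
    exact key (n + 5) k Y X' (by omega) r g hk hh

theorem At.progress {M : TM} {w : List ℕ} : ∀ (s n : ℕ) (c : TM.Cfg), At M w n c s →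
    M.isHalt c.q = false → ∃ n' s', At M w n' (M.step c) s' := by
  intro s
  induction s using Nat.strong_induction_on with
  | _ s ih =>
    intro n c h hh
    rcases h.next hh with ⟨s', h'⟩ | ⟨s', hs, h'⟩
    · exact ⟨_, _, h'⟩
    · exact ih s' hs _ c h' hh

/-- If `M` halts on `w`, the halt signal (kind 3) is emitted at some phase `n₀`; up to then all
digits are `< m` and all operations are legal. -/
theorem sim_halts (M : TM) (w : List ℕ) (hw : M.ValidInput w) (h : M.Halts w) :
    ∃ n₀, (opM M w n₀).1 = 3 ∧ (∀ n ≤ n₀, DigitsOK M.m (runM M w n)) ∧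
      ∀ n < n₀, OpOK M.m (opM M w n) (movingStack (n % 10) (runM M w n)) := by
  classical
  have hmin : ∀ i < Nat.find h, M.isHalt ((M.step)^[i] (TM.init w)).q = false := by
    intro i hi
    have := Nat.find_min h hi
    simpa using this
  have reach : ∀ i ≤ Nat.find h, ∃ n s, At M w n ((M.step)^[i] (TM.init w)) s := by
    intro i
    induction i with
    | zero => intro _; exact ⟨_, _, At.init M w hw⟩
    | succ i ih =>
      intro hi
      obtain ⟨n, s, hA⟩ := ih (by omega)
      rw [Function.iterate_succ_apply']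
      exact At.progress s n _ hA (hmin i (by omega))
  obtain ⟨n, s, hA⟩ := reach _ le_rfl
  obtain ⟨n₀, h1, h2⟩ := hA.halt (Nat.find_spec h)
  exact ⟨n₀, h1, h2.1, h2.2⟩

/-- If `M` does not halt on `w`, all digits are `< m` and all operations are legal forever
(in particular the halt signal is never emitted). -/
theorem sim_not_halts (M : TM) (w : List ℕ) (hw : M.ValidInput w) (h : ¬ M.Halts w) :
    ∀ n, DigitsOK M.m (runM M w n) ∧
      OpOK M.m (opM M w n) (movingStack (n % 10) (runM M w n)) := by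
  have hnh : ∀ i, M.isHalt ((M.step)^[i] (TM.init w)).q = false := by
    intro i
    by_contra hc
    exact h ⟨i, by simpa using hc⟩
  have key : ∀ t : ℕ, ∃ i s, At M w (5 * t) ((M.step)^[i] (TM.init w)) s := by
    intro t
    induction t with
    | zero => exact ⟨0, _, At.init M w hw⟩
    | succ t ih =>
      obtain ⟨i, s, hA⟩ := ih
      rcases hA.next (hnh i) with ⟨s', h'⟩ | ⟨s', -, h'⟩
      · refine ⟨i + 1, s', ?_⟩
        rw [Function.iterate_succ_apply']
        exact h'
      · exact ⟨i, s', h'⟩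
  intro n
  obtain ⟨i, s, hA⟩ := key (n + 1)
  exact ⟨hA.legal.1 n (by omega), hA.legal.2 n (by omega)⟩

end Vale.Agent.P113
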