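import Vale.Agent.P113.Encode
import Vale.Agent.P113.Sim

/-!
# P113: the trajectory follows the phase program
-/

namespace Vale.Agent.P113

open Set MeasureTheory Filter
open scoped ContDiff Topology

/-- number of phases completed at the integer time `N` -/
def cnt (N : ℕ) : ℕ := 10 * (N / 12) + min (N % 12 - 1) 10

theorem cnt_active {N : ℕ} (h1 : 1 ≤ N % 12) (h2 : N % 12 ≤ 10) :
    cnt (N + 1) = cnt N + 1 ∧ cnt N % 10 = N % 12 - 1 := by
  unfold cnt
  have e1 : (N + 1) / 12 = N / 12 := by omega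
  have e2 : (N + 1) % 12 = N % 12 + 1 := by omega
  rw [e1, e2]
  constructor <;> omega

theorem cnt_idle {N : ℕ} (h : N % 12 = 0 ∨ N % 12 = 11) : cnt (N + 1) = cnt N := by
  unfold cnt
  rcases h with h | h
  · have e1 : (N + 1) / 12 = N / 12 := by omega
    have e2 : (N + 1) % 12 = 1 := by omega
    rw [e1, e2, h]
  · have e1 : (N + 1) / 12 = N / 12 + 1 := by omega
    have e2 : (N + 1) % 12 = 0 := by omega
    rw [e1, e2, h]; omega

theorem cnt_one : cnt 1 = 0 := by decide

/-- the time at which phase number `n` starts -/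
def timeOf (n : ℕ) : ℕ := 12 * (n / 10) + n % 10 + 1

theorem cnt_timeOf (n : ℕ) : cnt (timeOf n) = n ∧ 1 ≤ timeOf n % 12 ∧ timeOf n % 12 ≤ 10 := by
  unfold cnt timeOf
  have e1 : (12 * (n / 10) + n % 10 + 1) / 12 = n / 10 := by omega
  have e2 : (12 * (n / 10) + n % 10 + 1) % 12 = n % 10 + 1 := by omega
  rw [e1, e2]
  refine ⟨by omega, by omega, by omega⟩

theorem cnt_mono_succ (N : ℕ) : cnt N ≤ cnt (N + 1) := by
  by_cases h : N % 12 = 0 ∨ N % 12 = 11
  · rw [cnt_idle h]
  · have := (cnt_active (N := N) (by omega) (by omega)).1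
    omega

theorem cnt_mono : Monotone cnt := monotone_nat_of_le_succ cnt_mono_succ

theorem TM.one_le_m (M : TM) : 1 ≤ M.m := by unfold TM.m; omega

theorem TM.two_m_le (M : TM) : 2 * M.m ≤ 2 ^ M.m := by
  obtain ⟨p, hp⟩ : ∃ p, M.m = p + 1 := ⟨M.m - 1, by have := M.one_le_m; omega⟩
  rw [hp, pow_succ]
  have := Nat.lt_two_pow_self (n := p)
  omega

theorem TM.eight_le_K (M : TM) : 8 ≤ 2 ^ M.m := by
  have h : 3 ≤ M.m := by unfold TM.m; nlinarith [Nat.zero_le M.nQ, Nat.zero_le M.nS]
  calc 8 = 2 ^ 3 := by norm_num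
    _ ≤ 2 ^ M.m := Nat.pow_le_pow_right (by norm_num) h

/-- the point of `ℝ^3` representing a pair of stacks -/
noncomputable def point (K : ℕ) (c : List ℕ × List ℕ) : R3 := ![pos K c.1, pos K c.2, 1 / 2]

/-- the safe region -/
def Safe (x : R3) : Prop := (1 / 4 ≤ x 0 ∧ x 0 ≤ 1 / 2) ∧ (1 / 4 ≤ x 1 ∧ x 1 ≤ 1 / 2)

theorem safe_not_target {x : R3} (h : Safe x) : x ∉ targetO := by
  rintro ⟨n, hn⟩
  obtain ⟨⟨a0, a1⟩, ⟨b0, b1⟩⟩ := h
  rcases le_or_gt n 0 with h0 | h0
  · rcases lt_or_eq_of_le h0 with h0 | h0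
    · have : (n:ℝ) ≤ -1 := by exact_mod_cast (by omega : n ≤ -1)
      rcases hn with hn | hn <;> have := hn.2 <;> linarith
    · subst h0
      rcases hn with hn | hn <;> have := hn.1 <;> simp at this <;> linarith
  · have : (1:ℝ) ≤ n := by exact_mod_cast h0
    rcases hn with hn | hn <;> have := hn.1 <;> linarith

theorem point_safe (M : TM) {c : List ℕ × List ℕ} (h : DigitsOK M.m c) : Safe (point (2 ^ M.m) c) :=
  ⟨pos_mem M.two_m_le M.one_le_m h.1, pos_mem M.two_m_le M.one_le_m h.2⟩

variable {M : TM} {w : List ℕ} {X : ℝ → R3}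

theorem slot_step (hX : IsTrajectory (velM M w) aStar X) {N : ℕ} (hN : 1 ≤ N)
    (hXN : X N = point (2 ^ M.m) (runM M w (cnt N)))
    (hD : DigitsOK M.m (runM M w (cnt N)))
    (hop : 1 ≤ N % 12 → N % 12 ≤ 10 →
      OpOK M.m (opM M w (cnt N)) (movingStack (cnt N % 10) (runM M w (cnt N)))) :
    X ((N + 1 : ℕ) : ℝ) = point (2 ^ M.m) (runM M w (cnt (N + 1))) ∧
      DigitsOK M.m (runM M w (cnt (N + 1))) ∧
      ∀ t ∈ Icc (N : ℝ) (N + 1), Safe (X t) := by
  have hK := M.two_m_le
  have hm := M.one_le_m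
  by_cases hidle : N % 12 = 0 ∨ N % 12 = 11
  · have h := traj_slot_idle hX hN hidle
    rw [cnt_idle hidle]
    refine ⟨?_, hD, ?_⟩
    · rw [← hXN]; apply h; push_cast; constructor <;> linarith
    · intro t ht; rw [h t ht, hXN]; exact point_safe M hD
  · have h1 : 1 ≤ N % 12 := by omega
    have h2 : N % 12 ≤ 10 := by omega
    obtain ⟨hc1, hc2⟩ := cnt_active h1 h2
    have ho := hop h1 h2
    set n := cnt N with hn
    set j := n % 10 with hjdef
    have hj : j < 10 := Nat.mod_lt _ (by norm_num)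
    have hNj : N % 12 = j + 1 := by omega
    set c := runM M w n with hc
    have hrun : runM M w (n + 1) = stepPhase M.K M.tab j c := rfl
    have hopM : opM M w n = opOf M.K M.tab j c := rfl
    rw [hc1, hrun]
    rw [hopM] at ho
    by_cases hf : actsOnFirst j
    · have hmv : movingStack j c = c.1 := by simp [movingStack, hf]
      have hoo : opOf M.K M.tab j c = M.tab j (blockIdx (2 ^ M.m) c.2) := by
        simp [opOf, hf]; rfl
      rw [hmv] at ho
      set o := opOf M.K M.tab j c with hodef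
      have hst : stepPhase M.K M.tab j c = (applyOp o c.1, c.2) := by simp [stepPhase, hf, hodef]
      have hend := pathC_end hK hm ho
      have hposn := pos_mem hK hm (applyOp_digits_enc ho hD.1)
      have hpos0 := pos_mem hK hm hD.1
      have hposy := pos_mem hK hm hD.2
      have hmem := pathC_mem (c := (M.m : ℝ) * Real.log 2 * opSig o) (P := opFix (2 ^ M.m) o)
        (x₀ := pos (2 ^ M.m) c.1) (lo := 1 / 4) (hi := 1 / 2) hpos0 (by rw [hend]; exact hposn)
      have key := traj_slot_first hX hN hj hNj hf (x₀ := pos (2 ^ M.m) c.1) (y₀ := pos (2 ^ M.m) c.2)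
        (c := (M.m : ℝ) * Real.log 2 * opSig o) (P := opFix (2 ^ M.m) o) hXN
        (by linarith [hposy.1]) (by linarith [hposy.2])
        (by rw [tabfun_pos hK hm _ hD.2]; unfold g0; rw [← hoo])
        (by rw [tabfun_pos hK hm _ hD.2]; unfold g1; rw [← hoo])
        (fun s => ⟨by linarith [(hmem s).1], by linarith [(hmem s).2]⟩)
      refine ⟨?_, ?_, ?_⟩
      · rw [key _ ⟨by push_cast; linarith, by push_cast; linarith⟩, hst]
        have : ((N + 1 : ℕ) : ℝ) - N = 1 := by push_cast; ring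
        rw [this, pathC_one, hend]; rfl
      · rw [hst]; exact ⟨applyOp_digits_enc ho hD.1, hD.2⟩
      · intro t ht
        rw [key t ht]
        exact ⟨hmem _, hposy⟩
    · have hmv : movingStack j c = c.2 := by simp [movingStack, hf]
      have hoo : opOf M.K M.tab j c = M.tab j (blockIdx (2 ^ M.m) c.1) := by
        simp [opOf, hf]; rfl
      rw [hmv] at ho
      set o := opOf M.K M.tab j c with hodef
      have hst : stepPhase M.K M.tab j c = (c.1, applyOp o c.2) := by simp [stepPhase, hf, hodef]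
      have hend := pathC_end hK hm ho
      have hposn := pos_mem hK hm (applyOp_digits_enc ho hD.2)
      have hpos0 := pos_mem hK hm hD.2
      have hposy := pos_mem hK hm hD.1
      have hmem := pathC_mem (c := (M.m : ℝ) * Real.log 2 * opSig o) (P := opFix (2 ^ M.m) o)
        (x₀ := pos (2 ^ M.m) c.2) (lo := 1 / 4) (hi := 1 / 2) hpos0 (by rw [hend]; exact hposn)
      have key := traj_slot_second hX hN hj hNj hf (x₀ := pos (2 ^ M.m) c.2) (y₀ := pos (2 ^ M.m) c.1)
        (c := (M.m : ℝ) * Real.log 2 * opSig o) (P := opFix (2 ^ M.m) o) hXN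
        (by linarith [hposy.1]) (by linarith [hposy.2])
        (by rw [tabfun_pos hK hm _ hD.1]; unfold g0; rw [← hoo])
        (by rw [tabfun_pos hK hm _ hD.1]; unfold g1; rw [← hoo])
        (fun s => ⟨by linarith [(hmem s).1], by linarith [(hmem s).2]⟩)
      refine ⟨?_, ?_, ?_⟩
      · rw [key _ ⟨by push_cast; linarith, by push_cast; linarith⟩, hst]
        have : ((N + 1 : ℕ) : ℝ) - N = 1 := by push_cast; ring
        rw [this, pathC_one, hend]; rfl
      · rw [hst]; exact ⟨hD.1, applyOp_digits_enc ho hD.2⟩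
      · intro t ht
        rw [key t ht]
        exact ⟨hposy, hmem _⟩

end Vale.Agent.P113
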