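import Mathlib

/-!
# P113: Turing machines (statement-level definitions)

A machine is given by its description: `((nQ, nS), (haltL, transL))`.
States are `0..nQ` (initial state `0`), tape symbols are `0..nS` (blank `0`).
-/

namespace Vale.Agent.P113

/-- Descriptions of deterministic one-tape Turing machines: `((nQ, nS), (haltL, transL))`. -/
abbrev TM : Type := (ℕ × ℕ) × (List Bool × List (ℕ × ℕ × Bool))

namespace TM

/-- The states are `0, ..., nQ`; the initial state is `0`. -/
def nQ (M : TM) : ℕ := M.1.1

/-- The tape symbols are `0, ..., nS`; the blank is `0`. -/
def nS (M : TM) : ℕ := M.1.2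

/-- `q` is a halting state iff the `q`-th entry of the list `haltL` is `true`. -/
def isHalt (M : TM) (q : ℕ) : Bool := M.2.1.getD q false

/-- The transition function: in state `q` reading `a`, the entry number `q * (nS + 1) + a` of the
table `transL` gives (new state, written symbol, move right?); entries are clipped to the ranges
of states and symbols, missing entries are read as `(0, 0, false)`. -/
def trans (M : TM) (q a : ℕ) : ℕ × ℕ × Bool :=
  let r := M.2.2.getD (q * (M.nS + 1) + a) (0, 0, false)
  (min r.1 M.nQ, min r.2.1 M.nS, r.2.2)

/-- A configuration: current state and two-sided tape (blank `0 = default`) with its head. -/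
structure Cfg where
  q : ℕ
  tape : Turing.Tape ℕ

/-- One step: write, move the head one cell to the right or to the left, change state. -/
def step (M : TM) (c : Cfg) : Cfg :=
  let r := M.trans c.q c.tape.head
  ⟨r.1, (c.tape.write r.2.1).move (if r.2.2 then Turing.Dir.right else Turing.Dir.left)⟩

/-- Initial configuration: state `0`, the word `w` on an otherwise blank tape, the head on its
first cell. -/
def init (w : List ℕ) : Cfg := ⟨0, Turing.Tape.mk₁ w⟩

/-- `M` halts on `w`: a halting state is reached after finitely many steps, possibly none. -/
def Halts (M : TM) (w : List ℕ) : Prop := ∃ n : ℕ, M.isHalt ((M.step)^[n] (init w)).q = true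

/-- `w` is a word over the alphabet of `M`. -/
def ValidInput (M : TM) (w : List ℕ) : Prop := ∀ a ∈ w, a ≤ M.nS

end TM

end Vale.Agent.P113
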