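import Vale.Agent.P113.UniqueStatic

/-!
# P113 subtask D1: uniqueness of classical solutions (energy estimate)
-/

namespace Vale.Agent.P113

open Set MeasureTheory Filter Topology
open scoped ContDiff

theorem exists_bound_cube {G : ℝ × R3 → ℝ} {T : ℝ}
    (hG : ContinuousOn G (Icc (0 : ℝ) T ×ˢ univ)) :
    ∃ M, ∀ t ∈ Icc (0 : ℝ) T, ∀ x ∈ Icc (0 : R3) 1, |G (t, x)| ≤ M := by
  obtain ⟨M, hM⟩ := (isCompact_Icc.prod isCompact_Icc).exists_bound_of_continuousOn
    (hG.mono (prod_mono_right (subset_univ (Icc (0 : R3) 1))))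
  exact ⟨M, fun t ht x hx => hM (t, x) ⟨ht, hx⟩⟩

theorem continuous_slice {G : ℝ × R3 → ℝ} {T t : ℝ}
    (hG : ContinuousOn G (Icc (0 : ℝ) T ×ˢ univ)) (ht : t ∈ Icc (0 : ℝ) T) :
    Continuous (fun x => G (t, x)) := by
  rw [← continuousOn_univ]
  exact hG.comp (Continuous.continuousOn (by fun_prop)) (fun x _ => ⟨ht, mem_univ _⟩)

theorem continuousOn_time {G : ℝ × R3 → ℝ} {T : ℝ}
    (hG : ContinuousOn G (Icc (0 : ℝ) T ×ˢ univ)) (x : R3) :
    ContinuousOn (fun t => G (t, x)) (Icc (0 : ℝ) T) :=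
  hG.comp (Continuous.continuousOn (by fun_prop)) (fun t ht => ⟨ht, mem_univ _⟩)

section

variable {ν : ℝ} {f : ℝ → R3 → R3} {T : ℝ} {u : ℝ → R3 → R3} {p : ℝ → R3 → ℝ}

theorem IsClassicalSolution.cont_uti (h : IsClassicalSolution ν f T u p) (i : Fin 3) :
    ContinuousOn (fun q : ℝ × R3 => derivWithin (fun s => u s q.2 i) (Icc (0 : ℝ) T) q.1)
      (Icc (0 : ℝ) T ×ˢ univ) := by
  have := (continuous_apply i).comp_continuousOn h.cont_ut
  refine this.congr (fun q hq => ?_)
  simp only [Function.comp]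
  rw [derivWithin_pi (fun i => differentiableWithinAt_pi.1 (h.u_diff_t q.1 hq.1 q.2) i)]

theorem IsClassicalSolution.cont_ui (h : IsClassicalSolution ν f T u p) (i : Fin 3) :
    ContinuousOn (fun q : ℝ × R3 => u q.1 q.2 i) (Icc (0 : ℝ) T ×ˢ univ) :=
  (continuous_apply i).comp_continuousOn h.cont_u

theorem IsClassicalSolution.hasDerivAt_ui (h : IsClassicalSolution ν f T u p) {t : ℝ}
    (ht : t ∈ Ioo (0 : ℝ) T) (x : R3) (i : Fin 3) :
    HasDerivAt (fun s => u s x i) (derivWithin (fun s => u s x i) (Icc (0 : ℝ) T) t) t :=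
  (differentiableWithinAt_pi.1 (h.u_diff_t t (Ioo_subset_Icc_self ht) x) i).hasDerivWithinAt.hasDerivAt
    (Icc_mem_nhds ht.1 ht.2)

end

/-- A continuous nonnegative function with zero integral over the unit cube vanishes there. -/
theorem eq_zero_of_integral_cube_eq_zero {g : R3 → ℝ} (hg : Continuous g) (h0 : ∀ x, 0 ≤ g x)
    (hint : ∫ x in Icc (0 : R3) 1, g x = 0) : ∀ x ∈ Icc (0 : R3) 1, g x = 0 := by
  have hi : IntegrableOn g (Icc (0 : R3) 1) := hg.integrableOn_Icc
  have hae : g =ᵐ[volume.restrict (Icc (0 : R3) 1)] 0 :=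
    (integral_eq_zero_iff_of_nonneg h0 hi).1 hint
  have hsub : Icc (0 : R3) 1 ⊆ closure (interior (Icc (0 : R3) 1)) := by
    rw [← pi_univ_Icc, interior_pi_set finite_univ, closure_pi_set]
    intro x hx i hi
    have := hx i hi
    simp only [Pi.zero_apply, Pi.one_apply, interior_Icc, closure_Ioo (zero_ne_one' ℝ)] at this ⊢
    exact this
  exact Measure.eqOn_of_ae_eq hae hg.continuousOn continuousOn_const hsub

/-- The velocity part of uniqueness. -/
theorem classical_unique_u {ν : ℝ} (hν : 0 < ν) {f : ℝ → R3 → R3} {T : ℝ}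
    {u₁ u₂ : ℝ → R3 → R3} {p₁ p₂ : ℝ → R3 → ℝ}
    (h₁ : IsClassicalSolution ν f T u₁ p₁) (h₂ : IsClassicalSolution ν f T u₂ p₂) :
    ∀ t ∈ Icc (0 : ℝ) T, u₁ t = u₂ t := by
  classical
  set μ : Measure R3 := volume.restrict (Icc (0 : R3) 1) with hμ
  have : IsFiniteMeasure μ := ⟨by
    rw [hμ, Measure.restrict_apply_univ]
    exact isCompact_Icc.measure_lt_top⟩
  -- the energy density and its time derivative
  set F : ℝ × R3 → ℝ := fun q => ∑ i, (u₁ q.1 q.2 i - u₂ q.1 q.2 i) ^ 2 with hF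
  set F' : ℝ × R3 → ℝ := fun q => ∑ i, 2 * (u₁ q.1 q.2 i - u₂ q.1 q.2 i) *
    (derivWithin (fun s => u₁ s q.2 i) (Icc (0 : ℝ) T) q.1
      - derivWithin (fun s => u₂ s q.2 i) (Icc (0 : ℝ) T) q.1) with hF'
  have hFc : ContinuousOn F (Icc (0 : ℝ) T ×ˢ univ) :=
    continuousOn_finsetSum _ (fun i _ => ((h₁.cont_ui i).sub (h₂.cont_ui i)).pow 2)
  have hF'c : ContinuousOn F' (Icc (0 : ℝ) T ×ˢ univ) :=
    continuousOn_finsetSum _ (fun i _ => (continuousOn_const.mul
      ((h₁.cont_ui i).sub (h₂.cont_ui i))).mul ((h₁.cont_uti i).sub (h₂.cont_uti i)))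
  obtain ⟨B, hB⟩ := exists_bound_cube hFc
  obtain ⟨B', hB'⟩ := exists_bound_cube hF'c
  -- bound for the gradient of the second solution
  have hMex : ∃ M, ∀ t ∈ Icc (0 : ℝ) T, ∀ x ∈ Icc (0 : R3) 1, ∀ i j,
      |pd j (fun y => u₂ t y i) x| ≤ M := by
    choose Mf hMf using fun i j => exists_bound_cube (h₂.cont_du i j)
    refine ⟨∑ i, ∑ j, |Mf i j|, fun t ht x hx i j => ?_⟩
    calc |pd j (fun y => u₂ t y i) x| ≤ Mf i j := hMf i j t ht x hx
      _ ≤ |Mf i j| := le_abs_self _
      _ ≤ ∑ j, |Mf i j| := Finset.single_le_sum (f := fun j => |Mf i j|)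
          (fun j _ => abs_nonneg _) (Finset.mem_univ j)
      _ ≤ ∑ i, ∑ j, |Mf i j| := Finset.single_le_sum (f := fun i => ∑ j, |Mf i j|)
          (fun i _ => Finset.sum_nonneg (fun j _ => abs_nonneg _)) (Finset.mem_univ i)
  obtain ⟨M, hM⟩ := hMex
  set E : ℝ → ℝ := fun t => ∫ x, F (t, x) ∂μ with hE
  have hmem : ∀ᵐ x ∂μ, x ∈ Icc (0 : R3) 1 := ae_restrict_mem measurableSet_Icc
  have hEcont : ContinuousOn E (Icc (0 : ℝ) T) := by
    apply continuousOn_of_dominated (bound := fun _ => B)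
    · exact fun t ht => (continuous_slice hFc ht).aestronglyMeasurable
    · exact fun t ht => hmem.mono (fun x hx => hB t ht x hx)
    · exact integrable_const _
    · exact ae_of_all _ (fun x => continuousOn_time hFc x)
  have hEderiv : ∀ t ∈ Ioo (0 : ℝ) T, HasDerivAt E (∫ x, F' (t, x) ∂μ) t := by
    intro t ht
    have hnhds : Ioo (0 : ℝ) T ∈ 𝓝 t := Ioo_mem_nhds ht.1 ht.2
    refine (hasDerivAt_integral_of_dominated_loc_of_deriv_le (μ := μ) (F := fun s x => F (s, x))
      (F' := fun s x => F' (s, x)) (bound := fun _ => B') hnhds ?_ ?_ ?_ ?_ ?_ ?_).2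
    · exact Filter.mem_of_superset hnhds (fun s hs =>
        (continuous_slice hFc (Ioo_subset_Icc_self hs)).aestronglyMeasurable)
    · exact (continuous_slice hFc (Ioo_subset_Icc_self ht)).integrableOn_Icc
    · exact (continuous_slice hF'c (Ioo_subset_Icc_self ht)).aestronglyMeasurable
    · exact hmem.mono (fun x hx s hs => hB' s (Ioo_subset_Icc_self hs) x hx)
    · exact integrable_const _
    · refine ae_of_all _ (fun x s hs => ?_)
      have hsum : HasDerivAt (fun s => ∑ i, (u₁ s x i - u₂ s x i) ^ 2)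
          (∑ i, 2 * (u₁ s x i - u₂ s x i) *
            (derivWithin (fun s => u₁ s x i) (Icc (0 : ℝ) T) s
              - derivWithin (fun s => u₂ s x i) (Icc (0 : ℝ) T) s)) s := by
        apply HasDerivAt.fun_sum
        intro i _
        have := ((h₁.hasDerivAt_ui hs x i).fun_sub (h₂.hasDerivAt_ui hs x i)).fun_pow 2
        simpa using this
      exact hsum
  have hEineq : ∀ t ∈ Icc (0 : ℝ) T, ∫ x, F' (t, x) ∂μ ≤ 6 * M * E t := by
    intro t ht
    have hpd : ∀ i x, pd i (fun y => p₁ t y - p₂ t y) x = pd i (p₁ t) x - pd i (p₂ t) x :=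
      fun i x => pd_sub i ((h₁.p_C1 t ht).differentiable one_ne_zero x)
        ((h₂.p_C1 t ht).differentiable one_ne_zero x)
    refine static_energy (ν := ν) (M := M) hν.le (a := u₁ t) (b := u₂ t)
      (wt := fun x i => derivWithin (fun s => u₁ s x i) (Icc (0 : ℝ) T) t
        - derivWithin (fun s => u₂ s x i) (Icc (0 : ℝ) T) t)
      (π := fun y => p₁ t y - p₂ t y) (h₁.u_C2 t ht) (h₂.u_C2 t ht)
      ((h₁.p_C1 t ht).sub (h₂.p_C1 t ht)) (h₁.u_periodic t ht) (h₂.u_periodic t ht)
      (fun i x => by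
        show p₁ t (x + Pi.single i 1) - p₂ t (x + Pi.single i 1) = p₁ t x - p₂ t x
        rw [h₁.p_periodic t ht i x, h₂.p_periodic t ht i x])
      (h₁.div_free t ht) (h₂.div_free t ht) ?_ (hM t ht) ?_
    · exact continuous_pi (fun i => (continuous_slice (h₁.cont_uti i) ht).sub
        (continuous_slice (h₂.cont_uti i) ht))
    · intro x i
      have e1 := h₁.momentum t ht x i
      have e2 := h₂.momentum t ht x i
      rw [hpd]
      linarith
  have hE0 : E 0 = 0 := by
    simp only [hE, hF, h₁.initial, h₂.initial]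
    simp
  have hEnn : ∀ t, 0 ≤ E t := fun t =>
    integral_nonneg (fun x => Finset.sum_nonneg (fun i _ => sq_nonneg _))
  -- Gronwall
  have hanti : AntitoneOn (fun t => E t * Real.exp (-(6 * M) * t)) (Icc (0 : ℝ) T) := by
    have hder : ∀ t ∈ Ioo (0 : ℝ) T, HasDerivAt (fun t => E t * Real.exp (-(6 * M) * t))
        ((∫ x, F' (t, x) ∂μ) * Real.exp (-(6 * M) * t)
          + E t * (Real.exp (-(6 * M) * t) * (-(6 * M)))) t := by
      intro t ht
      have h2 : HasDerivAt (fun t : ℝ => Real.exp (-(6 * M) * t))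
          (Real.exp (-(6 * M) * t) * (-(6 * M))) t := by
        have := ((hasDerivAt_id t).const_mul (-(6 * M))).exp
        simpa using this
      exact (hEderiv t ht).mul h2
    apply antitoneOn_of_deriv_nonpos (convex_Icc _ _)
    · exact hEcont.mul (Continuous.continuousOn (by fun_prop))
    · rw [interior_Icc]
      exact fun t ht => (hder t ht).differentiableAt.differentiableWithinAt
    · rw [interior_Icc]
      intro t ht
      rw [(hder t ht).deriv]
      have := hEineq t (Ioo_subset_Icc_self ht)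
      have hexp := Real.exp_pos (-(6 * M) * t)
      nlinarith
  intro t ht
  have hEt : E t = 0 := by
    have := hanti (left_mem_Icc.2 (ht.1.trans ht.2)) ht ht.1
    simp only [hE0, zero_mul] at this
    have hexp := Real.exp_pos (-(6 * M) * t)
    have h3 : E t ≤ 0 := by
      by_contra hcon
      push Not at hcon
      have := mul_pos hcon hexp
      linarith
    exact le_antisymm h3 (hEnn t)
  have hzero := eq_zero_of_integral_cube_eq_zero (continuous_slice hFc ht)
    (fun x => Finset.sum_nonneg (fun i _ => sq_nonneg _)) hEt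
  -- from the cube to the whole space
  have hper : TorusPeriodic (fun x => u₁ t x - u₂ t x) := fun i x => by
    show u₁ t (x + Pi.single i 1) - u₂ t (x + Pi.single i 1) = u₁ t x - u₂ t x
    rw [h₁.u_periodic t ht i x, h₂.u_periodic t ht i x]
  funext x
  obtain ⟨y, hy, hxy⟩ := hper.exists_cube x
  have hy0 := hzero y hy
  have hy1 : ∀ i, u₁ t y i - u₂ t y i = 0 := by
    intro i
    have := (Finset.sum_eq_zero_iff_of_nonneg (fun i _ => sq_nonneg _)).1 hy0 i (Finset.mem_univ i)
    exact pow_eq_zero_iff (two_ne_zero) |>.1 this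
  have : u₁ t x - u₂ t x = 0 := by
    rw [hxy]
    funext i
    exact hy1 i
  exact sub_eq_zero.1 this

/-- Two classical solutions on `[0,T]` with the same force (and zero initial data) coincide. -/
theorem classical_unique {ν : ℝ} (hν : 0 < ν) {f : ℝ → R3 → R3} {T : ℝ} (hT : 0 < T)
    {u₁ u₂ : ℝ → R3 → R3} {p₁ p₂ : ℝ → R3 → ℝ}
    (h₁ : IsClassicalSolution ν f T u₁ p₁) (h₂ : IsClassicalSolution ν f T u₂ p₂) :
    ∀ t ∈ Icc (0 : ℝ) T, u₁ t = u₂ t ∧ p₁ t = p₂ t := by
  have _ := hT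
  have hu := classical_unique_u hν h₁ h₂
  intro t ht
  refine ⟨hu t ht, ?_⟩
  have hpd : ∀ x i, pd i (p₁ t) x = pd i (p₂ t) x := by
    intro x i
    have e1 := h₁.momentum t ht x i
    have e2 := h₂.momentum t ht x i
    have e3 : derivWithin (fun s => u₁ s x i) (Icc (0 : ℝ) T) t
        = derivWithin (fun s => u₂ s x i) (Icc (0 : ℝ) T) t :=
      derivWithin_congr (fun s hs => by rw [hu s hs]) (by rw [hu t ht])
    rw [e3, hu t ht] at e1
    linarith
  have hd1 := (h₁.p_C1 t ht).differentiable one_ne_zero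
  have hd2 := (h₂.p_C1 t ht).differentiable one_ne_zero
  have hfd : ∀ x, fderiv ℝ (fun y => p₁ t y - p₂ t y) x = 0 := by
    intro x
    rw [fderiv_fun_sub (hd1 x) (hd2 x), sub_eq_zero]
    apply ContinuousLinearMap.coe_injective
    apply LinearMap.pi_ext'
    intro i
    apply LinearMap.ext_ring
    exact hpd x i
  have hconst : ∀ x, p₁ t x - p₂ t x = p₁ t 0 - p₂ t 0 := fun x =>
    is_const_of_fderiv_eq_zero (hd1.sub hd2) hfd x 0
  have hint : ∫ x in Icc (0 : R3) 1, (p₁ t x - p₂ t x) = 0 := by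
    rw [integral_sub (h₁.p_C1 t ht).continuous.integrableOn_Icc
      (h₂.p_C1 t ht).continuous.integrableOn_Icc, h₁.p_mean t ht, h₂.p_mean t ht, sub_zero]
  simp only [hconst] at hint
  rw [setIntegral_const] at hint
  have hvol : (volume : Measure R3).real (Icc (0 : R3) 1) = 1 := by
    simp [Measure.real, Real.volume_Icc_pi]
  rw [hvol, one_smul] at hint
  funext x
  have := hconst x
  linarith

end Vale.Agent.P113
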