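import Vale.Agent.P113.Dynamics
import Vale.Agent.P113.Unique

/-!
# P113: assembly of the non-effective part
-/

namespace Vale.Agent.P113

open Set MeasureTheory Filter
open scoped ContDiff Topology

theorem targetO_isOpen : IsOpen targetO := by
  have : targetO = ⋃ n : ℤ, ({x : R3 | x 0 - n ∈ Ioo (9 / 16 : ℝ) (11 / 16)} ∪
      {x : R3 | x 1 - n ∈ Ioo (9 / 16 : ℝ) (11 / 16)}) := by
    ext x; simp [targetO]
  rw [this]
  apply isOpen_iUnion
  intro n
  apply IsOpen.union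
  · exact isOpen_Ioo.preimage ((continuous_apply 0).sub continuous_const)
  · exact isOpen_Ioo.preimage ((continuous_apply 1).sub continuous_const)

theorem mem_targetO_iff (x : R3) : x ∈ targetO ↔
    (∃ n : ℤ, x 0 - n ∈ Ioo (9 / 16 : ℝ) (11 / 16)) ∨ (∃ n : ℤ, x 1 - n ∈ Ioo (9 / 16 : ℝ) (11 / 16)) := by
  unfold targetO
  exact exists_or

theorem exists_shift_iff (a : ℝ) (I : Set ℝ) :
    (∃ n : ℤ, a + 1 - n ∈ I) ↔ (∃ n : ℤ, a - n ∈ I) := by
  constructor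
  · rintro ⟨n, hn⟩
    refine ⟨n - 1, ?_⟩
    have : a - ((n - 1 : ℤ) : ℝ) = a + 1 - n := by push_cast; ring
    rw [this]; exact hn
  · rintro ⟨n, hn⟩
    refine ⟨n + 1, ?_⟩
    have : a + 1 - ((n + 1 : ℤ) : ℝ) = a - n := by push_cast; ring
    rw [this]; exact hn

theorem targetO_periodic (i : Fin 3) (x : R3) : x + Pi.single i 1 ∈ targetO ↔ x ∈ targetO := by
  rw [mem_targetO_iff, mem_targetO_iff]
  simp only [Pi.add_apply]
  fin_cases i
  · have h0 : (Pi.single (0 : Fin 3) (1 : ℝ) : R3) 0 = 1 := by simp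
    have h1 : (Pi.single (0 : Fin 3) (1 : ℝ) : R3) 1 = 0 := by simp
    show (∃ n : ℤ, x 0 + (Pi.single (0 : Fin 3) (1 : ℝ) : R3) 0 - n ∈ _) ∨
      (∃ n : ℤ, x 1 + (Pi.single (0 : Fin 3) (1 : ℝ) : R3) 1 - n ∈ _) ↔ _
    rw [h0, h1, exists_shift_iff, add_zero]
  · have h0 : (Pi.single (1 : Fin 3) (1 : ℝ) : R3) 0 = 0 := by simp
    have h1 : (Pi.single (1 : Fin 3) (1 : ℝ) : R3) 1 = 1 := by simp
    show (∃ n : ℤ, x 0 + (Pi.single (1 : Fin 3) (1 : ℝ) : R3) 0 - n ∈ _) ∨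
      (∃ n : ℤ, x 1 + (Pi.single (1 : Fin 3) (1 : ℝ) : R3) 1 - n ∈ _) ↔ _
    rw [h0, h1, exists_shift_iff, add_zero]
  · simp

theorem velM_contDiff (M : TM) (w : List ℕ) :
    ContDiff ℝ ∞ (fun q : ℝ × R3 => velM M w q.1 q.2) := vel_contDiff _ _ _

/-- The non-effective part of the construction. -/
theorem main_dynamics (ν : ℝ) (hν : 0 < ν) :
    IsOpen targetO ∧ (∀ (i : Fin 3) (x : R3), x + Pi.single i 1 ∈ targetO ↔ x ∈ targetO) ∧
    (∀ (M : TM) (w : List ℕ), ContDiff ℝ ∞ (fun q : ℝ × R3 => forceM ν M w q.1 q.2) ∧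
      ∀ t, TorusPeriodic (forceM ν M w t)) ∧
    (∀ (M : TM) (w w' : List ℕ) (t : ℝ), 1 ≤ t →
      forceM ν M w t = forceM ν M w' t ∧ forceM ν M w (t + 12) = forceM ν M w t) ∧
    ∀ (M : TM) (w : List ℕ), M.ValidInput w →
      IsGlobalSmoothSolution ν (forceM ν M w) (velM M w) (fun _ _ => 0) ∧
      (∀ (T : ℝ), 0 < T → ∀ (u' : ℝ → R3 → R3) (p' : ℝ → R3 → ℝ),
        IsClassicalSolution ν (forceM ν M w) T u' p' →
          ∀ t ∈ Icc (0 : ℝ) T, u' t = velM M w t ∧ p' t = fun _ => 0) ∧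
      (∃ X : ℝ → R3, IsTrajectory (velM M w) aStar X) ∧
      ∀ X : ℝ → R3, IsTrajectory (velM M w) aStar X →
        ((∃ t : ℝ, 0 ≤ t ∧ X t ∈ targetO) ↔ M.Halts w) := by
  refine ⟨targetO_isOpen, targetO_periodic, ?_, ?_, ?_⟩
  · intro M w
    exact ⟨forceOf_contDiff ν (velM_contDiff M w),
      forceOf_periodic ν (vel_periodic _ _ _)⟩
  · intro M w w' t ht
    exact ⟨forceOf_vel_eq_of_one_le ν _ _ _ _ ht, forceOf_vel_periodic ν _ _ _ ht⟩
  · intro M w hw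
    have hsol : IsGlobalSmoothSolution ν (forceM ν M w) (velM M w) (fun _ _ => 0) :=
      isGlobalSmoothSolution_forceOf ν (velM_contDiff M w) (vel_periodic _ _ _)
        (vel_div _ _ _) (vel_zero _ _ _)
    refine ⟨hsol, ?_, exists_trajectory (velM_contDiff M w) (vel_periodic _ _ _) aStar, ?_⟩
    · intro T hT u' p' h' t ht
      exact classical_unique hν hT h' (hsol.classical T hT) t ht
    · intro X hX
      exact dynamics hw hX

end Vale.Agent.P113
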