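import Vale.Agent.P113.Prog

/-!
# P113 subtask A, part 1: evaluation of the tables of the phase program
-/

namespace Vale.Agent.P113

namespace TM

variable (M : TM)

theorem kQ_kap (q mode cls : ℕ) (h1 : mode < 2) (h2 : cls < 2) : kQ (kap q mode cls) = q := by
  unfold kQ kap; omega

theorem kMode_kap (q mode cls : ℕ) (h1 : mode < 2) (h2 : cls < 2) :
    kMode (kap q mode cls) = mode := by
  unfold kMode kap; omega

theorem kCls_kap (q mode cls : ℕ) (h2 : cls < 2) : kCls (kap q mode cls) = cls := by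
  unfold kCls kap; omega

theorem kap_lt (q mode cls : ℕ) (h1 : mode < 2) (h2 : cls < 2) (hq : q ≤ M.nQ) :
    kap q mode cls < 4 * (M.nQ + 1) := by
  unfold kap; omega

theorem kQ_le (k : ℕ) (hk : k < 4 * (M.nQ + 1)) : kQ k ≤ M.nQ := by
  unfold kQ; omega

theorem trans_fst_le (q a : ℕ) : (M.trans q a).1 ≤ M.nQ := by
  unfold trans; exact min_le_right _ _

theorem trans_snd_le (q a : ℕ) : (M.trans q a).2.1 ≤ M.nS := by
  unfold trans; exact min_le_right _ _

theorem mkK_mkC (k : ℕ) : M.mkK (M.mkC k) = k := by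
  unfold mkK mkC; omega

theorem isMk_mkC (k : ℕ) (hk : k < 4 * (M.nQ + 1)) : M.isMk (M.mkC k) := by
  unfold isMk mkC m base2; omega

theorem mkC_lt_m (k : ℕ) (hk : k < 4 * (M.nQ + 1)) : M.mkC k < M.m := (M.isMk_mkC k hk).2

theorem base2_le_mkC (k : ℕ) : M.base2 ≤ M.mkC k := by
  unfold mkC; omega

theorem nS_lt_base2 : M.nS < M.base2 := by
  unfold base2; omega

theorem base2_le_m : M.base2 ≤ M.m := by
  unfold base2 m; omega

theorem recK_recC (k s : ℕ) (hs : s < M.nS + 2) : M.recK (M.recC k s) = k := by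
  unfold recK recC
  have : M.base1 + k * (M.nS + 2) + s - M.base1 = s + (M.nS + 2) * k := by
    rw [Nat.mul_comm]; omega
  rw [this, Nat.add_mul_div_left _ _ (by omega), Nat.div_eq_of_lt hs, Nat.zero_add]

theorem recS_recC (k s : ℕ) (hs : s < M.nS + 2) : M.recS (M.recC k s) = s := by
  unfold recS recC
  have : M.base1 + k * (M.nS + 2) + s - M.base1 = s + (M.nS + 2) * k := by
    rw [Nat.mul_comm]; omega
  rw [this, Nat.add_mul_mod_self_left, Nat.mod_eq_of_lt hs]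

theorem isRec_recC (k s : ℕ) (hk : k < 4 * (M.nQ + 1)) (hs : s < M.nS + 2) :
    M.isRec (M.recC k s) := by
  unfold isRec recC base2 base1
  have h1 : (k + 1) * (M.nS + 2) ≤ 4 * (M.nQ + 1) * (M.nS + 2) := Nat.mul_le_mul_right _ hk
  have h2 : (k + 1) * (M.nS + 2) = k * (M.nS + 2) + (M.nS + 2) := by ring
  constructor
  · omega
  · omega

theorem not_isSym_of_isRec {d : ℕ} (h : M.isRec d) : ¬ M.isSym d := by
  unfold isRec base1 at h; unfold isSym; omega

theorem not_isMk_of_isRec {d : ℕ} (h : M.isRec d) : ¬ M.isMk d := by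
  unfold isRec at h; unfold isMk; omega

theorem not_isSym_of_isMk {d : ℕ} (h : M.isMk d) : ¬ M.isSym d := by
  unfold isMk base2 at h; unfold isSym; omega

theorem not_isRec_of_isMk {d : ℕ} (h : M.isMk d) : ¬ M.isRec d := by
  unfold isMk at h; unfold isRec; omega

theorem not_isMk_of_lt {d : ℕ} (h : d < M.base2) : ¬ M.isMk d := by
  unfold isMk; omega

theorem isSym_or_isRec_of_lt {d : ℕ} (h : d < M.base2) : M.isSym d ∨ M.isRec d := by
  unfold isSym isRec base1; omega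

/-! ### the first two phases -/

theorem p1_clean (mode d1 d2 : ℕ) (h : d1 < M.base2) : M.p1 mode d1 d2 = (0, 0) := by
  unfold p1
  rw [if_neg]
  exact fun hh => M.not_isMk_of_lt h hh.1

theorem p2_clean (mode d1 d2 : ℕ) (h : d1 < M.base2) : M.p2 mode d1 d2 = (0, 0) := by
  unfold p2
  rw [if_neg]
  exact fun hh => M.not_isMk_of_lt h hh.1

theorem p1_halt (k d2 : ℕ) (hk : k < 4 * (M.nQ + 1)) (hh : M.isHalt (kQ k) = true) :
    M.p1 (kMode k) (M.mkC k) d2 = (3, 0) := by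
  unfold p1
  rw [if_pos ⟨M.isMk_mkC k hk, by rw [mkK_mkC]⟩, mkK_mkC, if_pos hh]

theorem p1_sym (k a : ℕ) (hk : k < 4 * (M.nQ + 1)) (hh : M.isHalt (kQ k) = false)
    (ha : a ≤ M.nS) : M.p1 (kMode k) (M.mkC k) a = (1, M.recC k a) := by
  unfold p1
  rw [if_pos ⟨M.isMk_mkC k hk, by rw [mkK_mkC]⟩, mkK_mkC, if_neg (by simp [hh]), if_pos (show M.isSym a from ha)]

theorem p1_rec (k g : ℕ) (hk : k < 4 * (M.nQ + 1)) (hh : M.isHalt (kQ k) = false)
    (hg : M.isRec g) : M.p1 (kMode k) (M.mkC k) g = (1, g) := by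
  unfold p1
  rw [if_pos ⟨M.isMk_mkC k hk, by rw [mkK_mkC]⟩, mkK_mkC, if_neg (by simp [hh]),
    if_neg (M.not_isSym_of_isRec hg), if_pos hg]

theorem p2_sym_match (k a : ℕ) (hk : k < 4 * (M.nQ + 1)) (hh : M.isHalt (kQ k) = false)
    (ha : a ≤ M.nS) (hd : dirMatch (M.trans (kQ k) a).2.2 (kMode k)) :
    M.p2 (kMode k) (M.mkC k) a = (1, (M.trans (kQ k) a).2.1) := by
  unfold p2
  rw [if_pos ⟨M.isMk_mkC k hk, by rw [mkK_mkC], by rw [mkK_mkC]; exact hh⟩, mkK_mkC,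
    if_pos (show M.isSym a from ha), if_pos hd]

theorem p2_sym_turn (k a : ℕ) (hk : k < 4 * (M.nQ + 1)) (hh : M.isHalt (kQ k) = false)
    (ha : a ≤ M.nS) (hd : ¬ dirMatch (M.trans (kQ k) a).2.2 (kMode k)) :
    M.p2 (kMode k) (M.mkC k) a = (1, M.mkC (kap (M.trans (kQ k) a).1 (1 - kMode k) 1)) := by
  unfold p2
  rw [if_pos ⟨M.isMk_mkC k hk, by rw [mkK_mkC], by rw [mkK_mkC]; exact hh⟩, mkK_mkC,
    if_pos (show M.isSym a from ha), if_neg hd]

theorem p2_rec (k g : ℕ) (hk : k < 4 * (M.nQ + 1)) (hh : M.isHalt (kQ k) = false)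
    (hg : M.isRec g) : M.p2 (kMode k) (M.mkC k) g = (1, M.recC k (M.nS + 1)) := by
  unfold p2
  rw [if_pos ⟨M.isMk_mkC k hk, by rw [mkK_mkC], by rw [mkK_mkC]; exact hh⟩, mkK_mkC,
    if_neg (M.not_isSym_of_isRec hg), if_pos hg]

/-! ### decoding -/

theorem dec_match (k a : ℕ) (hk : k < 4 * (M.nQ + 1)) (hh : M.isHalt (kQ k) = false)
    (ha : a ≤ M.nS) (hd : dirMatch (M.trans (kQ k) a).2.2 (kMode k)) :
    M.dec (kMode k) (M.trans (kQ k) a).2.1 (M.recC k a) =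
      (1, M.mkC k, a, M.mkC (kap (M.trans (kQ k) a).1 (kMode k) 0)) := by
  have hs : a < M.nS + 2 := by omega
  unfold dec
  rw [recK_recC _ _ _ hs, recS_recC _ _ _ hs,
    if_pos ⟨M.trans_snd_le _ _, M.isRec_recC k a hk hs, ha, rfl, hh, hd, rfl⟩]

theorem dec_turn (k a : ℕ) (hk : k < 4 * (M.nQ + 1)) (hh : M.isHalt (kQ k) = false)
    (ha : a ≤ M.nS) (hd : ¬ dirMatch (M.trans (kQ k) a).2.2 (kMode k)) :
    M.dec (kMode k) (M.mkC (kap (M.trans (kQ k) a).1 (1 - kMode k) 1)) (M.recC k a) =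
      (1, M.mkC k, a, (M.trans (kQ k) a).2.1) := by
  have hs : a < M.nS + 2 := by omega
  have hm : 1 - kMode k < 2 := by omega
  have hk' : kap (M.trans (kQ k) a).1 (1 - kMode k) 1 < 4 * (M.nQ + 1) :=
    M.kap_lt _ _ _ hm (by omega) (M.trans_fst_le _ _)
  unfold dec
  rw [recK_recC _ _ _ hs, recS_recC _ _ _ hs, mkK_mkC,
    if_neg (fun h => M.not_isSym_of_isMk (M.isMk_mkC _ hk') h.1),
    if_pos ⟨M.isMk_mkC _ hk', kMode_kap _ _ _ hm (by omega), kCls_kap _ _ _ (by omega),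
      M.isRec_recC k a hk hs, ha, rfl, hh, hd, (kQ_kap _ _ _ hm (by omega)).symm⟩]

theorem dec_skip (k g : ℕ) (hk : k < 4 * (M.nQ + 1)) (hh : M.isHalt (kQ k) = false)
    (hg : M.isRec g) :
    M.dec (kMode k) (M.recC k (M.nS + 1)) g =
      (1, M.mkC k, g, M.mkC (kap (kQ k) (kMode k) 0)) := by
  have hs : M.nS + 1 < M.nS + 2 := by omega
  have hr := M.isRec_recC k (M.nS + 1) hk hs
  unfold dec
  rw [recK_recC _ _ _ hs, recS_recC _ _ _ hs,
    if_neg (fun h => M.not_isSym_of_isRec hr h.1),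
    if_neg (fun h => M.not_isMk_of_isRec hr h.1),
    if_pos ⟨hr, rfl, rfl, hg, hh⟩]

theorem dec_passive (mode k y : ℕ) (hk : k < 4 * (M.nQ + 1)) (hc : kCls k = 0) :
    M.dec mode (M.mkC k) y = (0, 0, 0, 0) := by
  have hr := M.isMk_mkC k hk
  unfold dec
  rw [if_neg (fun h => M.not_isSym_of_isMk hr h.1),
    if_neg (fun h => by have := h.2.2.1; rw [mkK_mkC, hc] at this; omega),
    if_neg (fun h => M.not_isRec_of_isMk hr h.1)]

end TM

end Vale.Agent.P113
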