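import Vale.Agent.P113.SimTab

/-!
# P113 subtask A, part 2: the tape represented by two stacks
-/

namespace Vale.Agent.P113

open Turing

/-- the live digits of a stack -/
def plain (M : TM) (l : List ℕ) : List ℕ := l.filter (fun d => decide (d ≤ M.nS))

/-- a stack without marker -/
def Clean (M : TM) (l : List ℕ) : Prop := ∀ d ∈ l, d < M.base2

/-- the tape with scanned side `S` (its head is the scanned cell) and other side `O` -/
def toTape (mode : ℕ) (S O : ListBlank ℕ) : Tape ℕ :=
  if mode = 0 then Tape.mk' O S else Tape.mk' S.tail (O.cons S.head)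

theorem toTape_head (mode : ℕ) (S O : ListBlank ℕ) : (toTape mode S O).head = S.head := by
  unfold toTape
  split_ifs <;> simp

theorem step_match (M : TM) (mode q : ℕ) (S O : ListBlank ℕ) (hm : mode < 2)
    (hd : TM.dirMatch (M.trans q S.head).2.2 mode) :
    M.step ⟨q, toTape mode S O⟩ =
      ⟨(M.trans q S.head).1, toTape mode S.tail (O.cons (M.trans q S.head).2.1)⟩ := by
  unfold TM.step
  simp only [toTape_head]
  congr 1
  rcases hd with ⟨h1, h2⟩ | ⟨h1, h2⟩
  · subst h2
    rw [h1]
    simp only [toTape, if_true]
    conv_lhs => rw [← ListBlank.cons_head_tail S]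
    rw [Tape.write_mk', Tape.move_right_mk']
    simp
  · subst h2
    rw [h1]
    simp only [toTape]
    simp only [one_ne_zero, if_false, Bool.false_eq_true]
    rw [Tape.write_mk', Tape.move_left_mk']
    simp

theorem step_turn (M : TM) (mode q : ℕ) (S O : ListBlank ℕ) (hm : mode < 2)
    (hd : ¬ TM.dirMatch (M.trans q S.head).2.2 mode) :
    M.step ⟨q, toTape mode S O⟩ =
      ⟨(M.trans q S.head).1, toTape (1 - mode) O (S.tail.cons (M.trans q S.head).2.1)⟩ := by
  unfold TM.step
  simp only [toTape_head]
  congr 1
  unfold TM.dirMatch at hd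
  have hm' : mode = 0 ∨ mode = 1 := by omega
  rcases hm' with rfl | rfl
  · have h1 : (M.trans q S.head).2.2 = false := by
      cases h : (M.trans q S.head).2.2
      · rfl
      · exact absurd (Or.inl ⟨h, rfl⟩) hd
    rw [h1]
    simp only [toTape]
    simp only [if_true, Bool.false_eq_true, if_false, Nat.sub_zero, one_ne_zero]
    conv_lhs => rw [← ListBlank.cons_head_tail S]
    rw [Tape.write_mk', Tape.move_left_mk']
    simp
  · have h1 : (M.trans q S.head).2.2 = true := by
      cases h : (M.trans q S.head).2.2
      · exact absurd (Or.inr ⟨h, rfl⟩) hd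
      · rfl
    rw [h1]
    simp only [toTape]
    simp only [if_true, if_false, one_ne_zero]
    rw [Tape.write_mk', Tape.move_right_mk']
    simp

/-! ### live digits -/

theorem plain_cons_sym (M : TM) (a : ℕ) (l : List ℕ) (ha : a ≤ M.nS) :
    plain M (a :: l) = a :: plain M l := by
  unfold plain
  rw [List.filter_cons_of_pos (by simpa using ha)]

theorem plain_cons_rec (M : TM) (g : ℕ) (l : List ℕ) (hg : M.isRec g) :
    plain M (g :: l) = plain M l := by
  unfold plain
  have h := M.not_isSym_of_isRec hg
  unfold TM.isSym at h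
  rw [List.filter_cons_of_neg (by simpa using h)]

theorem plain_head_sym (M : TM) (l : List ℕ) (ha : l.headD 0 ≤ M.nS) :
    (ListBlank.mk (plain M l)).head = l.headD 0 := by
  cases l with
  | nil => rfl
  | cons a t =>
    simp only [List.headD_cons] at ha ⊢
    rw [plain_cons_sym M a t ha]
    rfl

theorem plain_tail_sym (M : TM) (l : List ℕ) (ha : l.headD 0 ≤ M.nS) :
    (ListBlank.mk (plain M l)).tail = ListBlank.mk (plain M l.tail) := by
  cases l with
  | nil => rfl
  | cons a t =>
    simp only [List.headD_cons] at ha
    rw [plain_cons_sym M a t ha]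
    rfl

theorem plain_tail_rec (M : TM) (l : List ℕ) (hg : M.isRec (l.headD 0)) :
    plain M l.tail = plain M l ∧ l.tail.length + 1 = l.length := by
  cases l with
  | nil =>
    exfalso
    simp only [List.headD_nil] at hg
    unfold TM.isRec TM.base1 at hg
    omega
  | cons a t =>
    simp only [List.headD_cons] at hg
    rw [plain_cons_rec M a t hg]
    simp

theorem plain_of_valid (M : TM) (w : List ℕ) (hw : M.ValidInput w) : plain M w = w := by
  unfold plain
  rw [List.filter_eq_self]
  intro a ha
  simpa using hw a ha

theorem Clean.tail {M : TM} {l : List ℕ} (h : Clean M l) : Clean M l.tail :=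
  fun d hd => h d (List.mem_of_mem_tail hd)

theorem Clean.cons {M : TM} {l : List ℕ} (h : Clean M l) {d : ℕ} (hd : d < M.base2) :
    Clean M (d :: l) := by
  intro e he
  rcases List.mem_cons.1 he with rfl | he
  · exact hd
  · exact h e he

theorem Clean.headD {M : TM} {l : List ℕ} (h : Clean M l) : l.headD 0 < M.base2 := by
  cases l with
  | nil => simp only [List.headD_nil]; unfold TM.base2; omega
  | cons a t => exact h a (by simp)

theorem Clean.lt_m {M : TM} {l : List ℕ} (h : Clean M l) : ∀ d ∈ l, d < M.m :=
  fun d hd => lt_of_lt_of_le (h d hd) M.base2_le_m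

end Vale.Agent.P113
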