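import Vale.Agent.P113.Defs

/-!
# P113 subtask T, auxiliary lemmas: bounds for continuous space-periodic fields
-/

namespace Vale.Agent.P113

open Set MeasureTheory
open scoped ContDiff

lemma TorusPeriodic.add_int_single {β : Type*} {g : R3 → β} (hg : TorusPeriodic g) (i : Fin 3)
    (k : ℤ) (x : R3) : g (x + Pi.single i (k : ℝ)) = g x := by
  induction k using Int.induction_on generalizing x with
  | zero => simp
  | succ n ih =>
    have : x + Pi.single i (((n : ℤ) + 1 : ℤ) : ℝ) = (x + Pi.single i ((n : ℤ) : ℝ)) + Pi.single i 1 := by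
      rw [add_assoc, ← Pi.single_add]; push_cast; rfl
    rw [this, hg, ih]
  | pred n ih =>
    have h1 := hg i (x + Pi.single i (((-(n : ℤ) - 1 : ℤ)) : ℝ))
    have : x + Pi.single i (((-(n : ℤ) - 1 : ℤ)) : ℝ) + Pi.single i 1
        = x + Pi.single i ((-(n : ℤ) : ℤ) : ℝ) := by
      rw [add_assoc, ← Pi.single_add]; push_cast; congr 2; ring
    rw [this, ih] at h1
    exact h1.symm

lemma TorusPeriodic.add_int {β : Type*} {g : R3 → β} (hg : TorusPeriodic g) (n : Fin 3 → ℤ)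
    (x : R3) : g (x + fun i => (n i : ℝ)) = g x := by
  have : (x + fun i => (n i : ℝ)) = x + Pi.single 0 (n 0 : ℝ) + Pi.single 1 (n 1 : ℝ)
      + Pi.single 2 (n 2 : ℝ) := by
    ext i
    fin_cases i <;> simp
  rw [this, hg.add_int_single, hg.add_int_single, hg.add_int_single]

lemma TorusPeriodic.exists_mem_cube {β : Type*} {g : R3 → β} (hg : TorusPeriodic g) (x : R3) :
    ∃ y ∈ Icc (0 : R3) 1, g y = g x := by
  refine ⟨x + fun i => ((-⌊x i⌋ : ℤ) : ℝ), ⟨fun i => ?_, fun i => ?_⟩, hg.add_int _ x⟩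
  · simp only [Pi.zero_apply, Pi.add_apply]
    push_cast
    linarith [Int.floor_le (x i)]
  · simp only [Pi.one_apply, Pi.add_apply]
    push_cast
    linarith [Int.lt_floor_add_one (x i)]

lemma bounded_of_periodic {β : Type*} [SeminormedAddCommGroup β] (F : ℝ → R3 → β)
    (hF : Continuous (fun q : ℝ × R3 => F q.1 q.2)) (hper : ∀ t, TorusPeriodic (F t))
    (s₀ s₁ : ℝ) : ∃ C : ℝ, 0 ≤ C ∧ ∀ t ∈ Icc s₀ s₁, ∀ x, ‖F t x‖ ≤ C := by
  have hc : IsCompact (Icc s₀ s₁ ×ˢ Icc (0 : R3) 1) := isCompact_Icc.prod isCompact_Icc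
  obtain ⟨C, hC⟩ := hc.exists_bound_of_continuousOn hF.continuousOn
  refine ⟨max C 0, le_max_right _ _, fun t ht x => ?_⟩
  obtain ⟨y, hy, hyx⟩ := (hper t).exists_mem_cube x
  rw [← hyx]
  exact (hC (t, y) ⟨ht, hy⟩).trans (le_max_left _ _)


lemma hasFDerivAt_slice {u : ℝ → R3 → R3}
    (hu : ContDiff ℝ ∞ (fun q : ℝ × R3 => u q.1 q.2)) (t : ℝ) (x : R3) :
    HasFDerivAt (u t) ((fderiv ℝ (fun q : ℝ × R3 => u q.1 q.2) (t, x)).comp
      (ContinuousLinearMap.inr ℝ ℝ R3)) x := by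
  have hU : Differentiable ℝ (fun q : ℝ × R3 => u q.1 q.2) := hu.differentiable (by simp)
  exact (hU (t, x)).hasFDerivAt.comp x (hasFDerivAt_prodMk_right t x)

/-- uniform bound and uniform Lipschitz constant on a compact time interval -/
lemma exists_bound_lipschitz {u : ℝ → R3 → R3}
    (hu : ContDiff ℝ ∞ (fun q : ℝ × R3 => u q.1 q.2))
    (hper : ∀ t, TorusPeriodic (u t)) (s₀ s₁ : ℝ) :
    ∃ L K : NNReal, (∀ t ∈ Icc s₀ s₁, ∀ x, ‖u t x‖ ≤ L) ∧
      ∀ t ∈ Icc s₀ s₁, LipschitzWith K (u t) := by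
  obtain ⟨L, hL0, hL⟩ := bounded_of_periodic u hu.continuous hper s₀ s₁
  have hD : ∀ t x, fderiv ℝ (u t) x = (fderiv ℝ (fun q : ℝ × R3 => u q.1 q.2) (t, x)).comp
      (ContinuousLinearMap.inr ℝ ℝ R3) := fun t x => (hasFDerivAt_slice hu t x).fderiv
  have hDc : Continuous (fun q : ℝ × R3 => fderiv ℝ (u q.1) q.2) := by
    have h1 : Continuous (fun q : ℝ × R3 => fderiv ℝ (fun q : ℝ × R3 => u q.1 q.2) q) :=
      hu.continuous_fderiv (by simp)
    have h2 : (fun q : ℝ × R3 => fderiv ℝ (u q.1) q.2)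
        = fun q : ℝ × R3 => (fderiv ℝ (fun q : ℝ × R3 => u q.1 q.2) q).comp
          (ContinuousLinearMap.inr ℝ ℝ R3) := by
      funext q; exact hD q.1 q.2
    rw [h2]
    exact h1.clm_comp continuous_const
  have hDper : ∀ t, TorusPeriodic (fun x => fderiv ℝ (u t) x) := by
    intro t i x
    have h1 : (fun y => u t (y + Pi.single i 1)) = u t := by
      funext y; exact hper t i y
    have h2 := fderiv_comp_add_right (𝕜 := ℝ) (f := u t) (x := x) (Pi.single i 1)
    rw [h1] at h2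
    exact h2.symm
  obtain ⟨K, hK0, hK⟩ := bounded_of_periodic (fun t x => fderiv ℝ (u t) x) hDc hDper s₀ s₁
  refine ⟨⟨L, hL0⟩, ⟨K, hK0⟩, hL, fun t ht => ?_⟩
  refine lipschitzWith_of_nnnorm_fderiv_le
    (fun x => (hasFDerivAt_slice hu t x).differentiableAt) fun x => ?_
  exact_mod_cast hK t ht x

end Vale.Agent.P113
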