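import Vale.Agent.P113.Defs
import Vale.Agent.P113.TrajAux

/-!
# P113 subtask T: global existence and uniqueness of particle trajectories of a smooth
space-periodic velocity field
-/

namespace Vale.Agent.P113

open Set MeasureTheory
open scoped ContDiff

/-- Uniqueness on a compact time interval. -/
theorem traj_eqOn {u : ℝ → R3 → R3}
    (hu : ContDiff ℝ ∞ (fun q : ℝ × R3 => u q.1 q.2))
    (hper : ∀ t, TorusPeriodic (u t)) {t₀ t₁ : ℝ} (_h01 : t₀ ≤ t₁) {X Z : ℝ → R3}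
    (hX : ∀ t ∈ Icc t₀ t₁, HasDerivWithinAt X (u t (X t)) (Icc t₀ t₁) t)
    (hZ : ∀ t ∈ Icc t₀ t₁, HasDerivWithinAt Z (u t (Z t)) (Icc t₀ t₁) t)
    (h0 : X t₀ = Z t₀) : ∀ t ∈ Icc t₀ t₁, X t = Z t := by
  obtain ⟨L, K, -, hK⟩ := exists_bound_lipschitz hu hper t₀ t₁
  exact ODE_solution_unique_of_mem_Icc_right (v := u) (s := fun _ => univ) (K := K)
    (fun t ht => (hK t (Ico_subset_Icc_self ht)).lipschitzOnWith)
    (fun t ht => (hX t ht).continuousWithinAt)
    (fun t ht => (hX t (Ico_subset_Icc_self ht)).mono_of_mem_nhdsWithin (Icc_mem_nhdsGE_of_mem ht))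
    (fun _ _ => mem_univ _)
    (fun t ht => (hZ t ht).continuousWithinAt)
    (fun t ht => (hZ t (Ico_subset_Icc_self ht)).mono_of_mem_nhdsWithin (Icc_mem_nhdsGE_of_mem ht))
    (fun _ _ => mem_univ _) h0

/-- Existence on `[0, T]`. -/
theorem exists_trajectory_Icc {u : ℝ → R3 → R3}
    (hu : ContDiff ℝ ∞ (fun q : ℝ × R3 => u q.1 q.2))
    (hper : ∀ t, TorusPeriodic (u t)) (a : R3) (T : ℝ) (hT : 0 ≤ T) :
    ∃ α : ℝ → R3, α 0 = a ∧
      ∀ t ∈ Icc (0 : ℝ) T, HasDerivWithinAt α (u t (α t)) (Icc (0 : ℝ) T) t := by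
  obtain ⟨L, K, hL, hK⟩ := exists_bound_lipschitz hu hper 0 T
  have hPL : IsPicardLindelof u (tmin := 0) (tmax := T) ⟨0, left_mem_Icc.mpr hT⟩ a
      (L * ⟨T, hT⟩) 0 L K :=
    { lipschitzOnWith := fun t ht => (hK t ht).lipschitzOnWith
      continuousOn := fun x _ => by
        have : Continuous (fun t : ℝ => u t x) :=
          hu.continuous.comp (continuous_id.prodMk continuous_const)
        exact this.continuousOn
      norm_le := fun t ht x _ => hL t ht x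
      mul_max_le := by
        simp only [sub_zero, sub_self, NNReal.coe_zero]
        rw [max_eq_left hT]
        exact le_of_eq rfl }
  obtain ⟨α, hα0, hα⟩ := hPL.exists_eq_forall_mem_Icc_hasDerivWithinAt₀
  exact ⟨α, hα0, hα⟩

/-- Global existence of the trajectory. -/
theorem exists_trajectory {u : ℝ → R3 → R3}
    (hu : ContDiff ℝ ∞ (fun q : ℝ × R3 => u q.1 q.2))
    (hper : ∀ t, TorusPeriodic (u t)) (a : R3) :
    ∃ X : ℝ → R3, IsTrajectory u a X := by
  choose α hα0 hα using fun n : ℕ => exists_trajectory_Icc hu hper a (n : ℝ) (Nat.cast_nonneg n)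
  -- compatibility
  have hcompat : ∀ m n : ℕ, m ≤ n → ∀ t ∈ Icc (0 : ℝ) m, α m t = α n t := by
    intro m n hmn
    have hsub : Icc (0 : ℝ) m ⊆ Icc (0 : ℝ) n := Icc_subset_Icc_right (by exact_mod_cast hmn)
    exact traj_eqOn hu hper (Nat.cast_nonneg m) (hα m)
      (fun t ht => (hα n t (hsub ht)).mono hsub) ((hα0 m).trans (hα0 n).symm)
  refine ⟨fun t => α (⌈t⌉₊ + 1) t, ?_, fun t ht => ?_⟩
  · simp [hα0]
  · set N : ℕ := ⌈t⌉₊ + 2 with hN
    have htN : t < ((⌈t⌉₊ + 1 : ℕ) : ℝ) := by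
      push_cast
      linarith [Nat.le_ceil t]
    have htN' : t < (N : ℝ) := by
      rw [hN]; push_cast; push_cast at htN; linarith
    -- X agrees with α N on [0, ⌈t⌉₊ + 1]
    have hagree : ∀ s ∈ Icc (0 : ℝ) ((⌈t⌉₊ + 1 : ℕ) : ℝ), α (⌈s⌉₊ + 1) s = α N s := by
      intro s hs
      have h1 : ⌈s⌉₊ ≤ ⌈t⌉₊ + 1 := Nat.ceil_le.mpr hs.2
      refine hcompat _ _ (by omega) s ⟨hs.1, ?_⟩
      push_cast
      linarith [Nat.le_ceil s]
    have hmem : ∀ b : ℝ, t < b → Icc (0 : ℝ) b ∈ nhdsWithin t (Ici 0) := by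
      intro b hb
      have := inter_mem_nhdsWithin (Ici (0 : ℝ)) (Iic_mem_nhds hb)
      rwa [Ici_inter_Iic] at this
    have hder : HasDerivWithinAt (α N) (u t (α N t)) (Ici 0) t :=
      (hα N t ⟨ht, htN'.le⟩).mono_of_mem_nhdsWithin (hmem _ htN')
    have hXt : α (⌈t⌉₊ + 1) t = α N t := hagree t ⟨ht, htN.le⟩
    have hev : (fun s => α (⌈s⌉₊ + 1) s) =ᶠ[nhdsWithin t (Ici 0)] α N :=
      Filter.eventually_of_mem (hmem _ htN) hagree
    have := hder.congr_of_eventuallyEq hev hXt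
    simpa only [hXt] using this

end Vale.Agent.P113
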