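import Vale.Agent.P113.FieldProps
import Vale.Agent.P113.Traj

/-!
# P113: the trajectory during one time slot
-/

namespace Vale.Agent.P113

open Set MeasureTheory Filter
open scoped ContDiff Topology

theorem step_monotone : Monotone step := by
  apply monotone_of_deriv_nonneg
  · exact step_contDiff.differentiable (by simp)
  · intro x; rw [step_deriv]; exact pulse_nonneg x

theorem step_nonneg (x : ℝ) : 0 ≤ step x := by
  rcases le_total x 0 with h | h
  · rw [step_of_nonpos h]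
  · rw [← step_of_nonpos le_rfl]; exact step_monotone h

theorem step_le_one (x : ℝ) : step x ≤ 1 := by
  rcases le_total x 1 with h | h
  · rw [← step_of_one_le le_rfl]; exact step_monotone h
  · rw [step_of_one_le h]


theorem pulse_int (n : ℤ) : pulse n = 0 := by
  apply pulse_eq_zero
  rcases le_or_gt n 0 with h | h
  · left; exact_mod_cast h
  · right; exact_mod_cast h

theorem theta_at (j q r : ℕ) (hr : r < 12) {s : ℝ} (h0 : 0 ≤ s) (h1 : s < 1) :
    theta j (12 * (q : ℝ) + r + s) = pulse ((r : ℝ) + s - ((j : ℝ) + 1)) := by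
  have hrR : (r : ℝ) ≤ 11 := by
    have : r ≤ 11 := by omega
    exact_mod_cast this
  have hr0 : (0:ℝ) ≤ (r : ℝ) := Nat.cast_nonneg _
  have hfl : ⌊(12 * (q : ℝ) + r + s) / 12⌋ = (q : ℤ) := by
    rw [Int.floor_eq_iff]
    constructor
    · rw [le_div_iff₀ (by norm_num)]; simp only [Int.cast_natCast]; linarith
    · rw [div_lt_iff₀ (by norm_num)]; simp only [Int.cast_natCast]; linarith
  have hfr : 12 * Int.fract ((12 * (q : ℝ) + r + s) / 12) = (r : ℝ) + s := by
    rw [Int.fract, hfl]; simp only [Int.cast_natCast]; field_simp; ring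
  show pulse (12 * Int.fract ((12 * (q : ℝ) + r + s) / 12) - ((j : ℝ) + 1)) = _
  rw [hfr]

theorem theta_slot (j : ℕ) (N : ℕ) {t : ℝ} (ht : t ∈ Icc (N : ℝ) (N + 1)) :
    theta j t = if N % 12 = j + 1 then pulse (t - N) else 0 := by
  rcases lt_or_eq_of_le ht.2 with hlt | heq
  · have hdiv : (N : ℝ) = 12 * ((N / 12 : ℕ) : ℝ) + ((N % 12 : ℕ) : ℝ) := by
      have := Nat.div_add_mod N 12
      exact_mod_cast this.symm
    have hmod : N % 12 < 12 := Nat.mod_lt _ (by norm_num)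
    have e : t = 12 * ((N / 12 : ℕ) : ℝ) + ((N % 12 : ℕ) : ℝ) + (t - N) := by linarith
    have h0 : 0 ≤ t - N := by have := ht.1; linarith
    have h1 : t - N < 1 := by linarith
    rw [e, theta_at j _ _ hmod h0 h1, ← e]
    split_ifs with h
    · rw [h]; push_cast; congr 1; ring
    · apply pulse_eq_zero
      rcases lt_or_gt_of_ne h with h' | h'
      · left
        have : ((N % 12 : ℕ) : ℝ) + 1 ≤ ((j + 1 : ℕ) : ℝ) := by exact_mod_cast h'
        push_cast at this
        linarith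
      · right
        have : ((j + 1 : ℕ) : ℝ) + 1 ≤ ((N % 12 : ℕ) : ℝ) := by exact_mod_cast h'
        push_cast at this
        linarith
  · have hr : (if N % 12 = j + 1 then pulse (t - N) else 0) = 0 := by
      split_ifs
      · apply pulse_eq_zero; right; linarith
      · rfl
    rw [hr]
    have hdiv' : ((N : ℝ) + 1) = 12 * (((N + 1) / 12 : ℕ) : ℝ) + (((N + 1) % 12 : ℕ) : ℝ) := by
      have := Nat.div_add_mod (N + 1) 12
      exact_mod_cast this.symm
    have hmod' : (N + 1) % 12 < 12 := Nat.mod_lt _ (by norm_num)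
    have e : t = 12 * (((N + 1) / 12 : ℕ) : ℝ) + (((N + 1) % 12 : ℕ) : ℝ) + 0 := by linarith
    rw [e, theta_at j _ _ hmod' le_rfl one_pos]
    have : (((N + 1) % 12 : ℕ) : ℝ) + 0 - ((j:ℝ) + 1)
        = (((((N + 1) % 12 : ℕ) : ℤ) - ((j : ℤ) + 1) : ℤ) : ℝ) := by
      simp only [Int.cast_sub, Int.cast_natCast, Int.cast_add, Int.cast_one]; ring
    rw [this]
    exact pulse_int _



theorem vel_slot_phase (k : ℕ) (tab : ℕ → ℕ → ℕ × ℕ) (τ : ℝ) {N j : ℕ} (hN : 1 ≤ N) (hj : j < 10)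
    (hNj : N % 12 = j + 1) {t : ℝ} (ht : t ∈ Icc (N : ℝ) (N + 1)) (x : R3) :
    vel k tab τ t x
      = pulse (t - N) • phaseField (2 ^ k) (actsOnFirst j) (g0 k tab j) (g1 k tab j) x := by
  unfold vel
  have h1 : (1:ℝ) ≤ t := by
    have : (1:ℝ) ≤ N := by exact_mod_cast hN
    linarith [ht.1]
  rw [pulse_eq_zero (Or.inr h1), zero_smul, zero_add]
  rw [Finset.sum_eq_single j]
  · rw [theta_slot j N ht, if_pos hNj]
  · intro j' _ hne
    rw [theta_slot j' N ht, if_neg (by omega), zero_smul]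
  · intro h; exact absurd (Finset.mem_range.2 hj) h

theorem vel_slot_idle (k : ℕ) (tab : ℕ → ℕ → ℕ × ℕ) (τ : ℝ) {N : ℕ} (hN : 1 ≤ N)
    (hNj : N % 12 = 0 ∨ N % 12 = 11) {t : ℝ} (ht : t ∈ Icc (N : ℝ) (N + 1)) (x : R3) :
    vel k tab τ t x = 0 := by
  unfold vel
  have h1 : (1:ℝ) ≤ t := by
    have : (1:ℝ) ≤ N := by exact_mod_cast hN
    linarith [ht.1]
  rw [pulse_eq_zero (Or.inr h1), zero_smul, zero_add]
  apply Finset.sum_eq_zero
  intro j' hj'
  have := Finset.mem_range.1 hj'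
  rw [theta_slot j' N ht, if_neg (by omega), zero_smul]

theorem vel_slot_init (k : ℕ) (tab : ℕ → ℕ → ℕ × ℕ) (τ : ℝ) {t : ℝ} (ht : t ∈ Icc (0 : ℝ) 1)
    (x : R3) : vel k tab τ t x = pulse t • ![0, τ, 0] := by
  unfold vel
  have ht' : t ∈ Icc ((0 : ℕ) : ℝ) ((0 : ℕ) + 1) := by simpa using ht
  rw [Finset.sum_eq_zero, add_zero]
  intro j' _
  rw [theta_slot j' 0 ht', if_neg (by omega), zero_smul]

/-- A trajectory coincides on a slot with any explicit solution having the same value at the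
beginning of the slot. -/
theorem traj_slot {k : ℕ} {tab : ℕ → ℕ → ℕ × ℕ} {τ : ℝ} {a : R3} {X : ℝ → R3}
    (hX : IsTrajectory (vel k tab τ) a X) (N : ℕ) {Z : ℝ → R3}
    (hZ : ∀ t ∈ Icc (N : ℝ) (N + 1), HasDerivAt Z (vel k tab τ t (Z t)) t)
    (h0 : X N = Z N) : ∀ t ∈ Icc (N : ℝ) (N + 1), X t = Z t := by
  have hN0 : (0:ℝ) ≤ N := Nat.cast_nonneg N
  apply traj_eqOn (vel_contDiff k tab τ) (vel_periodic k tab τ) (by linarith)
  · intro t ht
    apply (hX.2 t (by linarith [ht.1])).mono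
    intro s hs
    exact le_trans hN0 hs.1
  · intro t ht
    exact (hZ t ht).hasDerivWithinAt
  · exact h0

theorem traj_slot_idle {k : ℕ} {tab : ℕ → ℕ → ℕ × ℕ} {τ : ℝ} {a : R3} {X : ℝ → R3}
    (hX : IsTrajectory (vel k tab τ) a X) {N : ℕ} (hN : 1 ≤ N)
    (hNj : N % 12 = 0 ∨ N % 12 = 11) : ∀ t ∈ Icc (N : ℝ) (N + 1), X t = X N := by
  apply traj_slot hX N (Z := fun _ => X N)
  · intro t ht
    rw [vel_slot_idle k tab τ hN hNj ht]
    exact hasDerivAt_const t (X N)
  · rfl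

theorem hasDerivAt_vec3 {f0 f1 f2 : ℝ → ℝ} {d0 d1 d2 t : ℝ} (h0 : HasDerivAt f0 d0 t)
    (h1 : HasDerivAt f1 d1 t) (h2 : HasDerivAt f2 d2 t) :
    HasDerivAt (fun s => (![f0 s, f1 s, f2 s] : R3)) ![d0, d1, d2] t := by
  rw [hasDerivAt_pi]
  intro i
  fin_cases i
  · exact h0
  · exact h1
  · exact h2

theorem traj_slot_init {k : ℕ} {tab : ℕ → ℕ → ℕ × ℕ} {τ : ℝ} {a : R3} {X : ℝ → R3}
    (hX : IsTrajectory (vel k tab τ) a X) :
    ∀ t ∈ Icc (0 : ℝ) 1, X t = ![a 0, a 1 + τ * step t, a 2] := by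
  have := traj_slot hX 0 (Z := fun t => ![a 0, a 1 + τ * step t, a 2]) ?_ ?_
  · simpa using this
  · intro t ht
    have ht' : t ∈ Icc (0:ℝ) 1 := by simpa using ht
    rw [vel_slot_init k tab τ ht']
    have : pulse t • (![0, τ, 0] : R3) = ![0, τ * pulse t, 0] := by
      ext i; fin_cases i <;> simp [mul_comm]
    rw [this]
    apply hasDerivAt_vec3 (hasDerivAt_const t _) _ (hasDerivAt_const t _)
    simpa using ((step_hasDerivAt t).const_mul τ).const_add (a 1)
  · simp only [Nat.cast_zero]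
    rw [hX.1, step_of_nonpos le_rfl]
    ext i; fin_cases i <;> simp



theorem per_of_mem (g : ℝ → ℝ) {x : ℝ} (h0 : 0 ≤ x) (h1 : x < 1) : per g x = g x := by
  unfold per; rw [Int.fract_eq_self.2 ⟨h0, h1⟩]

theorem per_phi_half : per phi (1 / 2) = 0 := by
  rw [per_of_mem _ (by norm_num) (by norm_num)]; simp [phi]

theorem per_dphi_half : per (deriv phi) (1 / 2) = 1 := by
  rw [per_of_mem _ (by norm_num) (by norm_num)]
  have hw : DifferentiableAt ℝ win (1/2) := win_contDiff.differentiable (by simp) _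
  have h : HasDerivAt phi (1 * win (1/2) + (1/2 - 1/2) * deriv win (1/2)) (1/2) := by
    unfold phi
    exact ((hasDerivAt_id (1/2 : ℝ)).sub_const (1/2)).mul hw.hasDerivAt
  rw [h.deriv, win_eq_one (by norm_num) (by norm_num)]; ring

/-- value of the speed function in the working window -/
theorem Afun_eq {K : ℕ} {v0 v1 : ℕ → ℝ} {x y c P : ℝ} (hx0 : 3 / 16 ≤ x) (hx1 : x ≤ 3 / 4)
    (hy0 : 0 ≤ y) (hy1 : y < 1) (h0 : tabfun K v0 y = c) (h1 : tabfun K v1 y = c * P) :
    Afun K v0 v1 x y = c * (P - x) := by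
  unfold Afun
  rw [per_of_mem win (by linarith) (by linarith), per_of_mem lin (by linarith) (by linarith),
    per_of_mem (tabfun K v1) hy0 hy1, per_of_mem (tabfun K v0) hy0 hy1, h0, h1]
  unfold lin
  rw [win_eq_one hx0 hx1]; ring

/-- the explicit motion of the moving coordinate during a phase -/
noncomputable def pathC (c P x₀ s : ℝ) : ℝ := P + (x₀ - P) * Real.exp (-(c * step s))

theorem pathC_hasDerivAt (c P x₀ N t : ℝ) :
    HasDerivAt (fun s => pathC c P x₀ (s - N)) (pulse (t - N) * (c * (P - pathC c P x₀ (t - N)))) t := by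
  unfold pathC
  have h1 : HasDerivAt (fun s => step (s - N)) (pulse (t - N)) t := by
    simpa using (step_hasDerivAt (t - N)).comp_sub_const t N
  have h3 : HasDerivAt (fun s => -(c * step (s - N))) (-(c * pulse (t - N))) t :=
    (h1.const_mul c).neg
  have h4 : HasDerivAt (fun s => Real.exp (-(c * step (s - N))))
      (Real.exp (-(c * step (t - N))) * -(c * pulse (t - N))) t := h3.exp
  have h5 := (h4.const_mul (x₀ - P)).const_add P
  refine h5.congr_deriv ?_
  ring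

theorem pathC_zero (c P x₀ : ℝ) : pathC c P x₀ 0 = x₀ := by
  unfold pathC; rw [step_of_nonpos le_rfl]; simp

theorem pathC_one (c P x₀ : ℝ) : pathC c P x₀ 1 = P + (x₀ - P) * Real.exp (-c) := by
  unfold pathC; rw [step_of_one_le le_rfl]; simp

theorem traj_slot_first {k : ℕ} {tab : ℕ → ℕ → ℕ × ℕ} {τ : ℝ} {a : R3} {X : ℝ → R3}
    (hX : IsTrajectory (vel k tab τ) a X) {N j : ℕ} (hN : 1 ≤ N) (hj : j < 10)
    (hNj : N % 12 = j + 1) (hf : actsOnFirst j) {x₀ y₀ c P : ℝ}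
    (hXN : X N = ![x₀, y₀, 1 / 2]) (hy0 : 0 ≤ y₀) (hy1 : y₀ < 1)
    (h0 : tabfun (2 ^ k) (g0 k tab j) y₀ = c) (h1 : tabfun (2 ^ k) (g1 k tab j) y₀ = c * P)
    (hpath : ∀ s, 3 / 16 ≤ pathC c P x₀ s ∧ pathC c P x₀ s ≤ 3 / 4) :
    ∀ t ∈ Icc (N : ℝ) (N + 1), X t = ![pathC c P x₀ (t - N), y₀, 1 / 2] := by
  apply traj_slot hX N (Z := fun t => ![pathC c P x₀ (t - N), y₀, 1 / 2])
  · intro t ht
    rw [vel_slot_phase k tab τ hN hj hNj ht]
    have e : pulse (t - N) • phaseField (2 ^ k) (actsOnFirst j) (g0 k tab j) (g1 k tab j)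
        ![pathC c P x₀ (t - N), y₀, 1 / 2]
        = ![pulse (t - N) * (c * (P - pathC c P x₀ (t - N))), 0, 0] := by
      unfold phaseField
      rw [if_pos hf]
      simp only [Matrix.cons_val_zero, Matrix.cons_val_one, Matrix.cons_val]
      rw [per_phi_half, per_dphi_half,
        Afun_eq (hpath _).1 (hpath _).2 hy0 hy1 h0 h1]
      ext i; fin_cases i <;> simp
    rw [e]
    exact hasDerivAt_vec3 (pathC_hasDerivAt c P x₀ N t) (hasDerivAt_const t _) (hasDerivAt_const t _)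
  · simp only [sub_self, pathC_zero]; exact hXN

theorem traj_slot_second {k : ℕ} {tab : ℕ → ℕ → ℕ × ℕ} {τ : ℝ} {a : R3} {X : ℝ → R3}
    (hX : IsTrajectory (vel k tab τ) a X) {N j : ℕ} (hN : 1 ≤ N) (hj : j < 10)
    (hNj : N % 12 = j + 1) (hf : ¬ actsOnFirst j) {x₀ y₀ c P : ℝ}
    (hXN : X N = ![y₀, x₀, 1 / 2]) (hy0 : 0 ≤ y₀) (hy1 : y₀ < 1)
    (h0 : tabfun (2 ^ k) (g0 k tab j) y₀ = c) (h1 : tabfun (2 ^ k) (g1 k tab j) y₀ = c * P)
    (hpath : ∀ s, 3 / 16 ≤ pathC c P x₀ s ∧ pathC c P x₀ s ≤ 3 / 4) :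
    ∀ t ∈ Icc (N : ℝ) (N + 1), X t = ![y₀, pathC c P x₀ (t - N), 1 / 2] := by
  apply traj_slot hX N (Z := fun t => ![y₀, pathC c P x₀ (t - N), 1 / 2])
  · intro t ht
    rw [vel_slot_phase k tab τ hN hj hNj ht]
    have e : pulse (t - N) • phaseField (2 ^ k) (actsOnFirst j) (g0 k tab j) (g1 k tab j)
        ![y₀, pathC c P x₀ (t - N), 1 / 2]
        = ![0, pulse (t - N) * (c * (P - pathC c P x₀ (t - N))), 0] := by
      unfold phaseField
      rw [if_neg hf]
      simp only [Matrix.cons_val_zero, Matrix.cons_val_one, Matrix.cons_val]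
      rw [per_phi_half, per_dphi_half,
        Afun_eq (hpath _).1 (hpath _).2 hy0 hy1 h0 h1]
      ext i; fin_cases i <;> simp
    rw [e]
    exact hasDerivAt_vec3 (hasDerivAt_const t _) (pathC_hasDerivAt c P x₀ N t) (hasDerivAt_const t _)
  · simp only [sub_self, pathC_zero]; exact hXN

end Vale.Agent.P113
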