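import Vale.Agent.P113.Defs

/-!
# P113: statement-level definitions for the formulation on the quotient torus `(ℝ/ℤ)^3`
-/

namespace Vale.Agent.P113

open Set

/-- The flat torus `(ℝ/ℤ)^3`. -/
abbrev T3 : Type := Fin 3 → AddCircle (1 : ℝ)

/-- The covering projection `ℝ^3 → (ℝ/ℤ)^3`. -/
def proj (x : R3) : T3 := fun i => (x i : AddCircle (1 : ℝ))

/-- A time dependent function on the torus, read in the coordinates of the covering `ℝ^3`. -/
def up {β : Type*} (g : ℝ → T3 → β) : ℝ → R3 → β := fun t x => g t (proj x)

/-- `X` is a lift to `ℝ^3` of the particle trajectory of the velocity field `u` on the torus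
which starts from the point `a` of the torus. -/
def IsTorusTrajectory (u : ℝ → T3 → R3) (a : T3) (X : ℝ → R3) : Prop :=
  proj (X 0) = a ∧ ∀ t : ℝ, 0 ≤ t → HasDerivWithinAt X (u t (proj (X t))) (Ici 0) t

end Vale.Agent.P113
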