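import Vale.Agent.P113.Final
import Vale.Agent.P113.TorusDefs

/-!
# P113: the full statement on the quotient torus
-/

namespace Vale.Agent.P113

open Set
open scoped ContDiff

theorem proj_surjective : Function.Surjective proj := by
  intro y
  choose x hx using fun i => QuotientAddGroup.mk_surjective (y i)
  exact ⟨x, funext hx⟩

theorem proj_add_int (y : R3) (n : Fin 3 → ℤ) : proj (y + fun i => (n i : ℝ)) = proj y := by
  funext i
  have h : ((n i : ℝ) : AddCircle (1 : ℝ)) = 0 :=
    (AddCircle.coe_eq_zero_iff (1 : ℝ)).mpr ⟨n i, by simp⟩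
  simp only [proj, Pi.add_apply, AddCircle.coe_add, h, add_zero]

theorem proj_eq_iff {x y : R3} :
    proj x = proj y ↔ ∃ n : Fin 3 → ℤ, x = y + fun i => (n i : ℝ) := by
  constructor
  · intro h
    have h1 : ∀ i, ∃ n : ℤ, x i = y i + (n : ℝ) := by
      intro i
      have h0 : (x i : AddCircle (1 : ℝ)) = (y i : AddCircle (1 : ℝ)) := congrFun h i
      have h2 : ((x i - y i : ℝ) : AddCircle (1 : ℝ)) = 0 := by
        rw [AddCircle.coe_sub]
        exact sub_eq_zero.mpr h0
      obtain ⟨n, hn⟩ := (AddCircle.coe_eq_zero_iff (1 : ℝ)).mp h2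
      refine ⟨n, ?_⟩
      simp only [zsmul_eq_mul, mul_one] at hn
      linarith
    choose n hn using h1
    exact ⟨n, funext hn⟩
  · rintro ⟨n, rfl⟩
    exact proj_add_int y n

theorem proj_isOpenMap : IsOpenMap proj := by
  have h : proj = Pi.map (fun _ : Fin 3 => ((↑) : ℝ → AddCircle (1 : ℝ))) := rfl
  rw [h]
  exact IsOpenMap.piMap (fun _ => QuotientAddGroup.isOpenMap_coe)
    (Filter.Eventually.of_forall fun _ => QuotientAddGroup.mk_surjective)

/-- a periodic function on `ℝ^3` descends to the torus -/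
noncomputable def desc {β : Type*} (g : R3 → β) : T3 → β :=
  fun y => g (Function.surjInv proj_surjective y)

theorem desc_proj {β : Type*} {g : R3 → β} (hg : TorusPeriodic g) (x : R3) :
    desc g (proj x) = g x := by
  unfold desc
  have h := Function.surjInv_eq proj_surjective (proj x)
  obtain ⟨n, hn⟩ := proj_eq_iff.mp h
  rw [hn, hg.add_int]

theorem up_desc {β : Type*} {g : ℝ → R3 → β} (hg : ∀ t, TorusPeriodic (g t)) :
    up (fun t => desc (g t)) = g := by
  funext t x
  exact desc_proj (hg t) x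

theorem mem_image_proj_iff {O : Set R3}
    (hO : ∀ (i : Fin 3) (x : R3), x + Pi.single i 1 ∈ O ↔ x ∈ O) (x : R3) :
    proj x ∈ proj '' O ↔ x ∈ O := by
  have hper : TorusPeriodic (fun x : R3 => x ∈ O) := fun i x => propext (hO i x)
  constructor
  · rintro ⟨y, hy, hyx⟩
    obtain ⟨n, hn⟩ := proj_eq_iff.mp hyx
    have h : ((x + fun i => (n i : ℝ)) ∈ O) = (x ∈ O) := hper.add_int n x
    rw [← h, ← hn]
    exact hy
  · intro hx
    exact ⟨x, hx, rfl⟩

theorem final_torus (ν : ℝ) (hν : 0 < ν) (hc : ComputableReal ν) :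
    ∃ (a : T3) (O : Set T3) (f : TM → List ℕ → ℝ → T3 → R3)
      (compiler : TM × List ℕ → Nat.Partrec.Code) (T₀ : ℝ),
      IsOpen O ∧ Computable compiler ∧
      (∀ (M : TM) (w : List ℕ), ContDiff ℝ ∞ (fun q : ℝ × R3 => f M w q.1 (proj q.2)) ∧
        IsProgramFor (compiler (M, w)) (up (f M w))) ∧
      (∀ M : TM, ∃ P : ℝ, 0 < P ∧ ∀ (w w' : List ℕ) (t : ℝ), T₀ ≤ t →
        f M w t = f M w' t ∧ f M w (t + P) = f M w t) ∧
      ∀ (M : TM) (w : List ℕ), M.ValidInput w →
        ∃ (u : ℝ → T3 → R3) (p : ℝ → T3 → ℝ),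
          IsGlobalSmoothSolution ν (up (f M w)) (up u) (up p) ∧
          (∀ (T : ℝ), 0 < T → ∀ (u' : ℝ → T3 → R3) (p' : ℝ → T3 → ℝ),
            IsClassicalSolution ν (up (f M w)) T (up u') (up p') →
              ∀ t ∈ Icc (0 : ℝ) T, u' t = u t ∧ p' t = p t) ∧
          (∃ X : ℝ → R3, IsTorusTrajectory u a X) ∧
          ∀ X : ℝ → R3, IsTorusTrajectory u a X →
            ((∃ t : ℝ, 0 ≤ t ∧ proj (X t) ∈ O) ↔ M.Halts w) := by
  obtain ⟨h1, h2, h3, h4, h5⟩ := main_dynamics ν hν
  obtain ⟨compiler, hcomp, hprog⟩ := exists_compiler ν hc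
  have hf : ∀ (M : TM) (w : List ℕ), up (fun t => desc (forceM ν M w t)) = forceM ν M w :=
    fun M w => up_desc (h3 M w).2
  have hvper : ∀ (M : TM) (w : List ℕ) (t : ℝ), TorusPeriodic (velM M w t) :=
    fun M w t => vel_periodic _ _ _ t
  have hu : ∀ (M : TM) (w : List ℕ), up (fun t => desc (velM M w t)) = velM M w :=
    fun M w => up_desc (hvper M w)
  refine ⟨proj aStar, proj '' targetO, fun M w t => desc (forceM ν M w t), compiler, 1,
    proj_isOpenMap _ h1, hcomp, ?_, ?_, ?_⟩
  · intro M w
    refine ⟨?_, ?_⟩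
    · have h : (fun q : ℝ × R3 => desc (forceM ν M w q.1) (proj q.2))
          = fun q : ℝ × R3 => forceM ν M w q.1 q.2 := by
        funext q
        exact desc_proj ((h3 M w).2 q.1) q.2
      rw [h]
      exact (h3 M w).1
    · rw [hf M w]
      exact hprog M w
  · intro M
    refine ⟨12, by norm_num, fun w w' t ht => ?_⟩
    obtain ⟨e1, e2⟩ := h4 M w w' t ht
    exact ⟨by simp only [e1], by simp only [e2]⟩
  · intro M w hw
    obtain ⟨g1, g2, ⟨X₀, hX₀⟩, g4⟩ := h5 M w hw
    refine ⟨fun t => desc (velM M w t), fun _ _ => 0, ?_, ?_, ?_, ?_⟩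
    · rw [hf M w, hu M w]
      exact g1
    · intro T hT u' p' hsol t ht
      rw [hf M w] at hsol
      obtain ⟨e1, e2⟩ := g2 T hT (up u') (up p') hsol t ht
      constructor
      · funext y
        obtain ⟨x, rfl⟩ := proj_surjective y
        show u' t (proj x) = desc (velM M w t) (proj x)
        rw [desc_proj (hvper M w t)]
        exact congrFun e1 x
      · funext y
        obtain ⟨x, rfl⟩ := proj_surjective y
        exact congrFun e2 x
    · refine ⟨X₀, by rw [hX₀.1], fun t ht => ?_⟩
      show HasDerivWithinAt X₀ (desc (velM M w t) (proj (X₀ t))) (Ici 0) t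
      rw [desc_proj (hvper M w t)]
      exact hX₀.2 t ht
    · intro X hX
      obtain ⟨n, hn⟩ := proj_eq_iff.mp hX.1
      have hX' : IsTrajectory (velM M w) aStar (fun t => X t - fun i => (n i : ℝ)) := by
        refine ⟨by simp only [hn, add_sub_cancel_right], fun t ht => ?_⟩
        have hd : HasDerivWithinAt (fun s => X s - fun i => (n i : ℝ))
            (desc (velM M w t) (proj (X t))) (Ici 0) t :=
          (hX.2 t ht).sub_const (fun i => (n i : ℝ))
        rw [desc_proj (hvper M w t)] at hd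
        have hv : velM M w t (X t - fun i => (n i : ℝ)) = velM M w t (X t) := by
          have h := (hvper M w t).add_int n (X t - fun i => (n i : ℝ))
          rw [sub_add_cancel] at h
          exact h.symm
        show HasDerivWithinAt (fun s => X s - fun i => (n i : ℝ))
          (velM M w t (X t - fun i => (n i : ℝ))) (Ici 0) t
        rw [hv]
        exact hd
      rw [← g4 _ hX']
      have hmem : ∀ t, proj (X t) ∈ proj '' targetO ↔ (X t - fun i => (n i : ℝ)) ∈ targetO := by
        intro t
        have h : proj (X t) = proj (X t - fun i => (n i : ℝ)) := by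
          have h := proj_add_int (X t - fun i => (n i : ℝ)) n
          rw [sub_add_cancel] at h
          exact h
        rw [h, mem_image_proj_iff h2]
      simp only [hmem]

end Vale.Agent.P113
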