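import Vale.Agent.P113.Defs

/-!
# P113 subtask D1, auxiliary facts: periodic functions on the unit cube, coordinate
derivatives, integration by parts.
-/

namespace Vale.Agent.P113

open Set MeasureTheory
open scoped ContDiff

theorem TorusPeriodic.exists_cube {β : Type*} {g : R3 → β} (h : TorusPeriodic g) (x : R3) :
    ∃ y ∈ Icc (0 : R3) 1, g x = g y := by
  have h0 : Function.Periodic g (Pi.single 0 1) := h 0
  have h1 : Function.Periodic g (Pi.single 1 1) := h 1
  have h2 : Function.Periodic g (Pi.single 2 1) := h 2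
  have hc := ((h0.zsmul (-⌊x 0⌋)).add_period ((h1.zsmul (-⌊x 1⌋)).add_period
    (h2.zsmul (-⌊x 2⌋))))
  refine ⟨_, ?_, (hc x).symm⟩
  constructor
  · intro i
    fin_cases i <;> simp [Int.floor_le]
  · intro i
    fin_cases i <;> simp <;> linarith [Int.lt_floor_add_one (x 0), Int.lt_floor_add_one (x 1),
      Int.lt_floor_add_one (x 2)]

theorem TorusPeriodic.pd {g : R3 → ℝ} (h : TorusPeriodic g) (j : Fin 3) :
    TorusPeriodic (pd j g) := by
  intro i x
  have hg : (fun y => g (y + Pi.single i 1)) = g := funext (h i)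
  unfold Vale.Agent.P113.pd
  rw [← fderiv_comp_add_right, hg]

theorem pd_mul {g h : R3 → ℝ} {x : R3} (j : Fin 3) (hg : DifferentiableAt ℝ g x)
    (hh : DifferentiableAt ℝ h x) :
    pd j (fun y => g y * h y) x = pd j g x * h x + g x * pd j h x := by
  unfold pd
  rw [fderiv_fun_mul hg hh]
  simp
  ring

theorem pd_sub {g h : R3 → ℝ} {x : R3} (j : Fin 3) (hg : DifferentiableAt ℝ g x)
    (hh : DifferentiableAt ℝ h x) :
    pd j (fun y => g y - h y) x = pd j g x - pd j h x := by
  unfold pd
  rw [fderiv_fun_sub hg hh]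
  simp

theorem pd_sum {ι : Type*} (s : Finset ι) {g : ι → R3 → ℝ} {x : R3} (j : Fin 3)
    (hg : ∀ i ∈ s, DifferentiableAt ℝ (g i) x) :
    pd j (fun y => ∑ i ∈ s, g i y) x = ∑ i ∈ s, pd j (g i) x := by
  unfold pd
  rw [fderiv_fun_sum hg]
  simp

theorem contDiff_pd {g : R3 → ℝ} {n : ℕ} (hg : ContDiff ℝ (n + 1 : ℕ) g) (j : Fin 3) :
    ContDiff ℝ n (pd j g) := by
  unfold pd
  have : ContDiff ℝ n (fderiv ℝ g) := hg.fderiv_right (by norm_cast)
  exact this.clm_apply contDiff_const

theorem continuous_pd {g : R3 → ℝ} (hg : ContDiff ℝ 1 g) (j : Fin 3) :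
    Continuous (pd j g) := by
  have : ContDiff ℝ (0 : ℕ) (pd j g) := contDiff_pd (n := 0) (by simpa using hg) j
  exact this.continuous

/-- The integral over the unit cube of the divergence of a periodic `C^1` field vanishes. -/
theorem integral_div_eq_zero (F : Fin 3 → R3 → ℝ) (hF : ∀ i, ContDiff ℝ 1 (F i))
    (hper : ∀ i, TorusPeriodic (F i)) :
    ∫ x in Icc (0 : R3) 1, ∑ i, pd i (F i) x = 0 := by
  have hint : IntegrableOn (fun x => ∑ i, fderiv ℝ (F i) x (Pi.single i 1)) (Icc (0 : R3) 1) := by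
    apply Continuous.integrableOn_Icc
    exact continuous_finsetSum _ (fun i _ => continuous_pd (hF i) i)
  have key := integral_divergence_of_hasFDerivAt_off_countable' (a := (0 : R3)) (b := 1)
    (fun i => zero_le_one) F (fun i x => fderiv ℝ (F i) x) ∅ countable_empty
    (fun i => (hF i).continuous.continuousOn)
    (fun x _ i => ((hF i).differentiable one_ne_zero x).hasFDerivAt) hint
  unfold pd
  rw [key]
  apply Finset.sum_eq_zero
  intro i _
  rw [sub_eq_zero]
  congr 1
  funext x
  have : (i.insertNth (α := fun _ => ℝ) ((1 : R3) i) x : R3)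
      = (i.insertNth (α := fun _ => ℝ) ((0 : R3) i) x : R3) + Pi.single i 1 := by
    funext j
    rcases Fin.eq_self_or_eq_succAbove i j with rfl | ⟨k, rfl⟩
    · simp
    · simp
  rw [this, hper i i]

end Vale.Agent.P113
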