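import Vale.Agent.P113.UniqueAux

/-!
# P113 subtask D1: the energy inequality at a fixed time
-/

namespace Vale.Agent.P113

open Set MeasureTheory
open scoped ContDiff

/-- Transport by a periodic divergence free field does not change the mean. -/
theorem integral_transport_eq_zero {a : R3 → R3} {G : R3 → ℝ} (ha : ContDiff ℝ 1 a)
    (hG : ContDiff ℝ 1 G) (hap : TorusPeriodic a) (hGp : TorusPeriodic G)
    (hdiv : ∀ x, ∑ i, pd i (fun y => a y i) x = 0) :
    ∫ x in Icc (0 : R3) 1, ∑ j, a x j * pd j G x = 0 := by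
  have hai : ∀ i, ContDiff ℝ 1 (fun y => a y i) := fun i => contDiff_pi.1 ha i
  have key := integral_div_eq_zero (fun j y => a y j * G y) (fun j => (hai j).mul hG)
    (fun j i x => by
      show a (x + Pi.single i 1) j * G (x + Pi.single i 1) = a x j * G x
      rw [hap i x, hGp i x])
  rw [← key]
  congr 1
  funext x
  have h1 : ∀ j, pd j (fun y => a y j * G y) x
      = pd j (fun y => a y j) x * G x + a x j * pd j G x := fun j =>
    pd_mul j ((hai j).differentiable one_ne_zero x) (hG.differentiable one_ne_zero x)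
  simp only [h1, Finset.sum_add_distrib, ← Finset.sum_mul, hdiv x]
  ring

/-- `∫ g Δ g ≤ 0` for periodic `g`. -/
theorem integral_mul_laplace_nonpos {g : R3 → ℝ} (hg : ContDiff ℝ 2 g) (hp : TorusPeriodic g) :
    ∫ x in Icc (0 : R3) 1, g x * ∑ j, pd j (pd j g) x ≤ 0 := by
  have hg1 : ContDiff ℝ 1 g := hg.of_le (by norm_num)
  have hpd : ∀ j, ContDiff ℝ 1 (pd j g) := fun j => by
    have := contDiff_pd (n := 1) (g := g) (by simpa using hg) j
    simpa using this
  have key := integral_div_eq_zero (fun j y => g y * pd j g y) (fun j => hg1.mul (hpd j))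
    (fun j i x => by
      show g (x + Pi.single i 1) * pd j g (x + Pi.single i 1) = g x * pd j g x
      rw [hp i x, hp.pd j i x])
  rw [← key]
  have h1 : ∀ x j, pd j (fun y => g y * pd j g y) x
      = pd j g x * pd j g x + g x * pd j (pd j g) x := fun x j =>
    pd_mul j (hg1.differentiable one_ne_zero x) ((hpd j).differentiable one_ne_zero x)
  apply setIntegral_mono_on
  · apply Continuous.integrableOn_Icc
    exact hg.continuous.mul (continuous_finsetSum _ (fun j _ => continuous_pd (hpd j) j))
  · apply Continuous.integrableOn_Icc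
    exact continuous_finsetSum _ (fun j _ => continuous_pd (hg1.mul (hpd j)) j)
  · exact measurableSet_Icc
  · intro x _
    simp only [h1, Finset.sum_add_distrib, ← Finset.mul_sum]
    have : 0 ≤ ∑ j, pd j g x * pd j g x := Finset.sum_nonneg (fun j _ => mul_self_nonneg _)
    linarith

theorem neg_two_mul_le {M D p q : ℝ} (h : |D| ≤ M) : -(2 * (p * q * D)) ≤ M * (p * p + q * q) := by
  obtain ⟨h1, h2⟩ := abs_le.1 h
  have hM : 0 ≤ M := (abs_nonneg D).trans h
  rcases le_total 0 (p * q) with hpq | hpq
  · have e1 : 0 ≤ p * q * (D + M) := mul_nonneg hpq (by linarith)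
    have e2 : 0 ≤ M * ((p - q) * (p - q)) := mul_nonneg hM (mul_self_nonneg _)
    nlinarith
  · have e1 : 0 ≤ (-(p * q)) * (M - D) := mul_nonneg (by linarith) (by linarith)
    have e2 : 0 ≤ M * ((p + q) * (p + q)) := mul_nonneg hM (mul_self_nonneg _)
    nlinarith

/-- The energy inequality for the difference of two solutions at a fixed time. -/
theorem static_energy {ν M : ℝ} (hν : 0 ≤ ν) {a b wt : R3 → R3} {π : R3 → ℝ}
    (ha : ContDiff ℝ 2 a) (hb : ContDiff ℝ 2 b) (hπ : ContDiff ℝ 1 π)
    (hap : TorusPeriodic a) (hbp : TorusPeriodic b) (hπp : TorusPeriodic π)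
    (hadiv : ∀ x, ∑ i, pd i (fun y => a y i) x = 0)
    (hbdiv : ∀ x, ∑ i, pd i (fun y => b y i) x = 0)
    (hwt : Continuous wt)
    (hM : ∀ x ∈ Icc (0 : R3) 1, ∀ i j, |pd j (fun y => b y i) x| ≤ M)
    (heq : ∀ x i, wt x i + (∑ j, a x j * pd j (fun y => a y i) x
        - ∑ j, b x j * pd j (fun y => b y i) x)
      = - pd i π x + ν * (∑ j, pd j (pd j (fun y => a y i)) x
        - ∑ j, pd j (pd j (fun y => b y i)) x)) :
    ∫ x in Icc (0 : R3) 1, ∑ i, 2 * (a x i - b x i) * wt x i
      ≤ 6 * M * ∫ x in Icc (0 : R3) 1, ∑ i, (a x i - b x i) ^ 2 := by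
  have hai : ∀ i, ContDiff ℝ 2 (fun y => a y i) := fun i => contDiff_pi.1 ha i
  have hbi : ∀ i, ContDiff ℝ 2 (fun y => b y i) := fun i => contDiff_pi.1 hb i
  have two_ne : (2 : WithTop ℕ∞) ≠ 0 := by norm_num
  have hpda : ∀ i j, ContDiff ℝ 1 (pd j (fun y => a y i)) := fun i j => by
    have := contDiff_pd (n := 1) (g := fun y => a y i) (by simpa using hai i) j
    simpa using this
  have hpdb : ∀ i j, ContDiff ℝ 1 (pd j (fun y => b y i)) := fun i j => by
    have := contDiff_pd (n := 1) (g := fun y => b y i) (by simpa using hbi i) j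
    simpa using this
  set w : R3 → R3 := fun y i => a y i - b y i with hwdef
  have hwi : ∀ i, ContDiff ℝ 2 (fun y => w y i) := fun i => (hai i).sub (hbi i)
  have hw : ContDiff ℝ 2 w := contDiff_pi.2 hwi
  have hwp : TorusPeriodic w := fun i x => by
    funext k
    show a (x + Pi.single i 1) k - b (x + Pi.single i 1) k = a x k - b x k
    rw [hap i x, hbp i x]
  have hwip : ∀ k, TorusPeriodic (fun y => w y k) := fun k i x => congrFun (hwp i x) k
  have pdw : ∀ i j x, pd j (fun y => w y i) x
      = pd j (fun y => a y i) x - pd j (fun y => b y i) x := fun i j x =>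
    pd_sub j ((hai i).differentiable two_ne x) ((hbi i).differentiable two_ne x)
  have pdw' : ∀ i j, pd j (fun y => w y i)
      = fun x => pd j (fun y => a y i) x - pd j (fun y => b y i) x := fun i j => funext (pdw i j)
  have pdpdw : ∀ i j x, pd j (pd j (fun y => w y i)) x
      = pd j (pd j (fun y => a y i)) x - pd j (pd j (fun y => b y i)) x := fun i j x => by
    rw [pdw']
    exact pd_sub j ((hpda i j).differentiable one_ne_zero x)
      ((hpdb i j).differentiable one_ne_zero x)
  have hwdiv : ∀ x, ∑ i, pd i (fun y => w y i) x = 0 := fun x => by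
    simp only [pdw, Finset.sum_sub_distrib, hadiv x, hbdiv x, sub_zero]
  set G : R3 → ℝ := fun y => ∑ i, w y i * w y i with hGdef
  have hG : ContDiff ℝ 2 G := ContDiff.sum (fun i _ => (hwi i).mul (hwi i))
  have hGp : TorusPeriodic G := fun i x => by
    show ∑ k, w (x + Pi.single i 1) k * w (x + Pi.single i 1) k = ∑ k, w x k * w x k
    rw [hwp i x]
  have pdG : ∀ j x, pd j G x
      = ∑ i, (pd j (fun y => w y i) x * w x i + w x i * pd j (fun y => w y i) x) := fun j x => by
    rw [hGdef, pd_sum Finset.univ j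
      (fun i _ => (((hwi i).mul (hwi i)).differentiable two_ne x))]
    exact Finset.sum_congr rfl (fun i _ => pd_mul j ((hwi i).differentiable two_ne x)
      ((hwi i).differentiable two_ne x))
  have one_le_two : (1 : WithTop ℕ∞) ≤ 2 := by norm_num
  have T1 := integral_transport_eq_zero (ha.of_le one_le_two) (hG.of_le one_le_two) hap hGp hadiv
  have T2 := integral_transport_eq_zero (hw.of_le one_le_two) hπ hwp hπp hwdiv
  have T3 : ∀ i, ∫ x in Icc (0 : R3) 1, w x i * ∑ j, pd j (pd j (fun y => w y i)) x ≤ 0 :=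
    fun i => integral_mul_laplace_nonpos (hwi i) (hwip i)
  -- continuity of all the terms
  have hpdw1 : ∀ i j, ContDiff ℝ 1 (pd j (fun y => w y i)) := fun i j => by
    have := contDiff_pd (n := 1) (g := fun y => w y i) (by simpa using hwi i) j
    simpa using this
  have c1 : Continuous (fun x => ∑ j, a x j * pd j G x) :=
    continuous_finsetSum _ (fun j _ => (hai j).continuous.mul
      (continuous_pd (hG.of_le one_le_two) j))
  have c2 : Continuous (fun x => ∑ j, w x j * pd j π x) :=
    continuous_finsetSum _ (fun j _ => (hwi j).continuous.mul (continuous_pd hπ j))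
  have c3 : ∀ i, Continuous (fun x => w x i * ∑ j, pd j (pd j (fun y => w y i)) x) := fun i =>
    (hwi i).continuous.mul (continuous_finsetSum _ (fun j _ => continuous_pd (hpdw1 i j) j))
  have c4 : Continuous G := hG.continuous
  have c0 : Continuous (fun x => ∑ i, 2 * w x i * wt x i) :=
    continuous_finsetSum _ (fun i _ => (continuous_const.mul (hwi i).continuous).mul
      ((continuous_apply i).comp hwt))
  have i1 := c1.integrableOn_Icc (μ := volume) (a := (0 : R3)) (b := 1)
  have i2 := c2.integrableOn_Icc (μ := volume) (a := (0 : R3)) (b := 1)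
  have i3 := fun i => (c3 i).integrableOn_Icc (μ := volume) (a := (0 : R3)) (b := 1)
  have i4 := c4.integrableOn_Icc (μ := volume) (a := (0 : R3)) (b := 1)
  have i0 := c0.integrableOn_Icc (μ := volume) (a := (0 : R3)) (b := 1)
  have hGsq : ∀ x, ∑ i, (a x i - b x i) ^ 2 = G x := fun x =>
    Finset.sum_congr rfl (fun i _ => sq _)
  simp only [hGsq]
  have hpoint : ∀ x ∈ Icc (0 : R3) 1, ∑ i, 2 * w x i * wt x i
      ≤ (-1) * (∑ j, a x j * pd j G x) + (-2) * (∑ j, w x j * pd j π x)
        + (2 * ν) * (∑ i, w x i * ∑ j, pd j (pd j (fun y => w y i)) x) + (6 * M) * G x := by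
    intro x hx
    have hwt' : ∀ i, wt x i = - pd i π x + ν * (∑ j, pd j (pd j (fun y => w y i)) x)
        - ∑ j, a x j * pd j (fun y => w y i) x - ∑ j, w x j * pd j (fun y => b y i) x := by
      intro i
      have := heq x i
      have e1 : ∑ j, pd j (pd j (fun y => w y i)) x = ∑ j, pd j (pd j (fun y => a y i)) x
          - ∑ j, pd j (pd j (fun y => b y i)) x := by
        simp only [pdpdw, Finset.sum_sub_distrib]
      have e2 : ∑ j, a x j * pd j (fun y => w y i) x = ∑ j, a x j * pd j (fun y => a y i) x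
          - ∑ j, a x j * pd j (fun y => b y i) x := by
        simp only [pdw, mul_sub, Finset.sum_sub_distrib]
      have e3 : ∑ j, w x j * pd j (fun y => b y i) x = ∑ j, a x j * pd j (fun y => b y i) x
          - ∑ j, b x j * pd j (fun y => b y i) x := by
        simp only [hwdef, sub_mul, Finset.sum_sub_distrib]
      rw [e1, e2, e3]
      linarith
    have hD : ∀ i j, -(2 * (w x i * w x j * pd j (fun y => b y i) x))
        ≤ M * (w x i * w x i + w x j * w x j) := fun i j => neg_two_mul_le (hM x hx i j)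
    simp only [hwt', pdG]
    simp only [hGdef, Fin.sum_univ_three]
    linarith [hD 0 0, hD 0 1, hD 0 2, hD 1 0, hD 1 1, hD 1 2, hD 2 0, hD 2 1, hD 2 2]
  have j1 : IntegrableOn (fun x => (-1) * (∑ j, a x j * pd j G x)) (Icc (0 : R3) 1) :=
    i1.const_mul _
  have j2 : IntegrableOn (fun x => (-2) * (∑ j, w x j * pd j π x)) (Icc (0 : R3) 1) :=
    i2.const_mul _
  have j3 : IntegrableOn (fun x => (2 * ν) * (∑ i, w x i * ∑ j, pd j (pd j (fun y => w y i)) x))
      (Icc (0 : R3) 1) := (integrable_finsetSum _ (fun i _ => i3 i)).const_mul _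
  have j4 : IntegrableOn (fun x => (6 * M) * G x) (Icc (0 : R3) 1) := i4.const_mul _
  have j12 : IntegrableOn (fun x => (-1) * (∑ j, a x j * pd j G x)
      + (-2) * (∑ j, w x j * pd j π x)) (Icc (0 : R3) 1) := j1.add j2
  have j123 : IntegrableOn (fun x => (-1) * (∑ j, a x j * pd j G x)
      + (-2) * (∑ j, w x j * pd j π x)
      + (2 * ν) * (∑ i, w x i * ∑ j, pd j (pd j (fun y => w y i)) x)) (Icc (0 : R3) 1) :=
    j12.add j3
  calc ∫ x in Icc (0 : R3) 1, ∑ i, 2 * w x i * wt x i
      ≤ ∫ x in Icc (0 : R3) 1, ((-1) * (∑ j, a x j * pd j G x) + (-2) * (∑ j, w x j * pd j π x)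
        + (2 * ν) * (∑ i, w x i * ∑ j, pd j (pd j (fun y => w y i)) x) + (6 * M) * G x) := by
        exact setIntegral_mono_on i0 (j123.add j4) measurableSet_Icc hpoint
    _ = (-1) * (∫ x in Icc (0 : R3) 1, ∑ j, a x j * pd j G x)
        + (-2) * (∫ x in Icc (0 : R3) 1, ∑ j, w x j * pd j π x)
        + (2 * ν) * (∑ i, ∫ x in Icc (0 : R3) 1, w x i * ∑ j, pd j (pd j (fun y => w y i)) x)
        + (6 * M) * ∫ x in Icc (0 : R3) 1, G x := by
        rw [integral_add j123 j4, integral_add j12 j3, integral_add j1 j2,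
          integral_const_mul, integral_const_mul, integral_const_mul, integral_const_mul,
          integral_finsetSum _ (fun i _ => i3 i)]
    _ ≤ 6 * M * ∫ x in Icc (0 : R3) 1, G x := by
        rw [T1, T2]
        have : ∑ i, ∫ x in Icc (0 : R3) 1, w x i * ∑ j, pd j (pd j (fun y => w y i)) x ≤ 0 :=
          Finset.sum_nonpos (fun i _ => T3 i)
        have := mul_nonneg (mul_nonneg zero_le_two hν) (neg_nonneg.2 this)
        linarith

end Vale.Agent.P113
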